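import Crest.Agent.GS.Check

/-!
# Biased fixed-point gadgets for S0085

`Compose.lean` shows that one *balanced* gadget with `W g ^ 2 > deg g` gives the statement.
Here is the biased variant: if the bias polynomial `qmean G` of a Boolean function `G` of degree
at most `d` has a fixed point `a` with `(qder G a) ^ 2 > d`, and some Boolean function `h` has
mean `a` and `W h > 0`, then the towers `G ∘ G ∘ ⋯ ∘ G ∘ h` give the statement.
A kernel-checkable certificate (`certifyB`) is provided for dyadic `a`.
-/

set_option autoImplicit false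
set_option linter.unusedSectionVars false

namespace Crest.Agent.GS

open Finset

section biased

variable {ι κ : Type*} [Fintype ι] [DecidableEq ι] [Fintype κ] [DecidableEq κ]

/-- the normalised empty coefficient (the mean of the sign of `f`) -/
noncomputable def mean (f : (ι → Bool) → Bool) : ℝ := four f ∅ / 2 ^ Fintype.card ι

/-- the bias polynomial: the mean of `f` on independent inputs of mean `a` -/
noncomputable def qmean (f : (ι → Bool) → Bool) (a : ℝ) : ℝ :=
  ∑ S : Finset ι, four f S / 2 ^ Fintype.card ι * a ^ S.card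

/-- the derivative of the bias polynomial -/
noncomputable def qder (f : (ι → Bool) → Bool) (a : ℝ) : ℝ :=
  ∑ S : Finset ι, (S.card : ℝ) * (four f S / 2 ^ Fintype.card ι) * a ^ (S.card - 1)

lemma prod_ite_mem_const (S : Finset ι) (x y : ℝ) :
    ∏ i : ι, (if i ∈ S then x else y) = x ^ S.card * y ^ (Fintype.card ι - S.card) := by
  rw [Finset.prod_ite, Finset.prod_const, Finset.prod_const]
  have h1 : (Finset.univ.filter (fun i : ι => i ∈ S)) = S := by ext i; simp
  have h2 : (Finset.univ.filter (fun i : ι => ¬ i ∈ S)) = Sᶜ := by ext i; simp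
  rw [h1, h2, Finset.card_compl]

/-- The mean of a composition is the bias polynomial of the outer function at the mean of the
inner one. -/
theorem mean_comp (f : (ι → Bool) → Bool) (g : (κ → Bool) → Bool) :
    mean (comp f g) = qmean f (mean g) := by
  have key := four_comp f g ∅
  have hfib : ∀ i : ι, fib (∅ : Finset (ι × κ)) i = ∅ := by
    intro i; ext k; simp [mem_fib]
  have hterm : ∀ S : Finset ι, ∏ i : ι, (if i ∈ S then four g (fib (∅ : Finset (ι × κ)) i)
      else (if fib (∅ : Finset (ι × κ)) i = ∅ then (2 : ℝ) ^ Fintype.card κ else 0)) =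
      four g ∅ ^ S.card * ((2 : ℝ) ^ Fintype.card κ) ^ (Fintype.card ι - S.card) := by
    intro S
    simp only [hfib, if_true]
    exact prod_ite_mem_const S _ _
  simp only [hterm] at key
  have h2ι : (2 : ℝ) ^ Fintype.card ι ≠ 0 := by positivity
  have h2κ : (2 : ℝ) ^ Fintype.card κ ≠ 0 := by positivity
  unfold mean qmean
  rw [Fintype.card_prod, eq_div_of_mul_eq h2ι key, Finset.sum_div, Finset.sum_div]
  refine Finset.sum_congr rfl fun S _ => ?_
  have hS : S.card ≤ Fintype.card ι := Finset.card_le_univ S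
  have hp : (2 : ℝ) ^ (Fintype.card ι * Fintype.card κ) =
      ((2 : ℝ) ^ Fintype.card κ) ^ S.card *
        ((2 : ℝ) ^ Fintype.card κ) ^ (Fintype.card ι - S.card) := by
    rw [← pow_add, ← pow_mul, Nat.add_sub_cancel' hS, mul_comm]
  rw [hp, div_pow]
  field_simp

/-- the singleton coefficients of a composition, without any balance hypothesis -/
theorem four_comp_singleton_biased (f : (ι → Bool) → Bool) (g : (κ → Bool) → Bool)
    (i₀ : ι) (k₀ : κ) :
    four (comp f g) {(i₀, k₀)} * 2 ^ Fintype.card ι =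
      ∑ S : Finset ι, four f S * (if i₀ ∈ S then four g {k₀} * four g ∅ ^ (S.card - 1) *
        ((2 : ℝ) ^ Fintype.card κ) ^ (Fintype.card ι - S.card) else 0) := by
  rw [four_comp]
  refine Finset.sum_congr rfl fun S _ => ?_
  congr 1
  have hfib : ∀ i : ι, fib ({(i₀, k₀)} : Finset (ι × κ)) i = if i = i₀ then {k₀} else ∅ := by
    intro i
    ext k
    by_cases hi : i = i₀
    · subst hi; simp [mem_fib]
    · simp [mem_fib, hi]
  by_cases h0 : i₀ ∈ S
  · simp only [h0, if_true]
    rw [← Finset.mul_prod_erase Finset.univ _ (Finset.mem_univ i₀)]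
    have hfac : ∀ i ∈ (Finset.univ : Finset ι).erase i₀,
        (if i ∈ S then four g (fib ({(i₀, k₀)} : Finset (ι × κ)) i)
          else (if fib ({(i₀, k₀)} : Finset (ι × κ)) i = ∅ then (2 : ℝ) ^ Fintype.card κ else 0)) =
        (if i ∈ S then four g ∅ else (2 : ℝ) ^ Fintype.card κ) := by
      intro i hi
      have hne : i ≠ i₀ := Finset.ne_of_mem_erase hi
      simp [hfib, hne]
    rw [Finset.prod_congr rfl hfac]
    simp only [h0, if_true, hfib]
    rw [Finset.prod_ite, Finset.prod_const, Finset.prod_const]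
    have h1 : ((Finset.univ : Finset ι).erase i₀).filter (fun i => i ∈ S) = S.erase i₀ := by
      ext i; simp [and_comm]
    have h2 : ((Finset.univ : Finset ι).erase i₀).filter (fun i => ¬ i ∈ S) = Sᶜ := by
      ext i
      simp only [Finset.mem_filter, Finset.mem_erase, Finset.mem_univ, and_true,
        Finset.mem_compl]
      constructor
      · exact fun h => h.2
      · intro h
        exact ⟨fun hi => h (hi ▸ h0), h⟩
    rw [h1, h2, Finset.card_erase_of_mem h0, Finset.card_compl]
    ring
  · simp only [h0, if_false]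
    apply Finset.prod_eq_zero (Finset.mem_univ i₀)
    simp [h0, hfib]

/-- The chain rule for the level-one sum: no balance hypothesis. -/
theorem W_comp_biased (f : (ι → Bool) → Bool) (g : (κ → Bool) → Bool) :
    W (comp f g) = qder f (mean g) * W g := by
  have h2ι : (2 : ℝ) ^ Fintype.card ι ≠ 0 := by positivity
  have h2κ : (2 : ℝ) ^ Fintype.card κ ≠ 0 := by positivity
  have key : ∀ (i₀ : ι) (k₀ : κ), four (comp f g) {(i₀, k₀)} / 2 ^ Fintype.card (ι × κ) =
      (∑ S : Finset ι, (if i₀ ∈ S then (four f S / 2 ^ Fintype.card ι) *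
        (mean g) ^ (S.card - 1) else 0)) * (four g {k₀} / 2 ^ Fintype.card κ) := by
    intro i₀ k₀
    have h := four_comp_singleton_biased f g i₀ k₀
    rw [eq_div_of_mul_eq h2ι h, Finset.sum_div, Finset.sum_div, Finset.sum_mul]
    refine Finset.sum_congr rfl fun S _ => ?_
    by_cases h0 : i₀ ∈ S
    · simp only [h0, if_true]
      have hS : S.card ≤ Fintype.card ι := Finset.card_le_univ S
      have hS1 : 1 ≤ S.card := Finset.card_pos.mpr ⟨i₀, h0⟩
      have hp : (2 : ℝ) ^ Fintype.card (ι × κ) =
          ((2 : ℝ) ^ Fintype.card κ) ^ (S.card - 1) * (2 : ℝ) ^ Fintype.card κ *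
            ((2 : ℝ) ^ Fintype.card κ) ^ (Fintype.card ι - S.card) := by
        rw [Fintype.card_prod, ← pow_succ, ← pow_add, ← pow_mul]
        congr 1
        have : S.card - 1 + 1 + (Fintype.card ι - S.card) = Fintype.card ι := by omega
        rw [this, mul_comm]
      unfold mean
      rw [hp, div_pow]
      field_simp
    · simp [h0]
  unfold W
  rw [Fintype.sum_prod_type]
  simp only [key]
  rw [← Finset.sum_mul_sum]
  congr 1
  unfold qder
  rw [Finset.sum_comm]
  refine Finset.sum_congr rfl fun S _ => ?_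
  rw [Finset.sum_ite_mem, Finset.univ_inter, Finset.sum_const, nsmul_eq_mul]
  ring

end biased

section towerB

/-- there is a Boolean function of degree at most `d` with level-one sum `w` and mean `a` -/
def GoodB (d : ℕ) (w a : ℝ) : Prop :=
  ∃ (ι : Type) (_ : Fintype ι) (_ : DecidableEq ι) (f : (ι → Bool) → Bool),
    DegLE f d ∧ W f = w ∧ mean f = a

lemma goodB_step {e : ℕ} {w a : ℝ} (h : GoodB e w a) {κ : Type} [Fintype κ] [DecidableEq κ]
    (G : (κ → Bool) → Bool) {d : ℕ} (hG : DegLE G d) (hfix : qmean G a = a) :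
    GoodB (d * e) (qder G a * w) a := by
  obtain ⟨ι, _, _, f, hf, hW, hm⟩ := h
  refine ⟨κ × ι, inferInstance, inferInstance, comp G f, degLE_comp hG hf, ?_, ?_⟩
  · rw [W_comp_biased, hm, hW]
  · rw [mean_comp, hm, hfix]

lemma goodB_pow {e : ℕ} {w a : ℝ} (h : GoodB e w a) {κ : Type} [Fintype κ] [DecidableEq κ]
    (G : (κ → Bool) → Bool) {d : ℕ} (hG : DegLE G d) (hfix : qmean G a = a) (k : ℕ) :
    GoodB (d ^ k * e) (qder G a ^ k * w) a := by
  induction k with
  | zero => simpa using h
  | succ k ih =>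
    have := goodB_step ih G hG hfix
    have e1 : d * (d ^ k * e) = d ^ (k + 1) * e := by ring
    have e2 : qder G a * (qder G a ^ k * w) = qder G a ^ (k + 1) * w := by ring
    rwa [e1, e2] at this

lemma goodB_fin {d : ℕ} {w a : ℝ} (h : GoodB d w a) :
    ∃ n : ℕ, ∃ f : (Fin n → Bool) → Bool, DegLE f d ∧ W f = w := by
  obtain ⟨ι, _, _, f, hf, hW, _⟩ := h
  exact good_fin ⟨ι, inferInstance, inferInstance, f, hf, hW⟩

end towerB

/-- **One biased fixed-point gadget suffices.**  If the bias polynomial of a Boolean function `G`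
of degree at most `d₀` has a fixed point `a` with `(qder G a) ^ 2 > d₀`, and some Boolean function
`h` has mean `a` and positive level-one sum, then the statement S0085 holds. -/
theorem statement_of_biased_gadget {κ : Type} [Fintype κ] [DecidableEq κ] (G : (κ → Bool) → Bool)
    (d₀ : ℕ) (hdeg : DegLE G d₀) (a : ℝ) (hfix : qmean G a = a)
    (hder : (d₀ : ℝ) < qder G a ^ 2)
    {κ' : Type} [Fintype κ'] [DecidableEq κ'] (h : (κ' → Bool) → Bool) (e : ℕ)
    (hdegh : DegLE h e) (hmean : mean h = a) (hWh : 0 < W h) (C : ℝ) :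
    ∃ n : ℕ, ∃ f : (Fin n → Bool) → Bool, ∃ d : ℕ,
      (∃ x y, f x ≠ f y) ∧
      (∀ S : Finset (Fin n), d < S.card →
        ∑ x : Fin n → Bool, ((if f x then (1 : ℝ) else -1) * ∏ i ∈ S, (if x i then (1 : ℝ) else -1)) = 0) ∧
      C * Real.sqrt d <
        ∑ i : Fin n, (∑ x : Fin n → Bool, ((if f x then (1 : ℝ) else -1) * (if x i then (1 : ℝ) else -1))) / 2 ^ n := by
  -- the degree bound is positive
  have hd₀ : 1 ≤ d₀ := by
    by_contra hcon
    have h0 : d₀ = 0 := by omega
    subst h0
    have : qder G a = 0 := by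
      unfold qder
      refine Finset.sum_eq_zero fun S _ => ?_
      by_cases hS : S.card = 0
      · rw [hS]; simp
      · rw [hdeg S (by omega)]; simp
    rw [this] at hder
    simp at hder
  have hd₀' : (0 : ℝ) < d₀ := by exact_mod_cast hd₀
  have hr : 1 < qder G a ^ 2 / d₀ := by rw [lt_div_iff₀ hd₀']; simpa using hder
  obtain ⟨j, hj⟩ := pow_unbounded_of_one_lt (C * Real.sqrt e / W h) hr
  have hstart : GoodB e (W h) a := ⟨κ', inferInstance, inferInstance, h, hdegh, rfl, hmean⟩
  obtain ⟨n, f, hf, hWf⟩ := goodB_fin (goodB_pow hstart G hdeg hfix (2 * j))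
  have hlam : 0 < qder G a ^ 2 := lt_trans hd₀' hder
  have hWpos : 0 < W f := by
    rw [hWf, pow_mul]
    positivity
  refine ⟨n, f, d₀ ^ (2 * j) * e, ?_, ?_, ?_⟩
  · by_contra hcon
    have hc : ∀ x y, f x = f y := by
      intro x y
      by_contra hxy
      exact hcon ⟨x, y, hxy⟩
    have := W_eq_zero_of_const hc
    linarith
  · intro S hS
    exact hf S hS
  · have hsum : ∑ i : Fin n, (∑ x : Fin n → Bool,
        ((if f x then (1 : ℝ) else -1) * (if x i then (1 : ℝ) else -1))) / 2 ^ n = W f := by
      unfold W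
      refine Finset.sum_congr rfl fun i _ => ?_
      rw [Fintype.card_fin]
      congr 1
      unfold four chi
      refine Finset.sum_congr rfl fun x _ => ?_
      rw [Finset.prod_singleton]
      rfl
    rw [hsum, hWf]
    have hsqrt : Real.sqrt ((d₀ ^ (2 * j) * e : ℕ) : ℝ) = (d₀ : ℝ) ^ j * Real.sqrt e := by
      have : ((d₀ ^ (2 * j) * e : ℕ) : ℝ) = ((d₀ : ℝ) ^ j) ^ 2 * (e : ℝ) := by
        push_cast
        rw [← pow_mul, mul_comm j 2]
      rw [this, Real.sqrt_mul (by positivity), Real.sqrt_sq (by positivity)]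
    rw [hsqrt, pow_mul]
    have hdj : (0 : ℝ) < (d₀ : ℝ) ^ j := by positivity
    have h1 : C * Real.sqrt e / W h < (qder G a ^ 2) ^ j / (d₀ : ℝ) ^ j := by rwa [← div_pow]
    rw [div_lt_div_iff₀ hWh hdj] at h1
    linarith

/-! ### A kernel-checkable certificate for a biased gadget with a dyadic fixed point -/

/-- homogeneous evaluation of a coefficient tree: `∑_S coef S * A^|S| * B^(n-|S|)` -/
def evalq : (n : ℕ) → Tr n → ℤ → ℤ → ℤ
  | 0, v, _, _ => v
  | n + 1, c, A, B => Int.add (Int.mul B (evalq n c.1 A B)) (Int.mul A (evalq n c.2 A B))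

/-- its derivative in `A`: `∑_S coef S * |S| * A^(|S|-1) * B^(n-|S|)` -/
def devalq : (n : ℕ) → Tr n → ℤ → ℤ → ℤ
  | 0, _, _, _ => 0
  | n + 1, c, A, B =>
      Int.add (Int.add (Int.mul B (devalq n c.1 A B)) (Int.mul A (devalq n c.2 A B)))
        (evalq n c.2 A B)

lemma sum_finset_succ {n : ℕ} (F : Finset (Fin (n + 1)) → ℤ) :
    ∑ S : Finset (Fin (n + 1)), F S =
      ∑ T : Finset (Fin n), F (T.image Fin.succ) +
        ∑ T : Finset (Fin n), F (insert 0 (T.image Fin.succ)) := by
  have hu : (Finset.univ : Finset (Fin (n + 1))) =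
      insert 0 ((Finset.univ : Finset (Fin n)).image Fin.succ) := by
    ext i
    refine Fin.cases ?_ (fun j => ?_) i <;> simp
  have h0 : (0 : Fin (n + 1)) ∉ (Finset.univ : Finset (Fin n)).image Fin.succ := by
    simp
  have hinj : Function.Injective (fun t : Finset (Fin n) => t.image Fin.succ) :=
    Finset.image_injective (Fin.succ_injective n)
  rw [← Finset.powerset_univ, hu, Finset.sum_powerset_insert h0, Finset.powerset_image,
    Finset.sum_image (fun x _ y _ hxy => hinj hxy), Finset.sum_image (fun x _ y _ hxy => hinj hxy),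
    Finset.powerset_univ]

lemma tl_image_succ {n : ℕ} (T : Finset (Fin n)) : tl (T.image Fin.succ) = T := by
  ext j; simp [tl]

lemma tl_insert_image_succ {n : ℕ} (T : Finset (Fin n)) :
    tl (insert 0 (T.image Fin.succ)) = T := by
  ext j; simp [tl]

lemma zero_notMem_image_succ {n : ℕ} (T : Finset (Fin n)) :
    (0 : Fin (n + 1)) ∉ T.image Fin.succ := by
  simp [Fin.succ_ne_zero]

lemma card_image_succ {n : ℕ} (T : Finset (Fin n)) : (T.image Fin.succ).card = T.card :=
  Finset.card_image_of_injective T (Fin.succ_injective n)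

lemma card_insert_image_succ {n : ℕ} (T : Finset (Fin n)) :
    (insert 0 (T.image Fin.succ)).card = T.card + 1 := by
  rw [Finset.card_insert_of_notMem (zero_notMem_image_succ T), card_image_succ]

lemma card_le_fin {n : ℕ} (T : Finset (Fin n)) : T.card ≤ n := by
  simpa using Finset.card_le_univ T

theorem evalq_eq : ∀ (n : ℕ) (c : Tr n) (A B : ℤ),
    evalq n c A B = ∑ S : Finset (Fin n), coef n c S * A ^ S.card * B ^ (n - S.card)
  | 0, c, A, B => by
    have hd : (default : Finset (Fin 0)) = ∅ := Subsingleton.elim _ _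
    rw [Fintype.sum_unique, hd]
    simp only [evalq, coef, Finset.card_empty, pow_zero, Nat.sub_self]
    exact ((mul_one (M := ℤ) _).trans (mul_one (M := ℤ) _)).symm
  | n + 1, c, A, B => by
    rw [sum_finset_succ]
    have ih1 := evalq_eq n c.1 A B
    have ih2 := evalq_eq n c.2 A B
    have e1 : ∀ T : Finset (Fin n),
        coef (n + 1) c (T.image Fin.succ) * A ^ (T.image Fin.succ).card *
          B ^ (n + 1 - (T.image Fin.succ).card) =
        B * (coef n c.1 T * A ^ T.card * B ^ (n - T.card)) := by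
      intro T
      have hT := card_le_fin T
      have : n + 1 - T.card = (n - T.card) + 1 := by omega
      simp only [coef, zero_notMem_image_succ, if_false, tl_image_succ, card_image_succ, this]
      ring
    have e2 : ∀ T : Finset (Fin n),
        coef (n + 1) c (insert 0 (T.image Fin.succ)) * A ^ (insert 0 (T.image Fin.succ)).card *
          B ^ (n + 1 - (insert 0 (T.image Fin.succ)).card) =
        A * (coef n c.2 T * A ^ T.card * B ^ (n - T.card)) := by
      intro T
      have : n + 1 - (T.card + 1) = n - T.card := by omega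
      simp only [coef, Finset.mem_insert_self, if_true, tl_insert_image_succ,
        card_insert_image_succ, this]
      ring
    simp only [e1, e2, ← Finset.mul_sum, ← ih1, ← ih2]
    rfl

theorem devalq_eq : ∀ (n : ℕ) (c : Tr n) (A B : ℤ),
    devalq n c A B =
      ∑ S : Finset (Fin n), coef n c S * (S.card : ℤ) * A ^ (S.card - 1) * B ^ (n - S.card)
  | 0, c, A, B => by
    have hd : (default : Finset (Fin 0)) = ∅ := Subsingleton.elim _ _
    rw [Fintype.sum_unique, hd]
    simp [devalq]
  | n + 1, c, A, B => by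
    rw [sum_finset_succ]
    have ih1 := devalq_eq n c.1 A B
    have ih2 := devalq_eq n c.2 A B
    have ih3 := evalq_eq n c.2 A B
    have e1 : ∀ T : Finset (Fin n),
        coef (n + 1) c (T.image Fin.succ) * ((T.image Fin.succ).card : ℤ) *
          A ^ ((T.image Fin.succ).card - 1) * B ^ (n + 1 - (T.image Fin.succ).card) =
        B * (coef n c.1 T * (T.card : ℤ) * A ^ (T.card - 1) * B ^ (n - T.card)) := by
      intro T
      have hT := card_le_fin T
      have : n + 1 - T.card = (n - T.card) + 1 := by omega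
      simp only [coef, zero_notMem_image_succ, if_false, tl_image_succ, card_image_succ, this]
      ring
    have e2 : ∀ T : Finset (Fin n),
        coef (n + 1) c (insert 0 (T.image Fin.succ)) *
          ((insert 0 (T.image Fin.succ)).card : ℤ) *
          A ^ ((insert 0 (T.image Fin.succ)).card - 1) *
          B ^ (n + 1 - (insert 0 (T.image Fin.succ)).card) =
        A * (coef n c.2 T * (T.card : ℤ) * A ^ (T.card - 1) * B ^ (n - T.card)) +
          coef n c.2 T * A ^ T.card * B ^ (n - T.card) := by
      intro T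
      have h1 : n + 1 - (T.card + 1) = n - T.card := by omega
      have h2 : T.card + 1 - 1 = T.card := by omega
      have h3 : (T.card : ℤ) * A ^ T.card = A * ((T.card : ℤ) * A ^ (T.card - 1)) := by
        rcases Nat.eq_zero_or_pos T.card with h | h
        · rw [h]; simp
        · have : T.card = (T.card - 1) + 1 := by omega
          rw [this, pow_succ]
          simp only [Nat.add_sub_cancel]
          ring
      simp only [coef, Finset.mem_insert_self, if_true, tl_insert_image_succ,
        card_insert_image_succ, h1, h2]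
      push_cast
      have : coef n c.2 T * ((T.card : ℤ) + 1) * A ^ T.card * B ^ (n - T.card) =
          coef n c.2 T * ((T.card : ℤ) * A ^ T.card) * B ^ (n - T.card) +
            coef n c.2 T * A ^ T.card * B ^ (n - T.card) := by ring
      rw [this, h3]
      ring
    simp only [e1, e2, Finset.sum_add_distrib, ← Finset.mul_sum, ← ih1, ← ih2, ← ih3]
    show B * devalq n c.1 A B + A * devalq n c.2 A B + evalq n c.2 A B = _
    ring

lemma qmean_gfun (n m : ℕ) (A B : ℤ) (hB : (B : ℝ) ≠ 0) :
    qmean (gfun n m) ((A : ℝ) / B) * (2 ^ n * (B : ℝ) ^ n) =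
      ((evalq n (wht n (mk n m)) A B : ℤ) : ℝ) := by
  rw [evalq_eq]
  unfold qmean
  rw [Fintype.card_fin, Finset.sum_mul]
  push_cast
  refine Finset.sum_congr rfl fun S _ => ?_
  rw [four_gfun]
  have hS := card_le_fin S
  have hp : (B : ℝ) ^ n = (B : ℝ) ^ S.card * (B : ℝ) ^ (n - S.card) := by
    rw [← pow_add, Nat.add_sub_cancel' hS]
  rw [hp, div_pow]
  field_simp

lemma qder_gfun (n m : ℕ) (A B : ℤ) (hB : (B : ℝ) ≠ 0) :
    qder (gfun n m) ((A : ℝ) / B) * (2 ^ n * (B : ℝ) ^ n) =
      ((devalq n (wht n (mk n m)) A B : ℤ) : ℝ) * B := by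
  rw [devalq_eq]
  unfold qder
  rw [Fintype.card_fin, Finset.sum_mul]
  push_cast
  rw [Finset.sum_mul]
  refine Finset.sum_congr rfl fun S _ => ?_
  rw [four_gfun]
  have hS := card_le_fin S
  rcases Nat.eq_zero_or_pos S.card with h0 | h0
  · rw [h0]; simp
  · have hp : (B : ℝ) ^ n = (B : ℝ) ^ (S.card - 1) * (B : ℝ) * (B : ℝ) ^ (n - S.card) := by
      rw [← pow_succ, ← pow_add]
      congr 1
      omega
    rw [hp, div_pow]
    field_simp

/-- the certificate for a biased gadget: `G = gfun n M` of degree at most `d`, starter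
`h = gfun m M₀`, fixed point `a = (empty coefficient of h) / 2 ^ m`. -/
def certifyB (n d M m M₀ : ℕ) : Bool :=
  let c := wht n (mk n M)
  let c' := wht m (mk m M₀)
  let A := c0 m c'
  let B : ℤ := 2 ^ m
  let D : ℤ := 2 ^ n * B ^ n
  chk n d c && (decide (evalq n c A B * B = A * D) &&
    (decide ((d : ℤ) * D ^ 2 < (devalq n c A B * B) ^ 2) && decide (0 < lvl1 m c')))

/-- **A certified biased gadget proves S0085.** -/
theorem statement_of_certifyB (n d M m M₀ : ℕ) (h : certifyB n d M m M₀ = true) (C : ℝ) :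
    ∃ n : ℕ, ∃ f : (Fin n → Bool) → Bool, ∃ d : ℕ,
      (∃ x y, f x ≠ f y) ∧
      (∀ S : Finset (Fin n), d < S.card →
        ∑ x : Fin n → Bool, ((if f x then (1 : ℝ) else -1) * ∏ i ∈ S, (if x i then (1 : ℝ) else -1)) = 0) ∧
      C * Real.sqrt d <
        ∑ i : Fin n, (∑ x : Fin n → Bool, ((if f x then (1 : ℝ) else -1) * (if x i then (1 : ℝ) else -1))) / 2 ^ n := by
  simp only [certifyB, Bool.and_eq_true, decide_eq_true_eq] at h
  obtain ⟨h1, h2, h3, h4⟩ := h
  set c := wht n (mk n M) with hc
  set c' := wht m (mk m M₀) with hc'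
  set A : ℤ := c0 m c' with hA
  set B : ℤ := 2 ^ m with hB
  set D : ℤ := 2 ^ n * B ^ n with hD
  have hBpos : (0 : ℝ) < (B : ℝ) := by rw [hB]; push_cast; positivity
  have hBne : (B : ℝ) ≠ 0 := hBpos.ne'
  have hDpos : (0 : ℝ) < (D : ℝ) := by rw [hD]; push_cast; positivity
  have hDeq : (D : ℝ) = 2 ^ n * (B : ℝ) ^ n := by rw [hD]; push_cast; ring
  -- degree of G
  have hdeg : DegLE (gfun n M) d := by
    intro S hS
    rw [four_gfun, coef_chk n d _ h1 S hS]
    simp
  -- fixed point
  have hfix : qmean (gfun n M) ((A : ℝ) / B) = (A : ℝ) / B := by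
    have e := qmean_gfun n M A B hBne
    rw [← hDeq] at e
    have h2' : ((evalq n c A B : ℤ) : ℝ) * (B : ℝ) = (A : ℝ) * (D : ℝ) := by exact_mod_cast h2
    rw [eq_div_iff hBne]
    have : qmean (gfun n M) ((A : ℝ) / B) * (B : ℝ) * (D : ℝ) = (A : ℝ) * (D : ℝ) := by
      calc qmean (gfun n M) ((A : ℝ) / B) * (B : ℝ) * (D : ℝ)
          = qmean (gfun n M) ((A : ℝ) / B) * (D : ℝ) * (B : ℝ) := by ring
        _ = _ := by rw [e, h2']
    exact mul_right_cancel₀ hDpos.ne' this
  -- derivative
  have hder : (d : ℝ) < qder (gfun n M) ((A : ℝ) / B) ^ 2 := by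
    have e := qder_gfun n M A B hBne
    rw [← hDeq] at e
    have h3' : ((d : ℤ) : ℝ) * (D : ℝ) ^ 2 < (((devalq n c A B : ℤ) : ℝ) * (B : ℝ)) ^ 2 := by
      exact_mod_cast h3
    rw [← e, mul_pow] at h3'
    have hD2 : (0 : ℝ) < (D : ℝ) ^ 2 := by positivity
    have := lt_of_mul_lt_mul_right h3' hD2.le
    simpa using this
  -- the starter
  have hdegh : DegLE (gfun m M₀) m := by
    intro S hS
    exfalso
    have := card_le_fin S
    omega
  have hmean : mean (gfun m M₀) = (A : ℝ) / B := by
    unfold mean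
    rw [four_gfun, coef_empty, Fintype.card_fin, hB]
    push_cast
    rfl
  have hWh : 0 < W (gfun m M₀) := by
    have hW : W (gfun m M₀) = ((lvl1 m c' : ℤ) : ℝ) / 2 ^ m := by
      unfold W
      rw [Fintype.card_fin, ← Finset.sum_div, ← sum_coef_singleton]
      push_cast
      congr 1
      refine Finset.sum_congr rfl fun i _ => ?_
      rw [four_gfun]
    rw [hW]
    have : (0 : ℝ) < ((lvl1 m c' : ℤ) : ℝ) := by exact_mod_cast h4
    positivity
  exact statement_of_biased_gadget (gfun n M) d hdeg ((A : ℝ) / B) hfix hder (gfun m M₀) m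
    hdegh hmean hWh C

end Crest.Agent.GS
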