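import Crest.Agent.GS.Packed

/-!
# Recursor-style implementations of the packed certificate

The same functions as in `Packed.lean`, written directly with `Nat.rec` so that the constants of
each level are closed terms shared by all calls of that level (less work and far less memory
for the kernel).  `certifyR_eq` identifies the two certificates.
-/

set_option autoImplicit false

namespace Crest.Agent.GS

/-- `whtP`, recursor style -/
def whtR (B : ℕ) (n : ℕ) : ℕ → ℕ :=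
  Nat.rec (motive := fun _ => ℕ → ℕ) (fun m => 2 * (m % 2))
    (fun n ih =>
      (fun (T TB off : ℕ) (m : ℕ) =>
        (fun (a b : ℕ) => (b + a) + TB * (b + off - a)) (ih (m % T)) (ih (m / T)))
        (2 ^ 2 ^ n) (B ^ 2 ^ n) (2 ^ (n + 1) * rep B n)) n

/-- `chkP`, recursor style -/
def chkR (B o : ℕ) (n : ℕ) : ℕ → ℕ → Bool :=
  Nat.rec (motive := fun _ => ℕ → ℕ → Bool) (fun _ _ => true)
    (fun n ih =>
      (fun (TB z : ℕ) (d V : ℕ) =>
        ih d (V % TB) &&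
          (Nat.rec (motive := fun _ => Bool) (decide (V / TB = z)) (fun d' _ => ih d' (V / TB)) d))
        (B ^ 2 ^ n) (o * rep B n)) n

/-- the packed certificate, recursor style -/
def certifyR (n d m : ℕ) : Bool :=
  (fun (V : ℕ) =>
    chkR (2 ^ (n + 2)) (2 ^ n) n d V &&
      (decide (c0P (2 ^ (n + 2)) (2 ^ n) n V = 0) &&
        decide ((d : ℤ) * 4 ^ n < lvl1P (2 ^ (n + 2)) (2 ^ n) n V ^ 2)))
    (whtR (2 ^ (n + 2)) n m)

lemma whtR_eq (B : ℕ) : ∀ (n m : ℕ), whtR B n m = whtP B n m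
  | 0, _ => rfl
  | n + 1, m => by
    show (whtR B n (m / 2 ^ 2 ^ n) + whtR B n (m % 2 ^ 2 ^ n)) +
        B ^ 2 ^ n * (whtR B n (m / 2 ^ 2 ^ n) + 2 ^ (n + 1) * rep B n - whtR B n (m % 2 ^ 2 ^ n)) =
      (whtP B n (m / 2 ^ 2 ^ n) + whtP B n (m % 2 ^ 2 ^ n)) +
        B ^ 2 ^ n * (whtP B n (m / 2 ^ 2 ^ n) + 2 ^ (n + 1) * rep B n - whtP B n (m % 2 ^ 2 ^ n))
    rw [whtR_eq B n, whtR_eq B n]

lemma chkR_eq (B o : ℕ) : ∀ (n d V : ℕ), chkR B o n d V = chkP B o n d V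
  | 0, _, _ => rfl
  | n + 1, 0, V => by
    show (chkR B o n 0 (V % B ^ 2 ^ n) && decide (V / B ^ 2 ^ n = o * rep B n)) =
      (chkP B o n 0 (V % B ^ 2 ^ n) && decide (V / B ^ 2 ^ n = o * rep B n))
    rw [chkR_eq B o n]
  | n + 1, d' + 1, V => by
    show (chkR B o n (d' + 1) (V % B ^ 2 ^ n) && chkR B o n d' (V / B ^ 2 ^ n)) =
      (chkP B o n (d' + 1) (V % B ^ 2 ^ n) && chkP B o n d' (V / B ^ 2 ^ n))
    rw [chkR_eq B o n, chkR_eq B o n]

lemma certifyR_eq (n d m : ℕ) : certifyR n d m = certifyP n d m := by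
  show (chkR (2 ^ (n + 2)) (2 ^ n) n d (whtR (2 ^ (n + 2)) n m) &&
      (decide (c0P (2 ^ (n + 2)) (2 ^ n) n (whtR (2 ^ (n + 2)) n m) = 0) &&
        decide ((d : ℤ) * 4 ^ n < lvl1P (2 ^ (n + 2)) (2 ^ n) n (whtR (2 ^ (n + 2)) n m) ^ 2))) =
    (chkP (2 ^ (n + 2)) (2 ^ n) n d (whtP (2 ^ (n + 2)) n m) &&
      (decide (c0P (2 ^ (n + 2)) (2 ^ n) n (whtP (2 ^ (n + 2)) n m) = 0) &&
        decide ((d : ℤ) * 4 ^ n < lvl1P (2 ^ (n + 2)) (2 ^ n) n (whtP (2 ^ (n + 2)) n m) ^ 2)))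
  rw [whtR_eq, chkR_eq]

/-- **A certified truth table proves S0085** (fast packed certificate). -/
theorem statement_of_certifyR (n d m : ℕ) (h : certifyR n d m = true) (C : ℝ) :
    ∃ n : ℕ, ∃ f : (Fin n → Bool) → Bool, ∃ d : ℕ,
      (∃ x y, f x ≠ f y) ∧
      (∀ S : Finset (Fin n), d < S.card →
        ∑ x : Fin n → Bool, ((if f x then (1 : ℝ) else -1) * ∏ i ∈ S, (if x i then (1 : ℝ) else -1)) = 0) ∧
      C * Real.sqrt d <
        ∑ i : Fin n, (∑ x : Fin n → Bool, ((if f x then (1 : ℝ) else -1) * (if x i then (1 : ℝ) else -1))) / 2 ^ n :=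
  statement_of_certifyP n d m (by rw [← certifyR_eq]; exact h) C

end Crest.Agent.GS
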