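import Crest.Agent.GS.Biased
import Crest.Agent.GS.Fast

/-!
# The biased certificate on packed numbers

`certifyBR` is the certificate `certifyB` of `Biased.lean` with the Walsh–Hadamard transform of the
gadget computed by the packed routine `whtR` of `Fast.lean` (the starter stays a small tree).
-/

set_option autoImplicit false
set_option linter.unusedSectionVars false

namespace Crest.Agent.GS

/-- `evalq` on a packed coefficient vector (fields of base `B`, offset `o`) -/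
def evalqP (B o : ℕ) : (n : ℕ) → ℕ → ℤ → ℤ → ℤ
  | 0, V, _, _ => Int.sub (Int.ofNat V) (Int.ofNat o)
  | n + 1, V, A, Bb =>
      Int.add (Int.mul Bb (evalqP B o n (V % B ^ 2 ^ n) A Bb))
        (Int.mul A (evalqP B o n (V / B ^ 2 ^ n) A Bb))

/-- `devalq` on a packed coefficient vector -/
def devalqP (B o : ℕ) : (n : ℕ) → ℕ → ℤ → ℤ → ℤ
  | 0, _, _, _ => 0
  | n + 1, V, A, Bb =>
      Int.add (Int.add (Int.mul Bb (devalqP B o n (V % B ^ 2 ^ n) A Bb))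
        (Int.mul A (devalqP B o n (V / B ^ 2 ^ n) A Bb)))
        (evalqP B o n (V / B ^ 2 ^ n) A Bb)

lemma evalqP_sound (B o : ℕ) (A Bb : ℤ) : ∀ (n V : ℕ) (c : Tr n), Bd B o n c →
    (V : ℤ) = pk B o n c → evalqP B o n V A Bb = evalq n c A Bb
  | 0, V, c, _, hV => by
    have hV' : (V : ℤ) = leaf c + (o : ℤ) := hV
    show (V : ℤ) - (o : ℤ) = leaf c
    linarith
  | n + 1, V, c, hbd, hV => by
    obtain ⟨h1, h2⟩ := pk_split B o n c hbd V hV
    show Int.add (Int.mul Bb (evalqP B o n (V % B ^ 2 ^ n) A Bb))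
        (Int.mul A (evalqP B o n (V / B ^ 2 ^ n) A Bb)) =
      Int.add (Int.mul Bb (evalq n c.1 A Bb)) (Int.mul A (evalq n c.2 A Bb))
    rw [evalqP_sound B o A Bb n _ c.1 hbd.1 h1, evalqP_sound B o A Bb n _ c.2 hbd.2 h2]

lemma devalqP_sound (B o : ℕ) (A Bb : ℤ) : ∀ (n V : ℕ) (c : Tr n), Bd B o n c →
    (V : ℤ) = pk B o n c → devalqP B o n V A Bb = devalq n c A Bb
  | 0, _, _, _, _ => rfl
  | n + 1, V, c, hbd, hV => by
    obtain ⟨h1, h2⟩ := pk_split B o n c hbd V hV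
    show Int.add (Int.add (Int.mul Bb (devalqP B o n (V % B ^ 2 ^ n) A Bb))
        (Int.mul A (devalqP B o n (V / B ^ 2 ^ n) A Bb)))
        (evalqP B o n (V / B ^ 2 ^ n) A Bb) =
      Int.add (Int.add (Int.mul Bb (devalq n c.1 A Bb)) (Int.mul A (devalq n c.2 A Bb)))
        (evalq n c.2 A Bb)
    rw [devalqP_sound B o A Bb n _ c.1 hbd.1 h1, devalqP_sound B o A Bb n _ c.2 hbd.2 h2,
      evalqP_sound B o A Bb n _ c.2 hbd.2 h2]

/-- the biased certificate with the packed transform of the gadget -/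
def certifyBR (n d M m M₀ : ℕ) : Bool :=
  (fun (V : ℕ) (A Bb : ℤ) (l1 : ℤ) =>
    (fun (D : ℤ) =>
      chkR (2 ^ (n + 2)) (2 ^ n) n d V &&
        (decide (evalqP (2 ^ (n + 2)) (2 ^ n) n V A Bb * Bb = A * D) &&
          (decide ((d : ℤ) * D ^ 2 < (devalqP (2 ^ (n + 2)) (2 ^ n) n V A Bb * Bb) ^ 2) &&
            decide (0 < l1))))
      (2 ^ n * Bb ^ n))
    (whtR (2 ^ (n + 2)) n M) (c0 m (wht m (mk m M₀))) (2 ^ m) (lvl1 m (wht m (mk m M₀)))

/-- the packed biased certificate implies the tree one -/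
theorem certifyB_of_certifyBR (n d M m M₀ : ℕ) (h : certifyBR n d M m M₀ = true) :
    certifyB n d M m M₀ = true := by
  have hlt : 2 ^ (n + 1) < 2 ^ (n + 2) := Nat.pow_lt_pow_right (by norm_num) (by omega)
  have hB2 : 2 ≤ 2 ^ (n + 2) := by
    have : 2 ^ 1 ≤ 2 ^ (n + 2) := Nat.pow_le_pow_right (by norm_num) (by omega)
    simpa using this
  have hoB : 2 ^ n < 2 ^ (n + 2) := Nat.pow_lt_pow_right (by norm_num) (by omega)
  have hV : ((whtR (2 ^ (n + 2)) n M : ℕ) : ℤ) =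
      pk (2 ^ (n + 2)) ((2 ^ n : ℕ) : ℤ) n (wht n (mk n M)) := by
    rw [whtR_eq, whtP_eq (2 ^ (n + 2)) hB2 n M hlt]
    push_cast
    rfl
  have hbd : Bd (2 ^ (n + 2)) ((2 ^ n : ℕ) : ℤ) n (wht n (mk n M)) := by
    refine bd_of_absLE _ _ (2 ^ n) (by push_cast; exact le_rfl) ?_ n _ (absLE_wht n M)
    have : ((2 ^ n + 2 ^ n : ℕ) : ℤ) < ((2 ^ (n + 2) : ℕ) : ℤ) := by
      have : 2 ^ n + 2 ^ n < 2 ^ (n + 2) := by
        have e : 2 ^ (n + 2) = 4 * 2 ^ n := by ring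
        have : 0 < 2 ^ n := Nat.pos_of_ne_zero (by positivity)
        omega
      exact_mod_cast this
    push_cast at this ⊢
    exact this
  have h' : (chkR (2 ^ (n + 2)) (2 ^ n) n d (whtR (2 ^ (n + 2)) n M) &&
      (decide (evalqP (2 ^ (n + 2)) (2 ^ n) n (whtR (2 ^ (n + 2)) n M)
          (c0 m (wht m (mk m M₀))) (2 ^ m) * 2 ^ m =
            c0 m (wht m (mk m M₀)) * (2 ^ n * (2 ^ m) ^ n)) &&
        (decide ((d : ℤ) * (2 ^ n * (2 ^ m) ^ n) ^ 2 <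
            (devalqP (2 ^ (n + 2)) (2 ^ n) n (whtR (2 ^ (n + 2)) n M)
              (c0 m (wht m (mk m M₀))) (2 ^ m) * 2 ^ m) ^ 2) &&
          decide (0 < lvl1 m (wht m (mk m M₀)))))) = true := h
  simp only [Bool.and_eq_true, decide_eq_true_eq] at h'
  obtain ⟨h1, h2, h3, h4⟩ := h'
  rw [chkR_eq] at h1
  have hchk := chkP_sound _ _ hB2 hoB n d _ _ hbd hV h1
  rw [evalqP_sound _ _ _ _ n _ _ hbd hV] at h2
  rw [devalqP_sound _ _ _ _ n _ _ hbd hV] at h3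
  show (chk n d (wht n (mk n M)) &&
      (decide (evalq n (wht n (mk n M)) (c0 m (wht m (mk m M₀))) (2 ^ m) * 2 ^ m =
            c0 m (wht m (mk m M₀)) * (2 ^ n * (2 ^ m) ^ n)) &&
        (decide ((d : ℤ) * (2 ^ n * (2 ^ m) ^ n) ^ 2 <
            (devalq n (wht n (mk n M)) (c0 m (wht m (mk m M₀))) (2 ^ m) * 2 ^ m) ^ 2) &&
          decide (0 < lvl1 m (wht m (mk m M₀)))))) = true
  simp only [Bool.and_eq_true, decide_eq_true_eq]
  exact ⟨hchk, h2, h3, h4⟩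

/-- **A certified biased gadget proves S0085** (fast packed certificate). -/
theorem statement_of_certifyBR (n d M m M₀ : ℕ) (h : certifyBR n d M m M₀ = true) (C : ℝ) :
    ∃ n : ℕ, ∃ f : (Fin n → Bool) → Bool, ∃ d : ℕ,
      (∃ x y, f x ≠ f y) ∧
      (∀ S : Finset (Fin n), d < S.card →
        ∑ x : Fin n → Bool, ((if f x then (1 : ℝ) else -1) * ∏ i ∈ S, (if x i then (1 : ℝ) else -1)) = 0) ∧
      C * Real.sqrt d <
        ∑ i : Fin n, (∑ x : Fin n → Bool, ((if f x then (1 : ℝ) else -1) * (if x i then (1 : ℝ) else -1))) / 2 ^ n :=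
  statement_of_certifyB n d M m M₀ (certifyB_of_certifyBR n d M m M₀ h) C

/-! ### natural-number version (nonnegative fixed point), recursor style -/

/-- `evalq` on packed fields, in `ℕ` (the offset is removed afterwards) -/
def evalN (B A Bb : ℕ) : (n : ℕ) → ℕ → ℕ
  | 0, V => V
  | n + 1, V => Bb * evalN B A Bb n (V % B ^ 2 ^ n) + A * evalN B A Bb n (V / B ^ 2 ^ n)

/-- `devalq` on packed fields, in `ℕ` -/
def devN (B A Bb : ℕ) : (n : ℕ) → ℕ → ℕ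
  | 0, _ => 0
  | n + 1, V => Bb * devN B A Bb n (V % B ^ 2 ^ n) + A * devN B A Bb n (V / B ^ 2 ^ n) +
      evalN B A Bb n (V / B ^ 2 ^ n)

lemma evalN_sound (B o A Bb : ℕ) : ∀ (n V : ℕ) (c : Tr n), Bd B o n c →
    (V : ℤ) = pk B o n c →
    ((evalN B A Bb n V : ℕ) : ℤ) = evalq n c A Bb + (o : ℤ) * ((A : ℤ) + Bb) ^ n
  | 0, V, c, _, hV => by
    have hV' : (V : ℤ) = leaf c + (o : ℤ) := hV
    show (V : ℤ) = leaf c + (o : ℤ) * ((A : ℤ) + Bb) ^ 0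
    rw [pow_zero, mul_one]
    exact hV'
  | n + 1, V, c, hbd, hV => by
    obtain ⟨h1, h2⟩ := pk_split B o n c hbd V hV
    have i1 := evalN_sound B o A Bb n _ c.1 hbd.1 h1
    have i2 := evalN_sound B o A Bb n _ c.2 hbd.2 h2
    show ((Bb * evalN B A Bb n (V % B ^ 2 ^ n) + A * evalN B A Bb n (V / B ^ 2 ^ n) : ℕ) : ℤ) =
      ((Bb : ℤ) * evalq n c.1 A Bb + (A : ℤ) * evalq n c.2 A Bb) + (o : ℤ) * ((A : ℤ) + Bb) ^ (n + 1)
    push_cast
    rw [i1, i2]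
    ring

lemma devN_sound (B o A Bb : ℕ) : ∀ (n V : ℕ) (c : Tr n), Bd B o n c →
    (V : ℤ) = pk B o n c →
    ((devN B A Bb n V : ℕ) : ℤ) =
      devalq n c A Bb + (o : ℤ) * (n : ℤ) * ((A : ℤ) + Bb) ^ (n - 1)
  | 0, _, _, _, _ => by
    show ((0 : ℕ) : ℤ) = 0 + (o : ℤ) * ((0 : ℕ) : ℤ) * ((A : ℤ) + Bb) ^ (0 - 1)
    simp
  | n + 1, V, c, hbd, hV => by
    obtain ⟨h1, h2⟩ := pk_split B o n c hbd V hV
    have i1 := devN_sound B o A Bb n _ c.1 hbd.1 h1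
    have i2 := devN_sound B o A Bb n _ c.2 hbd.2 h2
    have i3 := evalN_sound B o A Bb n _ c.2 hbd.2 h2
    show ((Bb * devN B A Bb n (V % B ^ 2 ^ n) + A * devN B A Bb n (V / B ^ 2 ^ n) +
        evalN B A Bb n (V / B ^ 2 ^ n) : ℕ) : ℤ) =
      ((Bb : ℤ) * devalq n c.1 A Bb + (A : ℤ) * devalq n c.2 A Bb + evalq n c.2 A Bb) +
        (o : ℤ) * ((n + 1 : ℕ) : ℤ) * ((A : ℤ) + Bb) ^ (n + 1 - 1)
    push_cast
    rw [i1, i2, i3]
    have hpow : (n : ℤ) * ((A : ℤ) + Bb) ^ (n - 1) * ((A : ℤ) + Bb) = (n : ℤ) * ((A : ℤ) + Bb) ^ n := by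
      rcases Nat.eq_zero_or_pos n with h | h
      · subst h; simp
      · have : n = (n - 1) + 1 := by omega
        rw [mul_assoc, ← pow_succ, ← this]
    linear_combination (o : ℤ) * hpow

/-- both evaluations in one pass, recursor style: `(evalN, devN)` -/
def edR (B A Bb : ℕ) (n : ℕ) : ℕ → ℕ × ℕ :=
  Nat.rec (motive := fun _ => ℕ → ℕ × ℕ) (fun V => (V, 0))
    (fun n ih =>
      (fun (TB : ℕ) (V : ℕ) =>
        (fun (p q : ℕ × ℕ) => (Bb * p.1 + A * q.1, Bb * p.2 + A * q.2 + q.1))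
          (ih (V % TB)) (ih (V / TB)))
        (B ^ 2 ^ n)) n

lemma edR_eq (B A Bb : ℕ) : ∀ (n V : ℕ), edR B A Bb n V = (evalN B A Bb n V, devN B A Bb n V)
  | 0, _ => rfl
  | n + 1, V => by
    show (Bb * (edR B A Bb n (V % B ^ 2 ^ n)).1 + A * (edR B A Bb n (V / B ^ 2 ^ n)).1,
        Bb * (edR B A Bb n (V % B ^ 2 ^ n)).2 + A * (edR B A Bb n (V / B ^ 2 ^ n)).2 +
          (edR B A Bb n (V / B ^ 2 ^ n)).1) = _
    rw [edR_eq B A Bb n, edR_eq B A Bb n]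
    rfl

/-- the biased certificate, packed and in natural numbers; needs a fixed point `a ≥ 0` -/
def certifyBN (n d M m M₀ : ℕ) : Bool :=
  (fun (V : ℕ) (Az : ℤ) (Bn : ℕ) (l1 : ℤ) =>
    (fun (p : ℕ × ℕ) (s D : ℤ) =>
      decide (0 ≤ Az) && (chkR (2 ^ (n + 2)) (2 ^ n) n d V &&
        (decide ((Int.ofNat p.1 - 2 ^ n * s ^ n) * Bn = Az * D) &&
          (decide ((d : ℤ) * D ^ 2 <
              ((Int.ofNat p.2 - 2 ^ n * (n : ℤ) * s ^ (n - 1)) * Bn) ^ 2) &&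
            decide (0 < l1)))))
      (edR (2 ^ (n + 2)) Az.toNat Bn n V) (Az + Bn) (2 ^ n * (Bn : ℤ) ^ n))
    (whtR (2 ^ (n + 2)) n M) (c0 m (wht m (mk m M₀))) (2 ^ m) (lvl1 m (wht m (mk m M₀)))

/-- the natural-number certificate implies the tree one -/
theorem certifyB_of_certifyBN (n d M m M₀ : ℕ) (h : certifyBN n d M m M₀ = true) :
    certifyB n d M m M₀ = true := by
  have hlt : 2 ^ (n + 1) < 2 ^ (n + 2) := Nat.pow_lt_pow_right (by norm_num) (by omega)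
  have hB2 : 2 ≤ 2 ^ (n + 2) := by
    have : 2 ^ 1 ≤ 2 ^ (n + 2) := Nat.pow_le_pow_right (by norm_num) (by omega)
    simpa using this
  have hoB : 2 ^ n < 2 ^ (n + 2) := Nat.pow_lt_pow_right (by norm_num) (by omega)
  have hV : ((whtR (2 ^ (n + 2)) n M : ℕ) : ℤ) =
      pk (2 ^ (n + 2)) ((2 ^ n : ℕ) : ℤ) n (wht n (mk n M)) := by
    rw [whtR_eq, whtP_eq (2 ^ (n + 2)) hB2 n M hlt]
    push_cast
    rfl
  have hbd : Bd (2 ^ (n + 2)) ((2 ^ n : ℕ) : ℤ) n (wht n (mk n M)) := by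
    refine bd_of_absLE _ _ (2 ^ n) (by push_cast; exact le_rfl) ?_ n _ (absLE_wht n M)
    have : ((2 ^ n + 2 ^ n : ℕ) : ℤ) < ((2 ^ (n + 2) : ℕ) : ℤ) := by
      have : 2 ^ n + 2 ^ n < 2 ^ (n + 2) := by
        have e : 2 ^ (n + 2) = 4 * 2 ^ n := by ring
        have : 0 < 2 ^ n := Nat.pos_of_ne_zero (by positivity)
        omega
      exact_mod_cast this
    push_cast at this ⊢
    exact this
  set V := whtR (2 ^ (n + 2)) n M with hVdef
  set Az := c0 m (wht m (mk m M₀)) with hAz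
  have h' : (decide (0 ≤ Az) && (chkR (2 ^ (n + 2)) (2 ^ n) n d V &&
      (decide ((Int.ofNat (edR (2 ^ (n + 2)) Az.toNat (2 ^ m) n V).1 -
            2 ^ n * (Az + ((2 ^ m : ℕ) : ℤ)) ^ n) * ((2 ^ m : ℕ) : ℤ) =
          Az * (2 ^ n * (((2 ^ m : ℕ) : ℤ)) ^ n)) &&
        (decide ((d : ℤ) * (2 ^ n * (((2 ^ m : ℕ) : ℤ)) ^ n) ^ 2 <
            ((Int.ofNat (edR (2 ^ (n + 2)) Az.toNat (2 ^ m) n V).2 -
              2 ^ n * (n : ℤ) * (Az + ((2 ^ m : ℕ) : ℤ)) ^ (n - 1)) * ((2 ^ m : ℕ) : ℤ)) ^ 2) &&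
          decide (0 < lvl1 m (wht m (mk m M₀))))))) = true := h
  simp only [Bool.and_eq_true, decide_eq_true_eq] at h'
  obtain ⟨h0, h1, h2, h3, h4⟩ := h'
  rw [chkR_eq] at h1
  have hchk := chkP_sound _ _ hB2 hoB n d _ _ hbd hV h1
  have hA : ((Az.toNat : ℕ) : ℤ) = Az := Int.toNat_of_nonneg h0
  have hE := evalN_sound (2 ^ (n + 2)) (2 ^ n) Az.toNat (2 ^ m) n V _ hbd hV
  have hD := devN_sound (2 ^ (n + 2)) (2 ^ n) Az.toNat (2 ^ m) n V _ hbd hV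
  rw [hA] at hE hD
  rw [edR_eq] at h2 h3
  have e1 : Int.ofNat (evalN (2 ^ (n + 2)) Az.toNat (2 ^ m) n V) -
      2 ^ n * (Az + ((2 ^ m : ℕ) : ℤ)) ^ n = evalq n (wht n (mk n M)) Az ((2 ^ m : ℕ) : ℤ) := by
    have : Int.ofNat (evalN (2 ^ (n + 2)) Az.toNat (2 ^ m) n V) =
        ((evalN (2 ^ (n + 2)) Az.toNat (2 ^ m) n V : ℕ) : ℤ) := rfl
    rw [this, hE]
    push_cast
    ring
  have e2 : Int.ofNat (devN (2 ^ (n + 2)) Az.toNat (2 ^ m) n V) -
      2 ^ n * (n : ℤ) * (Az + ((2 ^ m : ℕ) : ℤ)) ^ (n - 1) =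
        devalq n (wht n (mk n M)) Az ((2 ^ m : ℕ) : ℤ) := by
    have : Int.ofNat (devN (2 ^ (n + 2)) Az.toNat (2 ^ m) n V) =
        ((devN (2 ^ (n + 2)) Az.toNat (2 ^ m) n V : ℕ) : ℤ) := rfl
    rw [this, hD]
    push_cast
    ring
  rw [e1] at h2
  rw [e2] at h3
  have hc : ((2 ^ m : ℕ) : ℤ) = (2 : ℤ) ^ m := by push_cast; rfl
  rw [hc] at h2 h3
  show (chk n d (wht n (mk n M)) &&
      (decide (evalq n (wht n (mk n M)) (c0 m (wht m (mk m M₀))) (2 ^ m) * 2 ^ m =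
            c0 m (wht m (mk m M₀)) * (2 ^ n * (2 ^ m) ^ n)) &&
        (decide ((d : ℤ) * (2 ^ n * (2 ^ m) ^ n) ^ 2 <
            (devalq n (wht n (mk n M)) (c0 m (wht m (mk m M₀))) (2 ^ m) * 2 ^ m) ^ 2) &&
          decide (0 < lvl1 m (wht m (mk m M₀)))))) = true
  simp only [Bool.and_eq_true, decide_eq_true_eq]
  exact ⟨hchk, h2, h3, h4⟩

/-- **A certified biased gadget proves S0085** (fast certificate in natural numbers; the fixed
point must be nonnegative). -/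
theorem statement_of_certifyBN (n d M m M₀ : ℕ) (h : certifyBN n d M m M₀ = true) (C : ℝ) :
    ∃ n : ℕ, ∃ f : (Fin n → Bool) → Bool, ∃ d : ℕ,
      (∃ x y, f x ≠ f y) ∧
      (∀ S : Finset (Fin n), d < S.card →
        ∑ x : Fin n → Bool, ((if f x then (1 : ℝ) else -1) * ∏ i ∈ S, (if x i then (1 : ℝ) else -1)) = 0) ∧
      C * Real.sqrt d <
        ∑ i : Fin n, (∑ x : Fin n → Bool, ((if f x then (1 : ℝ) else -1) * (if x i then (1 : ℝ) else -1))) / 2 ^ n :=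
  statement_of_certifyB n d M m M₀ (certifyB_of_certifyBN n d M m M₀ h) C

end Crest.Agent.GS
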