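import Crest.Agent.GS.Check

/-!
# A faster (packed) certificate for S0085 gadgets

The Walsh–Hadamard transform of `Check.lean` is recomputed on vectors packed into one natural
number (fields of base `B`, every field carrying an offset), so that the kernel only performs a
few big-number operations per node.  `certifyP_sound` reduces the packed certificate to the facts
used by `gadget_of_check`.
-/

set_option autoImplicit false
set_option linter.unusedSectionVars false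

namespace Crest.Agent.GS

/-- repunit: the sum of `B ^ j` over `j < 2 ^ n` (closed form) -/
def rep (B n : ℕ) : ℕ := (B ^ 2 ^ n - 1) / (B - 1)

/-- packed Walsh–Hadamard transform read directly from the truth table: field `j` of the result
is the coefficient plus `2 ^ n`. -/
def whtP (B : ℕ) : (n : ℕ) → ℕ → ℕ
  | 0, m => 2 * (m % 2)
  | n + 1, m =>
      (whtP B n (m / 2 ^ 2 ^ n) + whtP B n (m % 2 ^ 2 ^ n)) +
        B ^ 2 ^ n * (whtP B n (m / 2 ^ 2 ^ n) + 2 ^ (n + 1) * rep B n - whtP B n (m % 2 ^ 2 ^ n))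

/-- packed degree check -/
def chkP (B o : ℕ) : (n : ℕ) → ℕ → ℕ → Bool
  | 0, _, _ => true
  | n + 1, d, V => chkP B o n d (V % B ^ 2 ^ n) && (match d with
      | 0 => decide (V / B ^ 2 ^ n = o * rep B n)
      | d' + 1 => chkP B o n d' (V / B ^ 2 ^ n))

/-- packed empty coefficient -/
def c0P (B o : ℕ) : (n : ℕ) → ℕ → ℤ
  | 0, V => Int.sub (Int.ofNat V) (Int.ofNat o)
  | n + 1, V => c0P B o n (V % B ^ 2 ^ n)

/-- packed sum of the singleton coefficients -/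
def lvl1P (B o : ℕ) : (n : ℕ) → ℕ → ℤ
  | 0, _ => 0
  | n + 1, V => Int.add (lvl1P B o n (V % B ^ 2 ^ n)) (c0P B o n (V / B ^ 2 ^ n))

/-- the packed certificate -/
def certifyP (n d m : ℕ) : Bool :=
  let V := whtP (2 ^ (n + 2)) n m
  chkP (2 ^ (n + 2)) (2 ^ n) n d V &&
    (decide (c0P (2 ^ (n + 2)) (2 ^ n) n V = 0) &&
      decide ((d : ℤ) * 4 ^ n < lvl1P (2 ^ (n + 2)) (2 ^ n) n V ^ 2))

/-! ### specification: integer packing of trees -/

/-- integer packing of a tree with offset `o` -/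
def pk (B : ℕ) (o : ℤ) : (n : ℕ) → Tr n → ℤ
  | 0, v => leaf v + o
  | n + 1, t => pk B o n t.1 + (B : ℤ) ^ 2 ^ n * pk B o n t.2

/-- all fields (leaf plus offset) lie in `[0, B)` -/
def Bd (B : ℕ) (o : ℤ) : (n : ℕ) → Tr n → Prop
  | 0, v => 0 ≤ leaf v + o ∧ leaf v + o < B
  | n + 1, t => Bd B o n t.1 ∧ Bd B o n t.2

/-- all leaves have absolute value at most `k` -/
def AbsLE (k : ℤ) : (n : ℕ) → Tr n → Prop
  | 0, v => -k ≤ leaf v ∧ leaf v ≤ k
  | n + 1, t => AbsLE k n t.1 ∧ AbsLE k n t.2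

/-- recursive repunit -/
def repZ (B : ℕ) : ℕ → ℤ
  | 0 => 1
  | n + 1 => repZ B n + (B : ℤ) ^ 2 ^ n * repZ B n

lemma pk_bound (B : ℕ) (o : ℤ) : ∀ (n : ℕ) (t : Tr n), Bd B o n t →
    0 ≤ pk B o n t ∧ pk B o n t < (B : ℤ) ^ 2 ^ n
  | 0, t, h => by
    simpa [pk, Bd] using h
  | n + 1, t, h => by
    obtain ⟨h1, h2⟩ := h
    obtain ⟨a0, a1⟩ := pk_bound B o n t.1 h1
    obtain ⟨b0, b1⟩ := pk_bound B o n t.2 h2
    have hT : (0 : ℤ) ≤ (B : ℤ) ^ 2 ^ n := by positivity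
    simp only [pk]
    constructor
    · positivity
    · have : (B : ℤ) ^ 2 ^ (n + 1) = (B : ℤ) ^ 2 ^ n * (B : ℤ) ^ 2 ^ n := by
        rw [pow_succ, pow_mul, sq]
      rw [this]
      nlinarith

lemma pk_addT (B : ℕ) (o1 o2 : ℤ) : ∀ (n : ℕ) (a b : Tr n),
    pk B (o1 + o2) n (addT n a b) = pk B o1 n a + pk B o2 n b
  | 0, a, b => by
    show (leaf a + leaf b) + (o1 + o2) = (leaf a + o1) + (leaf b + o2)
    ring
  | n + 1, a, b => by
    simp only [pk, addT]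
    rw [pk_addT B o1 o2 n, pk_addT B o1 o2 n]
    ring

lemma pk_subT (B : ℕ) (o1 o2 : ℤ) : ∀ (n : ℕ) (a b : Tr n),
    pk B (o1 - o2) n (subT n a b) = pk B o1 n a - pk B o2 n b
  | 0, a, b => by
    show (leaf a - leaf b) + (o1 - o2) = (leaf a + o1) - (leaf b + o2)
    ring
  | n + 1, a, b => by
    simp only [pk, subT]
    rw [pk_subT B o1 o2 n, pk_subT B o1 o2 n]
    ring

lemma pk_offset (B : ℕ) (o o' : ℤ) : ∀ (n : ℕ) (t : Tr n),
    pk B (o + o') n t = pk B o n t + o' * repZ B n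
  | 0, t => by
    show leaf t + (o + o') = (leaf t + o) + o' * 1
    ring
  | n + 1, t => by
    simp only [pk, repZ]
    rw [pk_offset B o o' n, pk_offset B o o' n]
    ring

/-- the closed form of the repunit agrees with the recursive one -/
lemma rep_cast (B : ℕ) (hB : 2 ≤ B) : ∀ n : ℕ, ((rep B n : ℕ) : ℤ) = repZ B n := by
  have hdvd : ∀ k : ℕ, B - 1 ∣ B ^ k - 1 := by
    intro k
    exact Nat.sub_one_dvd_pow_sub_one (x := B) (n := k)
  have hB1 : 0 < B - 1 := by omega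
  -- the defining equation of the closed form
  have hmul : ∀ n : ℕ, rep B n * (B - 1) = B ^ 2 ^ n - 1 := by
    intro n
    unfold rep
    exact Nat.div_mul_cancel (hdvd _)
  have hpos : ∀ k : ℕ, 1 ≤ B ^ k := fun k => Nat.one_le_pow _ _ (by omega)
  have hstep : ∀ n : ℕ, rep B (n + 1) = rep B n + B ^ 2 ^ n * rep B n := by
    intro n
    apply Nat.eq_of_mul_eq_mul_right hB1
    rw [hmul, add_mul, mul_assoc, hmul]
    have h1 : B ^ 2 ^ (n + 1) = B ^ 2 ^ n * B ^ 2 ^ n := by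
      rw [pow_succ, pow_mul, sq]
    have h2 := hpos (2 ^ n)
    rw [h1]
    zify [h2, Nat.one_le_iff_ne_zero.mpr (Nat.mul_ne_zero (by omega : B ^ 2 ^ n ≠ 0)
      (by omega : B ^ 2 ^ n ≠ 0))]
    ring
  intro n
  induction n with
  | zero =>
    have : rep B 0 = 1 := by
      unfold rep
      simp only [pow_zero, pow_one]
      exact Nat.div_self hB1
    simp [this, repZ]
  | succ n ih =>
    rw [hstep, repZ]
    push_cast
    rw [ih]

lemma absLE_mk : ∀ (n m : ℕ), AbsLE 1 n (mk n m)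
  | 0, m => by
    show -1 ≤ (if m % 2 = 1 then (1 : ℤ) else -1) ∧ (if m % 2 = 1 then (1 : ℤ) else -1) ≤ 1
    split_ifs <;> constructor <;> norm_num
  | n + 1, m => ⟨absLE_mk n _, absLE_mk n _⟩

lemma absLE_addT (k k' : ℤ) : ∀ (n : ℕ) (a b : Tr n), AbsLE k n a → AbsLE k' n b →
    AbsLE (k + k') n (addT n a b)
  | 0, a, b, ha, hb => by
    obtain ⟨h1, h2⟩ := ha
    obtain ⟨h3, h4⟩ := hb
    show -(k + k') ≤ leaf a + leaf b ∧ leaf a + leaf b ≤ k + k'
    constructor <;> linarith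
  | n + 1, a, b, ha, hb =>
    ⟨absLE_addT k k' n _ _ ha.1 hb.1, absLE_addT k k' n _ _ ha.2 hb.2⟩

lemma absLE_subT (k k' : ℤ) : ∀ (n : ℕ) (a b : Tr n), AbsLE k n a → AbsLE k' n b →
    AbsLE (k + k') n (subT n a b)
  | 0, a, b, ha, hb => by
    obtain ⟨h1, h2⟩ := ha
    obtain ⟨h3, h4⟩ := hb
    show -(k + k') ≤ leaf a - leaf b ∧ leaf a - leaf b ≤ k + k'
    constructor <;> linarith
  | n + 1, a, b, ha, hb =>
    ⟨absLE_subT k k' n _ _ ha.1 hb.1, absLE_subT k k' n _ _ ha.2 hb.2⟩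

lemma absLE_wht : ∀ (n m : ℕ), AbsLE (2 ^ n) n (wht n (mk n m))
  | 0, m => by simpa [wht] using absLE_mk 0 m
  | n + 1, m => by
    have h1 := absLE_wht n (m % 2 ^ 2 ^ n)
    have h2 := absLE_wht n (m / 2 ^ 2 ^ n)
    have e : (2 : ℤ) ^ (n + 1) = 2 ^ n + 2 ^ n := by ring
    rw [e]
    exact ⟨absLE_addT _ _ n _ _ h2 h1, absLE_subT _ _ n _ _ h2 h1⟩

lemma bd_of_absLE (B : ℕ) (o k : ℤ) (hk : k ≤ o) (hB : o + k < B) :
    ∀ (n : ℕ) (t : Tr n), AbsLE k n t → Bd B o n t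
  | 0, t, h => by
    obtain ⟨h1, h2⟩ := h
    show 0 ≤ leaf t + o ∧ leaf t + o < B
    constructor <;> linarith
  | n + 1, t, h => ⟨bd_of_absLE B o k hk hB n _ h.1, bd_of_absLE B o k hk hB n _ h.2⟩

/-- the packed transform computes the packing of the tree transform -/
theorem whtP_eq (B : ℕ) (hB2 : 2 ≤ B) : ∀ (n m : ℕ), 2 ^ (n + 1) < B →
    ((whtP B n m : ℕ) : ℤ) = pk B (2 ^ n) n (wht n (mk n m))
  | 0, m, _ => by
    show ((2 * (m % 2) : ℕ) : ℤ) = (if m % 2 = 1 then (1 : ℤ) else -1) + 2 ^ 0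
    rcases Nat.mod_two_eq_zero_or_one m with h | h <;> simp [h]
  | n + 1, m, hB => by
    have hB' : 2 ^ (n + 1) < B := by
      have : 2 ^ (n + 1) < 2 ^ (n + 1 + 1) := Nat.pow_lt_pow_right (by norm_num) (by omega)
      omega
    have iha := whtP_eq B hB2 n (m % 2 ^ 2 ^ n) hB'
    have ihb := whtP_eq B hB2 n (m / 2 ^ 2 ^ n) hB'
    set A := wht n (mk n (m % 2 ^ 2 ^ n)) with hA
    set Bt := wht n (mk n (m / 2 ^ 2 ^ n)) with hBt
    have hAabs : AbsLE (2 ^ n) n A := absLE_wht n _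
    have hBabs : AbsLE (2 ^ n) n Bt := absLE_wht n _
    -- the difference tree, packed with offset 2^(n+1)
    have hsub : pk B (2 ^ (n + 1)) n (subT n Bt A) =
        pk B (2 ^ n) n Bt + 2 ^ (n + 1) * repZ B n - pk B (2 ^ n) n A := by
      have h := pk_subT B (2 ^ n + 2 ^ (n + 1)) (2 ^ n) n Bt A
      rw [pk_offset] at h
      have e : (2 : ℤ) ^ n + 2 ^ (n + 1) - 2 ^ n = 2 ^ (n + 1) := by ring
      rw [e] at h
      exact h
    have hadd : pk B (2 ^ (n + 1)) n (addT n Bt A) =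
        pk B (2 ^ n) n Bt + pk B (2 ^ n) n A := by
      have e : (2 : ℤ) ^ (n + 1) = 2 ^ n + 2 ^ n := by ring
      rw [e, pk_addT]
    have hsubBd : Bd B (2 ^ (n + 1)) n (subT n Bt A) := by
      have h := absLE_subT _ _ n _ _ hBabs hAabs
      have e : (2 : ℤ) ^ n + 2 ^ n = 2 ^ (n + 1) := by ring
      rw [e] at h
      refine bd_of_absLE B _ _ le_rfl ?_ n _ h
      have : ((2 ^ (n + 1 + 1) : ℕ) : ℤ) < (B : ℤ) := by exact_mod_cast hB
      have e2 : ((2 ^ (n + 1 + 1) : ℕ) : ℤ) = 2 ^ (n + 1) + 2 ^ (n + 1) := by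
        push_cast; ring
      linarith
    have hnn := (pk_bound B _ n _ hsubBd).1
    rw [hsub, ← iha, ← ihb, ← rep_cast B hB2] at hnn
    have hle : whtP B n (m % 2 ^ 2 ^ n) ≤ whtP B n (m / 2 ^ 2 ^ n) + 2 ^ (n + 1) * rep B n := by
      have : (0 : ℤ) ≤ ((whtP B n (m / 2 ^ 2 ^ n) + 2 ^ (n + 1) * rep B n : ℕ) : ℤ) -
          ((whtP B n (m % 2 ^ 2 ^ n) : ℕ) : ℤ) := by
        push_cast
        linarith
      omega
    show ((whtP B n (m / 2 ^ 2 ^ n) + whtP B n (m % 2 ^ 2 ^ n) +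
        B ^ 2 ^ n * (whtP B n (m / 2 ^ 2 ^ n) + 2 ^ (n + 1) * rep B n -
          whtP B n (m % 2 ^ 2 ^ n)) : ℕ) : ℤ) =
      pk B (2 ^ (n + 1)) n (addT n Bt A) + (B : ℤ) ^ 2 ^ n * pk B (2 ^ (n + 1)) n (subT n Bt A)
    rw [hadd, hsub, ← iha, ← ihb, ← rep_cast B hB2]
    push_cast [Nat.cast_sub hle]
    ring

/-- the two halves of a packed number -/
lemma pk_split (B : ℕ) (o : ℤ) (n : ℕ) (t : Tr (n + 1)) (hbd : Bd B o (n + 1) t) (V : ℕ)
    (hV : (V : ℤ) = pk B o (n + 1) t) :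
    ((V % B ^ 2 ^ n : ℕ) : ℤ) = pk B o n t.1 ∧ ((V / B ^ 2 ^ n : ℕ) : ℤ) = pk B o n t.2 := by
  obtain ⟨a0, a1⟩ := pk_bound B o n t.1 hbd.1
  obtain ⟨b0, _⟩ := pk_bound B o n t.2 hbd.2
  have hV' : (V : ℤ) = pk B o n t.1 + (B : ℤ) ^ 2 ^ n * pk B o n t.2 := hV
  obtain ⟨x, hx⟩ := Int.eq_ofNat_of_zero_le a0
  obtain ⟨y, hy⟩ := Int.eq_ofNat_of_zero_le b0
  rw [hx, hy] at hV'
  rw [hx] at a1
  have hVn : V = x + B ^ 2 ^ n * y := by exact_mod_cast hV'
  have hxT : x < B ^ 2 ^ n := by exact_mod_cast a1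
  have hT : 0 < B ^ 2 ^ n := lt_of_le_of_lt (Nat.zero_le _) hxT
  rw [hx, hy]
  constructor
  · rw [hVn, Nat.add_mul_mod_self_left, Nat.mod_eq_of_lt hxT]
  · rw [hVn, Nat.add_mul_div_left _ _ hT, Nat.div_eq_of_lt hxT, zero_add]

lemma repZ_nonneg (B : ℕ) : ∀ n : ℕ, 0 ≤ repZ B n
  | 0 => by simp [repZ]
  | n + 1 => by
    have := repZ_nonneg B n
    simp only [repZ]
    positivity

lemma repZ_mul (B : ℕ) : ∀ n : ℕ, repZ B n * ((B : ℤ) - 1) = (B : ℤ) ^ 2 ^ n - 1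
  | 0 => by simp [repZ]
  | n + 1 => by
    have ih := repZ_mul B n
    have h1 : (B : ℤ) ^ 2 ^ (n + 1) = (B : ℤ) ^ 2 ^ n * (B : ℤ) ^ 2 ^ n := by
      rw [pow_succ, pow_mul, sq]
    simp only [repZ]
    rw [h1]
    linear_combination (1 + (B : ℤ) ^ 2 ^ n) * ih

lemma isZero_of_pk (B o : ℕ) (hoB : o < B) : ∀ (n : ℕ) (c : Tr n), Bd B o n c →
    pk B o n c = (o : ℤ) * repZ B n → isZero n c = true
  | 0, c, _, he => by
    have he' : leaf c + (o : ℤ) = (o : ℤ) * 1 := he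
    have : leaf c = 0 := by linarith
    show decide (leaf c = 0) = true
    exact decide_eq_true this
  | n + 1, c, hbd, he => by
    obtain ⟨a0, a1⟩ := pk_bound B o n c.1 hbd.1
    have hr0 := repZ_nonneg B n
    have hrm := repZ_mul B n
    have hoB' : (o : ℤ) ≤ (B : ℤ) - 1 := by
      have : ((o + 1 : ℕ) : ℤ) ≤ (B : ℤ) := by exact_mod_cast hoB
      push_cast at this
      linarith
    have hz0 : 0 ≤ (o : ℤ) * repZ B n := by positivity
    have hz1 : (o : ℤ) * repZ B n < (B : ℤ) ^ 2 ^ n := by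
      have : (o : ℤ) * repZ B n ≤ ((B : ℤ) - 1) * repZ B n :=
        mul_le_mul_of_nonneg_right hoB' hr0
      nlinarith
    have he' : pk B o n c.1 + (B : ℤ) ^ 2 ^ n * pk B o n c.2 =
        (o : ℤ) * repZ B n + (B : ℤ) ^ 2 ^ n * ((o : ℤ) * repZ B n) := by
      have : pk B o (n + 1) c = pk B o n c.1 + (B : ℤ) ^ 2 ^ n * pk B o n c.2 := rfl
      rw [← this, he]
      simp only [repZ]
      ring
    have hTpos : (0 : ℤ) < (B : ℤ) ^ 2 ^ n := lt_of_le_of_lt a0 a1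
    have e1 : pk B o n c.1 = (o : ℤ) * repZ B n := by
      have h := congrArg (fun z : ℤ => z % (B : ℤ) ^ 2 ^ n) he'
      simp only [Int.add_mul_emod_self_left] at h
      rwa [Int.emod_eq_of_lt a0 a1, Int.emod_eq_of_lt hz0 hz1] at h
    have e2 : pk B o n c.2 = (o : ℤ) * repZ B n := by
      rw [e1] at he'
      have := add_left_cancel he'
      exact mul_left_cancel₀ (ne_of_gt hTpos) this
    show (isZero n c.1 && isZero n c.2) = true
    rw [isZero_of_pk B o hoB n c.1 hbd.1 e1, isZero_of_pk B o hoB n c.2 hbd.2 e2]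
    rfl

lemma chkP_sound (B o : ℕ) (hB2 : 2 ≤ B) (hoB : o < B) : ∀ (n d V : ℕ) (c : Tr n),
    Bd B o n c → (V : ℤ) = pk B o n c → chkP B o n d V = true → chk n d c = true
  | 0, _, _, _, _, _, _ => rfl
  | n + 1, d, V, c, hbd, hV, h => by
    obtain ⟨h1, h2⟩ := pk_split B o n c hbd V hV
    simp only [chkP, Bool.and_eq_true] at h
    simp only [chk, Bool.and_eq_true]
    refine ⟨chkP_sound B o hB2 hoB n d _ c.1 hbd.1 h1 h.1, ?_⟩
    cases d with
    | zero =>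
      have hz : V / B ^ 2 ^ n = o * rep B n := of_decide_eq_true h.2
      apply isZero_of_pk B o hoB n c.2 hbd.2
      rw [← h2, hz]
      push_cast
      rw [rep_cast B hB2]
    | succ d' => exact chkP_sound B o hB2 hoB n d' _ c.2 hbd.2 h2 h.2

lemma c0P_sound (B o : ℕ) : ∀ (n V : ℕ) (c : Tr n), Bd B o n c → (V : ℤ) = pk B o n c →
    c0P B o n V = c0 n c
  | 0, V, c, _, hV => by
    have hV' : (V : ℤ) = leaf c + (o : ℤ) := hV
    show (V : ℤ) - (o : ℤ) = leaf c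
    linarith
  | n + 1, V, c, hbd, hV => by
    obtain ⟨h1, _⟩ := pk_split B o n c hbd V hV
    exact c0P_sound B o n _ c.1 hbd.1 h1

lemma lvl1P_sound (B o : ℕ) : ∀ (n V : ℕ) (c : Tr n), Bd B o n c → (V : ℤ) = pk B o n c →
    lvl1P B o n V = lvl1 n c
  | 0, _, _, _, _ => rfl
  | n + 1, V, c, hbd, hV => by
    obtain ⟨h1, h2⟩ := pk_split B o n c hbd V hV
    show Int.add (lvl1P B o n (V % B ^ 2 ^ n)) (c0P B o n (V / B ^ 2 ^ n)) =
      Int.add (lvl1 n c.1) (c0 n c.2)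
    rw [lvl1P_sound B o n _ c.1 hbd.1 h1, c0P_sound B o n _ c.2 hbd.2 h2]

/-- soundness of the packed certificate -/
theorem certifyP_sound (n d m : ℕ) (h : certifyP n d m = true) :
    DegLE (gfun n m) d ∧ four (gfun n m) ∅ = 0 ∧ (d : ℝ) < W (gfun n m) ^ 2 := by
  have hlt : 2 ^ (n + 1) < 2 ^ (n + 2) := Nat.pow_lt_pow_right (by norm_num) (by omega)
  have hB2 : 2 ≤ 2 ^ (n + 2) := by
    have : 2 ^ 1 ≤ 2 ^ (n + 2) := Nat.pow_le_pow_right (by norm_num) (by omega)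
    simpa using this
  have hoB : 2 ^ n < 2 ^ (n + 2) := Nat.pow_lt_pow_right (by norm_num) (by omega)
  have hV : ((whtP (2 ^ (n + 2)) n m : ℕ) : ℤ) =
      pk (2 ^ (n + 2)) ((2 ^ n : ℕ) : ℤ) n (wht n (mk n m)) := by
    rw [whtP_eq (2 ^ (n + 2)) hB2 n m hlt]
    push_cast
    rfl
  have hbd : Bd (2 ^ (n + 2)) ((2 ^ n : ℕ) : ℤ) n (wht n (mk n m)) := by
    refine bd_of_absLE _ _ (2 ^ n) (by push_cast; exact le_rfl) ?_ n _ (absLE_wht n m)
    have : ((2 ^ n + 2 ^ n : ℕ) : ℤ) < ((2 ^ (n + 2) : ℕ) : ℤ) := by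
      have : 2 ^ n + 2 ^ n < 2 ^ (n + 2) := by
        have e : 2 ^ (n + 2) = 4 * 2 ^ n := by ring
        have : 0 < 2 ^ n := Nat.pos_of_ne_zero (by positivity)
        omega
      exact_mod_cast this
    push_cast at this ⊢
    exact this
  simp only [certifyP, Bool.and_eq_true, decide_eq_true_eq] at h
  obtain ⟨h1, h2, h3⟩ := h
  refine gadget_of_check n d m (chkP_sound _ _ hB2 hoB n d _ _ hbd hV h1) ?_ ?_
  · rw [← c0P_sound _ _ n _ _ hbd hV]; exact h2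
  · rw [← lvl1P_sound _ _ n _ _ hbd hV]; exact h3

/-- **A certified truth table proves S0085** (packed certificate). -/
theorem statement_of_certifyP (n d m : ℕ) (h : certifyP n d m = true) (C : ℝ) :
    ∃ n : ℕ, ∃ f : (Fin n → Bool) → Bool, ∃ d : ℕ,
      (∃ x y, f x ≠ f y) ∧
      (∀ S : Finset (Fin n), d < S.card →
        ∑ x : Fin n → Bool, ((if f x then (1 : ℝ) else -1) * ∏ i ∈ S, (if x i then (1 : ℝ) else -1)) = 0) ∧
      C * Real.sqrt d <
        ∑ i : Fin n, (∑ x : Fin n → Bool, ((if f x then (1 : ℝ) else -1) * (if x i then (1 : ℝ) else -1))) / 2 ^ n :=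
  have hg := certifyP_sound n d m h
  statement_of_gadget (gfun n m) d hg.1 hg.2.1 hg.2.2 C

end Crest.Agent.GS
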