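import Crest.Agent.GS.Inverse
import Crest.Agent.GS.Packed

/-!
# The final test of a packed table of values: every field is `o - K` or `o + K`

`okP w o k n V` is one comparison and one bitwise `and` on big numbers.  If `V` is the packing
(`pk`, fields of `w` bits, offset `o`) of a tree whose fields are in range, the test shows that
every leaf is `2 ^ k` or `-2 ^ k` (`allPM_of_okP`).  For the values of a polynomial the range
condition follows from the `l1` norm of the coefficients (`allPM_iwht_of_okP`).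
-/

set_option autoImplicit false

namespace Crest.Agent.GS

/-! ### bitwise `and` on concatenated numbers -/

/-- bitwise `and` acts separately on the two parts of a number cut at bit `s` -/
lemma land_concat (s a b c d : ℕ) (ha : a < 2 ^ s) (hc : c < 2 ^ s) :
    (a + 2 ^ s * b) &&& (c + 2 ^ s * d) = (a &&& c) + 2 ^ s * (b &&& d) := by
  have hpos : 0 < 2 ^ s := Nat.pos_of_ne_zero (by positivity)
  have h1 : ((a + 2 ^ s * b) &&& (c + 2 ^ s * d)) % 2 ^ s = a &&& c := by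
    rw [Nat.and_mod_two_pow, Nat.add_mul_mod_self_left, Nat.add_mul_mod_self_left,
      Nat.mod_eq_of_lt ha, Nat.mod_eq_of_lt hc]
  have h2 : ((a + 2 ^ s * b) &&& (c + 2 ^ s * d)) / 2 ^ s = b &&& d := by
    rw [Nat.and_div_two_pow, Nat.add_mul_div_left _ _ hpos, Nat.add_mul_div_left _ _ hpos,
      Nat.div_eq_of_lt ha, Nat.div_eq_of_lt hc, zero_add, zero_add]
  have h3 := Nat.mod_add_div ((a + 2 ^ s * b) &&& (c + 2 ^ s * d)) (2 ^ s)
  rw [h1, h2] at h3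
  exact h3.symm

/-- the mask with all bits below `w` set except bit `k + 1` -/
def msk (w k : ℕ) : ℕ := (2 ^ (k + 1) - 1) + 2 ^ (k + 2) * (2 ^ (w - (k + 2)) - 1)

lemma msk_lt (w k : ℕ) (hk : k + 2 ≤ w) : msk w k + 2 ^ (k + 1) + 1 = 2 ^ w := by
  unfold msk
  have e1 : 2 ^ (k + 2) * 2 ^ (w - (k + 2)) = 2 ^ w := by
    rw [← pow_add]; congr 1; omega
  have e2 : (2 : ℕ) ^ (k + 2) = 2 * 2 ^ (k + 1) := by rw [pow_succ]; ring
  have p1 : 1 ≤ 2 ^ (w - (k + 2)) := Nat.one_le_two_pow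
  have p2 : 1 ≤ 2 ^ (k + 1) := Nat.one_le_two_pow
  have e3 : 2 ^ (k + 2) * (2 ^ (w - (k + 2)) - 1) = 2 ^ w - 2 ^ (k + 2) := by
    rw [Nat.mul_sub, e1, mul_one]
  have e4 : 2 ^ (k + 2) ≤ 2 ^ w := Nat.pow_le_pow_right (by norm_num) hk
  rw [e3]
  omega

/-- a number below `2 ^ w` that avoids the mask is `0` or `2 ^ (k + 1)` -/
lemma leaf_land (w k X : ℕ) (hk : k + 2 ≤ w) (hX : X < 2 ^ w) (h : X &&& msk w k = 0) :
    X = 0 ∨ X = 2 ^ (k + 1) := by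
  have hN : msk w k = (2 ^ (k + 1) - 1) + 2 ^ (k + 1) * (0 + 2 ^ 1 * (2 ^ (w - (k + 2)) - 1)) := by
    unfold msk
    have e2 : (2 : ℕ) ^ (k + 2) = 2 ^ (k + 1) * 2 := by rw [pow_succ]
    rw [e2]; ring
  have p2 : 1 ≤ 2 ^ (k + 1) := Nat.one_le_two_pow
  have hX0lt : X % 2 ^ (k + 1) < 2 ^ (k + 1) := Nat.mod_lt _ (by omega)
  have hm : 2 ^ (k + 1) - 1 < 2 ^ (k + 1) := by omega
  have key := land_concat (k + 1) (X % 2 ^ (k + 1)) (X / 2 ^ (k + 1)) (2 ^ (k + 1) - 1)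
    (0 + 2 ^ 1 * (2 ^ (w - (k + 2)) - 1)) hX0lt hm
  rw [Nat.mod_add_div, ← hN, h] at key
  obtain ⟨h0, h1⟩ := Nat.add_eq_zero_iff.mp key.symm
  rw [Nat.and_two_pow_sub_one_eq_mod, Nat.mod_mod] at h0
  have h1' : X / 2 ^ (k + 1) &&& (0 + 2 ^ 1 * (2 ^ (w - (k + 2)) - 1)) = 0 := by
    rcases Nat.mul_eq_zero.mp h1 with h | h
    · omega
    · exact h
  have hY0lt : X / 2 ^ (k + 1) % 2 ^ 1 < 2 ^ 1 := Nat.mod_lt _ (by norm_num)
  have key2 := land_concat 1 (X / 2 ^ (k + 1) % 2 ^ 1) (X / 2 ^ (k + 1) / 2 ^ 1) 0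
    (2 ^ (w - (k + 2)) - 1) hY0lt (by norm_num)
  rw [Nat.mod_add_div, h1'] at key2
  obtain ⟨_, h3⟩ := Nat.add_eq_zero_iff.mp key2.symm
  have h3' : X / 2 ^ (k + 1) / 2 ^ 1 &&& (2 ^ (w - (k + 2)) - 1) = 0 := by
    rcases Nat.mul_eq_zero.mp h3 with h | h
    · norm_num at h
    · exact h
  rw [Nat.and_two_pow_sub_one_eq_mod] at h3'
  -- sizes
  have e1 : 2 ^ (k + 1) * 2 ^ (w - (k + 1)) = 2 ^ w := by
    rw [← pow_add]; congr 1; omega
  have hYlt : X / 2 ^ (k + 1) < 2 ^ (w - (k + 1)) := by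
    apply Nat.div_lt_of_lt_mul
    rw [e1]; exact hX
  have e2 : (2 : ℕ) ^ (w - (k + 1)) = 2 ^ 1 * 2 ^ (w - (k + 2)) := by
    rw [← pow_add]; congr 1; omega
  have hZlt : X / 2 ^ (k + 1) / 2 ^ 1 < 2 ^ (w - (k + 2)) := by
    apply Nat.div_lt_of_lt_mul
    rw [← e2]; exact hYlt
  rw [Nat.mod_eq_of_lt hZlt] at h3'
  have hY : X / 2 ^ (k + 1) = 0 ∨ X / 2 ^ (k + 1) = 1 := by
    have := Nat.mod_add_div (X / 2 ^ (k + 1)) (2 ^ 1)
    rw [h3'] at this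
    norm_num at this hY0lt
    omega
  have hXeq := Nat.mod_add_div X (2 ^ (k + 1))
  rw [h0] at hXeq
  rcases hY with h | h
  · left; rw [h] at hXeq; omega
  · right; rw [h] at hXeq; omega

/-! ### the test -/

/-- every `w`-bit field of `V` (there are `2 ^ n` of them) is `o - 2 ^ k` or `o + 2 ^ k` -/
def okP (w o k n V : ℕ) : Bool :=
  (fun (R : ℕ) =>
    (fun (c : ℕ) =>
      Bool.rec false
        (Nat.beq (Nat.land (Nat.sub V c)
          (Nat.mul (Nat.add (Nat.sub (Nat.pow 2 (Nat.succ k)) 1)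
            (Nat.mul (Nat.pow 2 (Nat.add k 2)) (Nat.sub (Nat.pow 2 (Nat.sub w (Nat.add k 2))) 1))) R)) 0)
        (Nat.ble c V))
      (Nat.mul (Nat.sub o (Nat.pow 2 k)) R))
    (rep (Nat.pow 2 w) n)

lemma okP_spec (w o k n V : ℕ) (h : okP w o k n V = true) :
    (o - 2 ^ k) * rep (2 ^ w) n ≤ V ∧
      (V - (o - 2 ^ k) * rep (2 ^ w) n) &&& (msk w k * rep (2 ^ w) n) = 0 := by
  have h' : (Bool.rec false
      (Nat.beq ((V - (o - 2 ^ k) * rep (2 ^ w) n) &&& (msk w k * rep (2 ^ w) n)) 0)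
      (Nat.ble ((o - 2 ^ k) * rep (2 ^ w) n) V) : Bool) = true := h
  cases hb : Nat.ble ((o - 2 ^ k) * rep (2 ^ w) n) V
  · rw [hb] at h'; exact absurd h' Bool.false_ne_true
  · rw [hb] at h'
    exact ⟨Nat.le_of_ble_eq_true hb, Nat.eq_of_beq_eq_true h'⟩

section
variable (w : ℕ) (hw : 1 ≤ w)
include hw

lemma two_le_pow_w : 2 ≤ 2 ^ w := by
  calc 2 = 2 ^ 1 := by norm_num
    _ ≤ 2 ^ w := Nat.pow_le_pow_right (by norm_num) hw

lemma rep_zero' : rep (2 ^ w) 0 = 1 := by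
  have h := rep_cast (2 ^ w) (two_le_pow_w w hw) 0
  have : ((rep (2 ^ w) 0 : ℕ) : ℤ) = ((1 : ℕ) : ℤ) := by rw [h]; rfl
  exact_mod_cast this

lemma rep_succ' (n : ℕ) :
    rep (2 ^ w) (n + 1) = rep (2 ^ w) n + (2 ^ w) ^ 2 ^ n * rep (2 ^ w) n := by
  have h := rep_cast (2 ^ w) (two_le_pow_w w hw) (n + 1)
  have h0 := rep_cast (2 ^ w) (two_le_pow_w w hw) n
  have : ((rep (2 ^ w) (n + 1) : ℕ) : ℤ) =
      ((rep (2 ^ w) n + (2 ^ w) ^ 2 ^ n * rep (2 ^ w) n : ℕ) : ℤ) := by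
    rw [h]; push_cast; rw [h0]; rfl
  exact_mod_cast this

lemma rep_mul' (n : ℕ) : (2 ^ w - 1) * rep (2 ^ w) n + 1 = (2 ^ w) ^ 2 ^ n := by
  have h := repZ_mul (2 ^ w) n
  rw [← rep_cast (2 ^ w) (two_le_pow_w w hw) n] at h
  have h2 := two_le_pow_w w hw
  have : (((2 ^ w - 1) * rep (2 ^ w) n + 1 : ℕ) : ℤ) = (((2 ^ w) ^ 2 ^ n : ℕ) : ℤ) := by
    push_cast [Nat.cast_sub (by omega : 1 ≤ 2 ^ w)]
    push_cast at h
    linarith
  exact_mod_cast this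

end

/-- a number below `B ^ 2 ^ n` that avoids the repeated mask has all fields at most `2 ^ (k+1)` -/
lemma land_bound (w k : ℕ) (hk : k + 2 ≤ w) : ∀ (n X : ℕ), X < (2 ^ w) ^ 2 ^ n →
    X &&& (msk w k * rep (2 ^ w) n) = 0 → X ≤ 2 ^ (k + 1) * rep (2 ^ w) n
  | 0, X, hX, h => by
    have hw : 1 ≤ w := by omega
    simp only [rep_zero' w hw, mul_one] at h ⊢
    have hX' : X < 2 ^ w := by simpa using hX
    rcases leaf_land w k X hk hX' h with h | h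
    · rw [h]; exact Nat.zero_le _
    · rw [h]
  | n + 1, X, hX, h => by
    have hw : 1 ≤ w := by omega
    have hT : (2 ^ w) ^ 2 ^ n = 2 ^ (w * 2 ^ n) := (pow_mul 2 w (2 ^ n)).symm
    have hTT : (2 ^ w) ^ 2 ^ (n + 1) = (2 ^ w) ^ 2 ^ n * (2 ^ w) ^ 2 ^ n := by
      rw [pow_succ, pow_mul, sq]
    have hTpos : 0 < (2 ^ w) ^ 2 ^ n := Nat.pos_of_ne_zero (by positivity)
    have hm := msk_lt w k hk
    have p1 : 1 ≤ 2 ^ k := Nat.one_le_two_pow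
    have hRm := rep_mul' w hw n
    have hNR : msk w k * rep (2 ^ w) n < (2 ^ w) ^ 2 ^ n := by
      have : msk w k * rep (2 ^ w) n ≤ (2 ^ w - 1) * rep (2 ^ w) n :=
        Nat.mul_le_mul_right _ (by omega)
      omega
    have hsplit : msk w k * rep (2 ^ w) (n + 1) =
        msk w k * rep (2 ^ w) n + (2 ^ w) ^ 2 ^ n * (msk w k * rep (2 ^ w) n) := by
      rw [rep_succ' w hw]; ring
    have hXm : X % (2 ^ w) ^ 2 ^ n < (2 ^ w) ^ 2 ^ n := Nat.mod_lt _ hTpos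
    have hXd : X / (2 ^ w) ^ 2 ^ n < (2 ^ w) ^ 2 ^ n := by
      apply Nat.div_lt_of_lt_mul
      rw [← hTT]; exact hX
    have key := land_concat (w * 2 ^ n) (X % (2 ^ w) ^ 2 ^ n) (X / (2 ^ w) ^ 2 ^ n)
      (msk w k * rep (2 ^ w) n) (msk w k * rep (2 ^ w) n) (by rw [← hT]; exact hXm)
      (by rw [← hT]; exact hNR)
    rw [← hT, Nat.mod_add_div, ← hsplit, h] at key
    obtain ⟨h0, h1⟩ := Nat.add_eq_zero_iff.mp key.symm
    have h1' : X / (2 ^ w) ^ 2 ^ n &&& (msk w k * rep (2 ^ w) n) = 0 := by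
      rcases Nat.mul_eq_zero.mp h1 with h | h
      · exact absurd h hTpos.ne'
      · exact h
    have b0 := land_bound w k hk n _ hXm h0
    have b1 := land_bound w k hk n _ hXd h1'
    have hXeq := Nat.mod_add_div X ((2 ^ w) ^ 2 ^ n)
    rw [rep_succ' w hw]
    calc X = X % (2 ^ w) ^ 2 ^ n + (2 ^ w) ^ 2 ^ n * (X / (2 ^ w) ^ 2 ^ n) := hXeq.symm
      _ ≤ 2 ^ (k + 1) * rep (2 ^ w) n + (2 ^ w) ^ 2 ^ n * (2 ^ (k + 1) * rep (2 ^ w) n) :=
        Nat.add_le_add b0 (Nat.mul_le_mul_left _ b1)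
      _ = 2 ^ (k + 1) * (rep (2 ^ w) n + (2 ^ w) ^ 2 ^ n * rep (2 ^ w) n) := by ring

/-- the test on a packed tree with fields in range -/
theorem allPM_of_land (w o k : ℕ) (hk : k + 2 ≤ w) (hKo : 2 ^ k ≤ o) (hoK : o + 2 ^ k < 2 ^ w) :
    ∀ (n : ℕ) (t : Tr n) (V : ℕ), Bd (2 ^ w) (o : ℤ) n t → (V : ℤ) = pk (2 ^ w) (o : ℤ) n t →
      (o - 2 ^ k) * rep (2 ^ w) n ≤ V →
      (V - (o - 2 ^ k) * rep (2 ^ w) n) &&& (msk w k * rep (2 ^ w) n) = 0 →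
      AllPM ((2 : ℤ) ^ k) n t
  | 0, t, V, hbd, hV, hc, h => by
    have hw : 1 ≤ w := by omega
    simp only [rep_zero' w hw, mul_one] at h hc
    have p1 : 1 ≤ 2 ^ k := Nat.one_le_two_pow
    obtain ⟨b0, b1⟩ := hbd
    have hV' : (V : ℤ) = leaf t + (o : ℤ) := hV
    have b1' : leaf t + (o : ℤ) < ((2 ^ w : ℕ) : ℤ) := b1
    have hVlt : V < 2 ^ w := by
      have : (V : ℤ) < ((2 ^ w : ℕ) : ℤ) := by rw [hV']; exact b1'
      exact_mod_cast this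
    have hX : V - (o - 2 ^ k) < 2 ^ w := lt_of_le_of_lt (Nat.sub_le _ _) hVlt
    have e2 : (2 : ℕ) ^ (k + 1) = 2 * 2 ^ k := by rw [pow_succ]; ring
    have hcast : ((2 ^ k : ℕ) : ℤ) = (2 : ℤ) ^ k := by push_cast; rfl
    show leaf t = (2 : ℤ) ^ k ∨ leaf t = -(2 : ℤ) ^ k
    rw [← hcast]
    rcases leaf_land w k _ hk hX h with h | h
    · right; omega
    · left; omega
  | n + 1, t, V, hbd, hV, hc, h => by
    have hw : 1 ≤ w := by omega
    have hT : (2 ^ w) ^ 2 ^ n = 2 ^ (w * 2 ^ n) := (pow_mul 2 w (2 ^ n)).symm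
    have hTT : (2 ^ w) ^ 2 ^ (n + 1) = (2 ^ w) ^ 2 ^ n * (2 ^ w) ^ 2 ^ n := by
      rw [pow_succ, pow_mul, sq]
    have hTpos : 0 < (2 ^ w) ^ 2 ^ n := Nat.pos_of_ne_zero (by positivity)
    have hm := msk_lt w k hk
    have p1 : 1 ≤ 2 ^ k := Nat.one_le_two_pow
    have hRm := rep_mul' w hw n
    have hNR : msk w k * rep (2 ^ w) n < (2 ^ w) ^ 2 ^ n := by
      have : msk w k * rep (2 ^ w) n ≤ (2 ^ w - 1) * rep (2 ^ w) n :=
        Nat.mul_le_mul_right _ (by omega)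
      omega
    have hsplit : msk w k * rep (2 ^ w) (n + 1) =
        msk w k * rep (2 ^ w) n + (2 ^ w) ^ 2 ^ n * (msk w k * rep (2 ^ w) n) := by
      rw [rep_succ' w hw]; ring
    have hcs : (o - 2 ^ k) * rep (2 ^ w) (n + 1) =
        (o - 2 ^ k) * rep (2 ^ w) n + (2 ^ w) ^ 2 ^ n * ((o - 2 ^ k) * rep (2 ^ w) n) := by
      rw [rep_succ' w hw]; ring
    -- the number is below `T * T`
    have hVlt : V < (2 ^ w) ^ 2 ^ n * (2 ^ w) ^ 2 ^ n := by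
      have := (pk_bound (2 ^ w) (o : ℤ) (n + 1) t hbd).2
      rw [← hV] at this
      rw [← hTT]
      exact_mod_cast this
    obtain ⟨s1, s2⟩ := pk_split (2 ^ w) (o : ℤ) n t hbd V hV
    set X := V - (o - 2 ^ k) * rep (2 ^ w) (n + 1) with hXdef
    have hVX : V = X + (o - 2 ^ k) * rep (2 ^ w) (n + 1) := by omega
    have hXlt : X < (2 ^ w) ^ 2 ^ n * (2 ^ w) ^ 2 ^ n := lt_of_le_of_lt (Nat.sub_le _ _) hVlt
    have hXm : X % (2 ^ w) ^ 2 ^ n < (2 ^ w) ^ 2 ^ n := Nat.mod_lt _ hTpos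
    have hXd : X / (2 ^ w) ^ 2 ^ n < (2 ^ w) ^ 2 ^ n := Nat.div_lt_of_lt_mul hXlt
    have key := land_concat (w * 2 ^ n) (X % (2 ^ w) ^ 2 ^ n) (X / (2 ^ w) ^ 2 ^ n)
      (msk w k * rep (2 ^ w) n) (msk w k * rep (2 ^ w) n) (by rw [← hT]; exact hXm)
      (by rw [← hT]; exact hNR)
    rw [← hT, Nat.mod_add_div, ← hsplit, h] at key
    obtain ⟨h0, h1⟩ := Nat.add_eq_zero_iff.mp key.symm
    have h1' : X / (2 ^ w) ^ 2 ^ n &&& (msk w k * rep (2 ^ w) n) = 0 := by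
      rcases Nat.mul_eq_zero.mp h1 with h | h
      · exact absurd h hTpos.ne'
      · exact h
    have b0 := land_bound w k hk n _ hXm h0
    -- the low part does not overflow
    have e2 : (2 : ℕ) ^ (k + 1) = 2 * 2 ^ k := by rw [pow_succ]; ring
    have hlow : X % (2 ^ w) ^ 2 ^ n + (o - 2 ^ k) * rep (2 ^ w) n < (2 ^ w) ^ 2 ^ n := by
      have h2 : 2 ^ (k + 1) * rep (2 ^ w) n + (o - 2 ^ k) * rep (2 ^ w) n ≤
          (2 ^ w - 1) * rep (2 ^ w) n := by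
        rw [← Nat.add_mul]
        exact Nat.mul_le_mul_right _ (by omega)
      omega
    have hV2 : V = (X % (2 ^ w) ^ 2 ^ n + (o - 2 ^ k) * rep (2 ^ w) n) +
        (2 ^ w) ^ 2 ^ n * (X / (2 ^ w) ^ 2 ^ n + (o - 2 ^ k) * rep (2 ^ w) n) := by
      have hXeq := Nat.mod_add_div X ((2 ^ w) ^ 2 ^ n)
      calc V = X + (o - 2 ^ k) * rep (2 ^ w) (n + 1) := hVX
        _ = (X % (2 ^ w) ^ 2 ^ n + (2 ^ w) ^ 2 ^ n * (X / (2 ^ w) ^ 2 ^ n)) +
            ((o - 2 ^ k) * rep (2 ^ w) n + (2 ^ w) ^ 2 ^ n * ((o - 2 ^ k) * rep (2 ^ w) n)) := by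
          rw [hXeq, hcs]
        _ = _ := by ring
    have hVm : V % (2 ^ w) ^ 2 ^ n = X % (2 ^ w) ^ 2 ^ n + (o - 2 ^ k) * rep (2 ^ w) n := by
      rw [hV2, Nat.add_mul_mod_self_left, Nat.mod_eq_of_lt hlow]
    have hVd : V / (2 ^ w) ^ 2 ^ n = X / (2 ^ w) ^ 2 ^ n + (o - 2 ^ k) * rep (2 ^ w) n := by
      rw [hV2, Nat.add_mul_div_left _ _ hTpos, Nat.div_eq_of_lt hlow, zero_add]
    refine ⟨allPM_of_land w o k hk hKo hoK n t.1 (V % (2 ^ w) ^ 2 ^ n) hbd.1 s1 ?_ ?_,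
      allPM_of_land w o k hk hKo hoK n t.2 (V / (2 ^ w) ^ 2 ^ n) hbd.2 s2 ?_ ?_⟩
    · rw [hVm]; exact Nat.le_add_left _ _
    · rw [hVm, Nat.add_sub_cancel]; exact h0
    · rw [hVd]; exact Nat.le_add_left _ _
    · rw [hVd, Nat.add_sub_cancel]; exact h1'

/-- **The final test.**  If `V` packs the tree `t` (fields in range) and passes `okP`, every leaf
of `t` is `2 ^ k` or `-2 ^ k`. -/
theorem allPM_of_okP (w o k n : ℕ) (hk : k + 2 ≤ w) (hKo : 2 ^ k ≤ o) (hoK : o + 2 ^ k < 2 ^ w)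
    (t : Tr n) (V : ℕ) (hbd : Bd (2 ^ w) (o : ℤ) n t) (hV : (V : ℤ) = pk (2 ^ w) (o : ℤ) n t)
    (h : okP w o k n V = true) : AllPM ((2 : ℤ) ^ k) n t :=
  have hs := okP_spec w o k n V h
  allPM_of_land w o k hk hKo hoK n t V hbd hV hs.1 hs.2

/-! ### the range of the values of a polynomial -/

/-- the sum of the absolute values of the leaves -/
def l1 : (n : ℕ) → Tr n → ℤ
  | 0, v => |leaf v|
  | n + 1, t => l1 n t.1 + l1 n t.2

lemma l1_nonneg : ∀ (n : ℕ) (t : Tr n), 0 ≤ l1 n t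
  | 0, _ => abs_nonneg _
  | n + 1, t => add_nonneg (l1_nonneg n t.1) (l1_nonneg n t.2)

lemma l1_addT_le : ∀ (n : ℕ) (a b : Tr n), l1 n (addT n a b) ≤ l1 n a + l1 n b
  | 0, a, b => by
    show |leaf a + leaf b| ≤ |leaf a| + |leaf b|
    exact abs_add_le _ _
  | n + 1, a, b => by
    have h1 := l1_addT_le n a.1 b.1
    have h2 := l1_addT_le n a.2 b.2
    show l1 n (addT n a.1 b.1) + l1 n (addT n a.2 b.2) ≤ (l1 n a.1 + l1 n a.2) + (l1 n b.1 + l1 n b.2)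
    linarith

lemma l1_subT_le : ∀ (n : ℕ) (a b : Tr n), l1 n (subT n a b) ≤ l1 n a + l1 n b
  | 0, a, b => by
    show |leaf a - leaf b| ≤ |leaf a| + |leaf b|
    exact abs_sub _ _
  | n + 1, a, b => by
    have h1 := l1_subT_le n a.1 b.1
    have h2 := l1_subT_le n a.2 b.2
    show l1 n (subT n a.1 b.1) + l1 n (subT n a.2 b.2) ≤ (l1 n a.1 + l1 n a.2) + (l1 n b.1 + l1 n b.2)
    linarith

lemma absLE_mono (k k' : ℤ) (hkk : k ≤ k') : ∀ (n : ℕ) (t : Tr n), AbsLE k n t → AbsLE k' n t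
  | 0, t, h => by
    obtain ⟨h1, h2⟩ := h
    show -k' ≤ leaf t ∧ leaf t ≤ k'
    constructor <;> linarith
  | n + 1, t, h => ⟨absLE_mono k k' hkk n _ h.1, absLE_mono k k' hkk n _ h.2⟩

/-- every value of a polynomial is bounded by the `l1` norm of its coefficients -/
lemma absLE_iwht : ∀ (n : ℕ) (c : Tr n), AbsLE (l1 n c) n (iwht n c)
  | 0, c => by
    show -|leaf c| ≤ leaf c ∧ leaf c ≤ |leaf c|
    exact ⟨neg_abs_le _, le_abs_self _⟩
  | n + 1, c =>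
    ⟨absLE_subT _ _ n _ _ (absLE_iwht n c.1) (absLE_iwht n c.2),
      absLE_addT _ _ n _ _ (absLE_iwht n c.1) (absLE_iwht n c.2)⟩

/-- **The final test for a polynomial.**  `V` packs the values of the polynomial with coefficient
tree `c`; the fields are in range because the `l1` norm of `c` is at most the offset. -/
theorem allPM_iwht_of_okP (w o k n : ℕ) (hk : k + 2 ≤ w) (hKo : 2 ^ k ≤ o) (hoK : o + 2 ^ k < 2 ^ w)
    (c : Tr n) (V : ℕ) (hl : l1 n c ≤ (o : ℤ)) (hB : (o : ℤ) + l1 n c < ((2 ^ w : ℕ) : ℤ))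
    (hV : (V : ℤ) = pk (2 ^ w) (o : ℤ) n (iwht n c)) (h : okP w o k n V = true) :
    AllPM ((2 : ℤ) ^ k) n (iwht n c) :=
  allPM_of_okP w o k n hk hKo hoK (iwht n c) V
    (bd_of_absLE (2 ^ w) (o : ℤ) (l1 n c) hl hB n _ (absLE_iwht n c)) hV h

end Crest.Agent.GS
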