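import Crest.Agent.GS.Table
import Crest.Agent.GS.LandTest

/-!
# Bit-parallel packed certificate (a few hundred big-number operations, no recursion on the table)

`whtW n m` computes the packed Walsh–Hadamard transform `whtP (2 ^ (n + 2)) n m` of a truth table
on `n` variables with `O (n)` operations on whole packed arrays: `n` rounds that spread the bits of
the table to fields of `n + 2` bits (`spr`), then `n` butterfly levels (`lev`), each acting on all
blocks at once through a mask.  The degree test is one bitwise `and` against a mask (`hm`, `ht`).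

Usage, for a gadget on `N` variables with degree bound `d` and truth table `M` (same conventions
as `Check.lean`):

  theorem result (C : ℝ) (hC : 0 < C) : ... :=
    Crest.Agent.GS.BP.statement_of_certifyW N d M (by decide +kernel) C

Measured in the kernel: `N = 20` about 1.5 s, `N = 22` about 17 s and 7 GB.
-/

set_option autoImplicit false

namespace Crest.Agent.GS.BP

/-- size of a block of `2 ^ i` fields of `w` bits -/
def T (w i : ℕ) : ℕ := (2 ^ w) ^ 2 ^ i

lemma T_eq (w i : ℕ) : T w i = 2 ^ (w * 2 ^ i) := (pow_mul 2 w (2 ^ i)).symm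

lemma T_pos (w i : ℕ) : 0 < T w i := by
  rw [T_eq]; exact Nat.pos_of_ne_zero (by positivity)

lemma T_succ (w i : ℕ) : T w (i + 1) = T w i * T w i := by
  unfold T
  rw [pow_succ, pow_mul, sq]

lemma shl_T (w n x : ℕ) : x <<< (w * 2 ^ n) = T w n * x := by
  rw [Nat.shiftLeft_eq, T_eq, mul_comm]

/-- two numbers below `T`, concatenated, stay below `T * T` -/
lemma concat_lt (Tn a b : ℕ) (ha : a < Tn) (hb : b < Tn) : a + Tn * b < Tn * Tn := by
  have h := Nat.mul_le_mul_left Tn (Nat.succ_le_of_lt hb)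
  rw [Nat.mul_succ] at h
  omega

lemma concat_inj (Tn a b c d : ℕ) (ha : a < Tn) (hc : c < Tn) (h : a + Tn * b = c + Tn * d) :
    a = c ∧ b = d := by
  have hpos : 0 < Tn := lt_of_le_of_lt (Nat.zero_le _) ha
  have h1 := congrArg (fun z => z % Tn) h
  have h2 := congrArg (fun z => z / Tn) h
  simp only [Nat.add_mul_mod_self_left, Nat.mod_eq_of_lt ha, Nat.mod_eq_of_lt hc] at h1
  simp only [Nat.add_mul_div_left _ _ hpos, Nat.div_eq_of_lt ha, Nat.div_eq_of_lt hc,
    zero_add] at h2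
  exact ⟨h1, h2⟩

lemma mod_concat (Tn a b : ℕ) (ha : a < Tn) : (a + Tn * b) % Tn = a := by
  rw [Nat.add_mul_mod_self_left, Nat.mod_eq_of_lt ha]

lemma div_concat (Tn a b : ℕ) (ha : a < Tn) : (a + Tn * b) / Tn = b := by
  have hpos : 0 < Tn := lt_of_le_of_lt (Nat.zero_le _) ha
  rw [Nat.add_mul_div_left _ _ hpos, Nat.div_eq_of_lt ha, zero_add]

lemma land_concat_T (w n a b c d : ℕ) (ha : a < T w n) (hc : c < T w n) :
    (a + T w n * b) &&& (c + T w n * d) = (a &&& c) + T w n * (b &&& d) := by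
  rw [T_eq] at ha hc ⊢
  exact land_concat _ a b c d ha hc

lemma land_T_sub_one (w n x : ℕ) : x &&& (T w n - 1) = x % T w n := by
  rw [T_eq]; exact Nat.and_two_pow_sub_one_eq_mod x _

/-! ### the masks and the level operation -/

/-- mask of the low half-blocks of level `k`, for `2 ^ n` fields -/
def msk (w k : ℕ) : ℕ → ℕ
  | 0 => 0
  | n + 1 => if n = k then T w k - 1 else msk w k n + msk w k n <<< (w * 2 ^ n)

/-- the offsets of level `k`, on the low half-blocks -/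
def ofs (w k : ℕ) : ℕ → ℕ
  | 0 => 0
  | n + 1 => if n = k then 2 ^ (k + 1) * rep (2 ^ w) k else ofs w k n + ofs w k n <<< (w * 2 ^ n)

/-- one butterfly level on the whole array -/
def lev (w k n X : ℕ) : ℕ :=
  (fun A => (fun H => (A + (H >>> (w * 2 ^ k))) +
      ((H + (ofs w k n <<< (w * 2 ^ k))) - (A <<< (w * 2 ^ k)))) (X - A)) (X &&& msk w k n)

/-- levels `0, …, k - 1` -/
def levs (w n : ℕ) : ℕ → ℕ → ℕ
  | 0, X => X
  | k + 1, X => lev w k n (levs w n k X)

/-- masks for spreading: the low `2 ^ r` bits of every slot of `2 ^ (r + 1)` fields -/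
def smsk (w r : ℕ) : ℕ → ℕ
  | 0 => 0
  | n + 1 => if n = r then 2 ^ 2 ^ r - 1 else smsk w r n + smsk w r n <<< (w * 2 ^ n)

/-- one round of spreading: the high half of every block of `2 ^ (r + 1)` bits moves up -/
def spr (w r n Y : ℕ) : ℕ :=
  (fun A => A + ((Y - A) <<< ((w - 1) * 2 ^ r))) (Y &&& smsk w r n)

/-- rounds `n - 1, …, n - j` -/
def sprs (w n : ℕ) : ℕ → ℕ → ℕ
  | 0, Y => Y
  | j + 1, Y => spr w (n - (j + 1)) n (sprs w n j Y)

/-- the bit-parallel packed transform -/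
def whtW (n m : ℕ) : ℕ := levs (n + 2) n n (2 * sprs (n + 2) n n (m % 2 ^ 2 ^ n))

/-! ### specification of the masks -/

/-- the low half-blocks of level `k` -/
def lo (w k : ℕ) : ℕ → ℕ → ℕ
  | 0, X => X
  | n + 1, X => if n = k then X % T w k else lo w k n (X % T w n) + T w n * lo w k n (X / T w n)

/-- the high half-blocks of level `k`, moved down -/
def hi (w k : ℕ) : ℕ → ℕ → ℕ
  | 0, _ => 0
  | n + 1, X => if n = k then X / T w k else hi w k n (X % T w n) + T w n * hi w k n (X / T w n)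

lemma msk_eq (w k : ℕ) : msk w k (k + 1) = T w k - 1 := by
  show (if k = k then T w k - 1 else msk w k k + msk w k k <<< (w * 2 ^ k)) = T w k - 1
  rw [if_pos rfl]

lemma msk_ne (w k n : ℕ) (h : n ≠ k) : msk w k (n + 1) = msk w k n + T w n * msk w k n := by
  show (if n = k then T w k - 1 else msk w k n + msk w k n <<< (w * 2 ^ n)) = _
  rw [if_neg h, shl_T]

lemma ofs_eq (w k : ℕ) : ofs w k (k + 1) = 2 ^ (k + 1) * rep (2 ^ w) k := by
  show (if k = k then 2 ^ (k + 1) * rep (2 ^ w) k else ofs w k k + ofs w k k <<< (w * 2 ^ k)) = _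
  rw [if_pos rfl]

lemma ofs_ne (w k n : ℕ) (h : n ≠ k) : ofs w k (n + 1) = ofs w k n + T w n * ofs w k n := by
  show (if n = k then 2 ^ (k + 1) * rep (2 ^ w) k else ofs w k n + ofs w k n <<< (w * 2 ^ n)) = _
  rw [if_neg h, shl_T]

lemma lo_eq (w k X : ℕ) : lo w k (k + 1) X = X % T w k := by
  show (if k = k then X % T w k else lo w k k (X % T w k) + T w k * lo w k k (X / T w k)) = _
  rw [if_pos rfl]

lemma lo_ne (w k n X : ℕ) (h : n ≠ k) :
    lo w k (n + 1) X = lo w k n (X % T w n) + T w n * lo w k n (X / T w n) := by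
  show (if n = k then X % T w k else lo w k n (X % T w n) + T w n * lo w k n (X / T w n)) = _
  rw [if_neg h]

lemma hi_eq (w k X : ℕ) : hi w k (k + 1) X = X / T w k := by
  show (if k = k then X / T w k else hi w k k (X % T w k) + T w k * hi w k k (X / T w k)) = _
  rw [if_pos rfl]

lemma hi_ne (w k n X : ℕ) (h : n ≠ k) :
    hi w k (n + 1) X = hi w k n (X % T w n) + T w n * hi w k n (X / T w n) := by
  show (if n = k then X / T w k else hi w k n (X % T w n) + T w n * hi w k n (X / T w n)) = _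
  rw [if_neg h]

lemma msk_lt (w k : ℕ) : ∀ n : ℕ, k < n → msk w k n < T w n
  | 0, h => by omega
  | n + 1, h => by
    rw [T_succ]
    by_cases hn : n = k
    · subst hn
      rw [msk_eq]
      have hp := T_pos w n
      have : T w n ≤ T w n * T w n := Nat.le_mul_self _
      omega
    · rw [msk_ne w k n hn]
      have ih := msk_lt w k n (by omega)
      exact concat_lt _ _ _ ih ih

lemma land_msk (w k : ℕ) : ∀ (n X : ℕ), k < n → X < T w n → X &&& msk w k n = lo w k n X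
  | 0, _, h, _ => by omega
  | n + 1, X, h, hX => by
    by_cases hn : n = k
    · subst hn
      rw [msk_eq, lo_eq, land_T_sub_one]
    · have hk : k < n := by omega
      rw [msk_ne w k n hn, lo_ne w k n X hn]
      have h1 : X % T w n < T w n := Nat.mod_lt _ (T_pos w n)
      have h2 : X / T w n < T w n := by
        rw [T_succ] at hX
        exact Nat.div_lt_of_lt_mul hX
      have key := land_concat_T w n (X % T w n) (X / T w n) (msk w k n) (msk w k n) h1
        (msk_lt w k n hk)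
      rw [Nat.mod_add_div] at key
      rw [key, land_msk w k n _ hk h1, land_msk w k n _ hk h2]

lemma lo_add_hi (w k : ℕ) : ∀ (n X : ℕ), k < n → lo w k n X + T w k * hi w k n X = X
  | 0, _, h => by omega
  | n + 1, X, h => by
    by_cases hn : n = k
    · subst hn
      rw [lo_eq, hi_eq]
      exact Nat.mod_add_div X _
    · have hk : k < n := by omega
      rw [lo_ne w k n X hn, hi_ne w k n X hn]
      have h1 := lo_add_hi w k n (X % T w n) hk
      have h2 := lo_add_hi w k n (X / T w n) hk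
      calc lo w k n (X % T w n) + T w n * lo w k n (X / T w n) +
            T w k * (hi w k n (X % T w n) + T w n * hi w k n (X / T w n))
          = (lo w k n (X % T w n) + T w k * hi w k n (X % T w n)) +
              T w n * (lo w k n (X / T w n) + T w k * hi w k n (X / T w n)) := by ring
        _ = X % T w n + T w n * (X / T w n) := by rw [h1, h2]
        _ = X := Nat.mod_add_div X _

/-- the level operation in terms of the two halves -/
lemma lev_eq (w k n X : ℕ) (hk : k < n) (hX : X < T w n) :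
    lev w k n X = (lo w k n X + hi w k n X) +
      T w k * (hi w k n X + ofs w k n - lo w k n X) := by
  have hA := land_msk w k n X hk hX
  have hs := lo_add_hi w k n X hk
  have hH : X - lo w k n X = T w k * hi w k n X := by omega
  show ((X &&& msk w k n) + ((X - (X &&& msk w k n)) >>> (w * 2 ^ k))) +
      (((X - (X &&& msk w k n)) + (ofs w k n <<< (w * 2 ^ k))) -
        ((X &&& msk w k n) <<< (w * 2 ^ k))) = _
  rw [hA, hH, shl_T, shl_T, Nat.shiftRight_eq_div_pow, ← T_eq,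
    Nat.mul_div_cancel_left _ (T_pos w k), ← Nat.mul_add, ← Nat.mul_sub]

/-! ### the blockwise transform -/

/-- the transforms of the blocks of `2 ^ k` table bits, concatenated -/
def bw (w k : ℕ) : ℕ → ℕ → ℕ
  | 0, m => whtP (2 ^ w) 0 m
  | n + 1, m => if n + 1 ≤ k then whtP (2 ^ w) (n + 1) m
      else bw w k n (m % 2 ^ 2 ^ n) + T w n * bw w k n (m / 2 ^ 2 ^ n)

lemma bw_self (w : ℕ) : ∀ (k m : ℕ), bw w k k m = whtP (2 ^ w) k m
  | 0, _ => rfl
  | k + 1, m => by
    show (if k + 1 ≤ k + 1 then whtP (2 ^ w) (k + 1) m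
      else bw w (k + 1) k (m % 2 ^ 2 ^ k) + T w k * bw w (k + 1) k (m / 2 ^ 2 ^ k)) = _
    rw [if_pos le_rfl]

lemma bw_gt (w k n m : ℕ) (h : k ≤ n) :
    bw w k (n + 1) m = bw w k n (m % 2 ^ 2 ^ n) + T w n * bw w k n (m / 2 ^ 2 ^ n) := by
  show (if n + 1 ≤ k then whtP (2 ^ w) (n + 1) m
      else bw w k n (m % 2 ^ 2 ^ n) + T w n * bw w k n (m / 2 ^ 2 ^ n)) = _
  rw [if_neg (by omega)]

lemma two_le_pow (w : ℕ) (hw : 1 ≤ w) : 2 ≤ 2 ^ w := by
  have : 2 ^ 1 ≤ 2 ^ w := Nat.pow_le_pow_right (by norm_num) hw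
  simpa using this

lemma bw_lt (w k : ℕ) (hw : k + 1 < w) : ∀ (n m : ℕ), k ≤ n → bw w k n m < T w n
  | 0, m, h => by
    have hk : k = 0 := by omega
    subst hk
    exact whtP_lt (2 ^ w) (two_le_pow w (by omega)) 0 m
      (Nat.pow_lt_pow_right (by norm_num) (by omega))
  | n + 1, m, h => by
    by_cases hn : n + 1 ≤ k
    · have hk : k = n + 1 := by omega
      subst hk
      rw [bw_self]
      exact whtP_lt (2 ^ w) (two_le_pow w (by omega)) (n + 1) m
        (Nat.pow_lt_pow_right (by norm_num) (by omega))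
    · have hk : k ≤ n := by omega
      rw [bw_gt w k n m hk, T_succ]
      exact concat_lt _ _ _ (bw_lt w k hw n _ hk) (bw_lt w k hw n _ hk)

/-- no borrow in the subtraction of one level -/
lemma whtP_le (B : ℕ) (hB2 : 2 ≤ B) (n a b : ℕ) (hB : 2 ^ (n + 1 + 1) < B) :
    whtP B n a ≤ whtP B n b + 2 ^ (n + 1) * rep B n := by
  have hB' : 2 ^ (n + 1) < B := by
    have : 2 ^ (n + 1) < 2 ^ (n + 1 + 1) := Nat.pow_lt_pow_right (by norm_num) (by omega)
    omega
  have iha := whtP_eq B hB2 n a hB'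
  have ihb := whtP_eq B hB2 n b hB'
  set A := wht n (mk n a) with hA
  set Bt := wht n (mk n b) with hBt
  have hAabs : AbsLE (2 ^ n) n A := absLE_wht n _
  have hBabs : AbsLE (2 ^ n) n Bt := absLE_wht n _
  have hsub : pk B (2 ^ (n + 1)) n (subT n Bt A) =
      pk B (2 ^ n) n Bt + 2 ^ (n + 1) * repZ B n - pk B (2 ^ n) n A := by
    have h := pk_subT B (2 ^ n + 2 ^ (n + 1)) (2 ^ n) n Bt A
    rw [pk_offset] at h
    have e : (2 : ℤ) ^ n + 2 ^ (n + 1) - 2 ^ n = 2 ^ (n + 1) := by ring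
    rw [e] at h
    exact h
  have hsubBd : Bd B (2 ^ (n + 1)) n (subT n Bt A) := by
    have h := absLE_subT _ _ n _ _ hBabs hAabs
    have e : (2 : ℤ) ^ n + 2 ^ n = 2 ^ (n + 1) := by ring
    rw [e] at h
    refine bd_of_absLE B _ _ le_rfl ?_ n _ h
    have : ((2 ^ (n + 1 + 1) : ℕ) : ℤ) < (B : ℤ) := by exact_mod_cast hB
    have e2 : ((2 ^ (n + 1 + 1) : ℕ) : ℤ) = 2 ^ (n + 1) + 2 ^ (n + 1) := by
      push_cast; ring
    linarith
  have hnn := (pk_bound B _ n _ hsubBd).1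
  rw [hsub, ← iha, ← ihb, ← rep_cast B hB2] at hnn
  have : (0 : ℤ) ≤ ((whtP B n b + 2 ^ (n + 1) * rep B n : ℕ) : ℤ) - ((whtP B n a : ℕ) : ℤ) := by
    push_cast
    linarith
  omega

/-- one level maps the blockwise transform of level `k` to that of level `k + 1` -/
lemma lev_spec (w k : ℕ) (hw : k + 2 < w) : ∀ (n m : ℕ), k < n →
    lo w k n (bw w k n m) ≤ hi w k n (bw w k n m) + ofs w k n ∧
    (lo w k n (bw w k n m) + hi w k n (bw w k n m)) +
      T w k * (hi w k n (bw w k n m) + ofs w k n - lo w k n (bw w k n m)) = bw w (k + 1) n m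
  | 0, _, h => by omega
  | n + 1, m, h => by
    by_cases hn : n = k
    · subst hn
      have hB2 := two_le_pow w (by omega)
      have ha : whtP (2 ^ w) n (m % 2 ^ 2 ^ n) < T w n :=
        whtP_lt (2 ^ w) hB2 n _ (Nat.pow_lt_pow_right (by norm_num) (by omega))
      have hle := whtP_le (2 ^ w) hB2 n (m % 2 ^ 2 ^ n) (m / 2 ^ 2 ^ n)
        (Nat.pow_lt_pow_right (by norm_num) (by omega))
      rw [bw_gt w n n m le_rfl, bw_self, bw_self, lo_eq, hi_eq, ofs_eq,
        mod_concat _ _ _ ha, div_concat _ _ _ ha, bw_self]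
      refine ⟨hle, ?_⟩
      show _ = (whtP (2 ^ w) n (m / 2 ^ 2 ^ n) + whtP (2 ^ w) n (m % 2 ^ 2 ^ n)) +
        (2 ^ w) ^ 2 ^ n * (whtP (2 ^ w) n (m / 2 ^ 2 ^ n) + 2 ^ (n + 1) * rep (2 ^ w) n -
          whtP (2 ^ w) n (m % 2 ^ 2 ^ n))
      rw [Nat.add_comm (whtP (2 ^ w) n (m % 2 ^ 2 ^ n))]
      rfl
    · have hk : k < n := by omega
      obtain ⟨b1, e1⟩ := lev_spec w k hw n (m % 2 ^ 2 ^ n) hk
      obtain ⟨b2, e2⟩ := lev_spec w k hw n (m / 2 ^ 2 ^ n) hk
      have hx1 : bw w k n (m % 2 ^ 2 ^ n) < T w n := bw_lt w k (by omega) n _ (by omega)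
      rw [bw_gt w k n m (by omega), lo_ne w k n _ hn, hi_ne w k n _ hn, ofs_ne w k n hn,
        mod_concat _ _ _ hx1, div_concat _ _ _ hx1, bw_gt w (k + 1) n m (by omega), ← e1, ← e2]
      generalize lo w k n (bw w k n (m % 2 ^ 2 ^ n)) = l1 at b1 ⊢
      generalize hi w k n (bw w k n (m % 2 ^ 2 ^ n)) = h1 at b1 ⊢
      generalize lo w k n (bw w k n (m / 2 ^ 2 ^ n)) = l2 at b2 ⊢
      generalize hi w k n (bw w k n (m / 2 ^ 2 ^ n)) = h2 at b2 ⊢
      generalize ofs w k n = o at b1 b2 ⊢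
      generalize T w n = Tn
      generalize T w k = Tk
      have hd1 : h1 + o - l1 + l1 = h1 + o := Nat.sub_add_cancel b1
      have hd2 : h2 + o - l2 + l2 = h2 + o := Nat.sub_add_cancel b2
      have hsub : h1 + Tn * h2 + (o + Tn * o) - (l1 + Tn * l2) =
          (h1 + o - l1) + Tn * (h2 + o - l2) := by
        apply Nat.sub_eq_of_eq_add
        calc h1 + Tn * h2 + (o + Tn * o) = (h1 + o) + Tn * (h2 + o) := by ring
          _ = (h1 + o - l1 + l1) + Tn * (h2 + o - l2 + l2) := by rw [hd1, hd2]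
          _ = _ := by ring
      refine ⟨?_, ?_⟩
      · have := Nat.mul_le_mul_left Tn b2
        rw [Nat.mul_add] at this
        omega
      · rw [hsub]
        ring

lemma lev_bw (w k n m : ℕ) (hk : k < n) (hw : k + 2 < w) :
    lev w k n (bw w k n m) = bw w (k + 1) n m := by
  rw [lev_eq w k n _ hk (bw_lt w k (by omega) n m (by omega))]
  exact (lev_spec w k hw n m hk).2

lemma levs_eq (w n m : ℕ) (hw : n + 1 < w) : ∀ k : ℕ, k ≤ n →
    levs w n k (bw w 0 n m) = bw w k n m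
  | 0, _ => rfl
  | k + 1, h => by
    show lev w k n (levs w n k (bw w 0 n m)) = _
    rw [levs_eq w n m hw k (by omega)]
    exact lev_bw w k n m (by omega) (by omega)

/-! ### spreading -/

/-- the table after the rounds down to `r`: blocks of `2 ^ r` bits in slots of `2 ^ r` fields -/
def sp (w r : ℕ) : ℕ → ℕ → ℕ
  | 0, m => m % 2
  | n + 1, m => if n + 1 ≤ r then m % 2 ^ 2 ^ (n + 1)
      else sp w r n (m % 2 ^ 2 ^ n) + T w n * sp w r n (m / 2 ^ 2 ^ n)

lemma sp_self (w : ℕ) : ∀ (n m : ℕ), sp w n n m = m % 2 ^ 2 ^ n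
  | 0, m => by
    show m % 2 = m % 2 ^ 2 ^ 0
    norm_num
  | n + 1, m => by
    show (if n + 1 ≤ n + 1 then m % 2 ^ 2 ^ (n + 1)
      else sp w (n + 1) n (m % 2 ^ 2 ^ n) + T w n * sp w (n + 1) n (m / 2 ^ 2 ^ n)) = _
    rw [if_pos le_rfl]

lemma sp_gt (w r n m : ℕ) (h : r ≤ n) :
    sp w r (n + 1) m = sp w r n (m % 2 ^ 2 ^ n) + T w n * sp w r n (m / 2 ^ 2 ^ n) := by
  show (if n + 1 ≤ r then m % 2 ^ 2 ^ (n + 1)
      else sp w r n (m % 2 ^ 2 ^ n) + T w n * sp w r n (m / 2 ^ 2 ^ n)) = _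
  rw [if_neg (by omega)]

lemma two_pow_le_T (w n : ℕ) (hw : 1 ≤ w) : 2 ^ 2 ^ n ≤ T w n := by
  rw [T_eq]
  apply Nat.pow_le_pow_right (by norm_num)
  calc 2 ^ n = 1 * 2 ^ n := (one_mul _).symm
    _ ≤ w * 2 ^ n := Nat.mul_le_mul_right _ hw

lemma sp_lt (w r : ℕ) (hw : 1 ≤ w) : ∀ (n m : ℕ), sp w r n m < T w n
  | 0, m => by
    have h1 : m % 2 < 2 := Nat.mod_lt _ (by norm_num)
    have h2 := two_pow_le_T w 0 hw
    have h3 : (2 : ℕ) ^ 2 ^ 0 = 2 := by norm_num
    show m % 2 < T w 0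
    omega
  | n + 1, m => by
    by_cases hn : n + 1 ≤ r
    · show (if n + 1 ≤ r then m % 2 ^ 2 ^ (n + 1)
        else sp w r n (m % 2 ^ 2 ^ n) + T w n * sp w r n (m / 2 ^ 2 ^ n)) < _
      rw [if_pos hn]
      exact lt_of_lt_of_le (Nat.mod_lt _ (Nat.pos_of_ne_zero (by positivity)))
        (two_pow_le_T w (n + 1) hw)
    · rw [sp_gt w r n m (by omega), T_succ]
      exact concat_lt _ _ _ (sp_lt w r hw n _) (sp_lt w r hw n _)

lemma smsk_eq (w r : ℕ) : smsk w r (r + 1) = 2 ^ 2 ^ r - 1 := by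
  show (if r = r then 2 ^ 2 ^ r - 1 else smsk w r r + smsk w r r <<< (w * 2 ^ r)) = _
  rw [if_pos rfl]

lemma smsk_ne (w r n : ℕ) (h : n ≠ r) : smsk w r (n + 1) = smsk w r n + T w n * smsk w r n := by
  show (if n = r then 2 ^ 2 ^ r - 1 else smsk w r n + smsk w r n <<< (w * 2 ^ n)) = _
  rw [if_neg h, shl_T]

lemma smsk_lt (w r : ℕ) (hw : 1 ≤ w) : ∀ n : ℕ, r < n → smsk w r n < T w n
  | 0, h => by omega
  | n + 1, h => by
    rw [T_succ]
    by_cases hn : n = r
    · subst hn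
      rw [smsk_eq]
      have h1 := two_pow_le_T w n hw
      have hp : 0 < 2 ^ 2 ^ n := Nat.pos_of_ne_zero (by positivity)
      have : T w n ≤ T w n * T w n := Nat.le_mul_self _
      omega
    · rw [smsk_ne w r n hn]
      have ih := smsk_lt w r hw n (by omega)
      exact concat_lt _ _ _ ih ih

lemma spr_unfold (w r n Y : ℕ) :
    spr w r n Y = (Y &&& smsk w r n) + (Y - (Y &&& smsk w r n)) * 2 ^ ((w - 1) * 2 ^ r) := by
  show (Y &&& smsk w r n) + ((Y - (Y &&& smsk w r n)) <<< ((w - 1) * 2 ^ r)) = _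
  rw [Nat.shiftLeft_eq]

lemma spr_step (w r : ℕ) (hw : 1 ≤ w) : ∀ (n m : ℕ), r < n →
    spr w r n (sp w (r + 1) n m) = sp w r n m
  | 0, _, h => by omega
  | n + 1, m, h => by
    by_cases hn : n = r
    · subst hn
      have hQ : (2 : ℕ) ^ 2 ^ (n + 1) = 2 ^ 2 ^ n * 2 ^ 2 ^ n := by
        rw [pow_succ, pow_mul, sq]
      have hQpos : 0 < 2 ^ 2 ^ n := Nat.pos_of_ne_zero (by positivity)
      rw [spr_unfold, sp_self, smsk_eq, sp_gt w n n m le_rfl, sp_self, sp_self,
        Nat.and_two_pow_sub_one_eq_mod, hQ, Nat.mod_mul_right_mod, Nat.mod_mod]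
      have hd := Nat.mod_add_div (m % (2 ^ 2 ^ n * 2 ^ 2 ^ n)) (2 ^ 2 ^ n)
      rw [Nat.mod_mul_right_mod, Nat.mod_mul_right_div_self] at hd
      have hsub : m % (2 ^ 2 ^ n * 2 ^ 2 ^ n) - m % 2 ^ 2 ^ n =
          2 ^ 2 ^ n * (m / 2 ^ 2 ^ n % 2 ^ 2 ^ n) := by omega
      have hexp : 2 ^ n + (w - 1) * 2 ^ n = w * 2 ^ n := by
        obtain ⟨w', rfl⟩ : ∃ w', w = w' + 1 := ⟨w - 1, by omega⟩
        simp only [Nat.add_sub_cancel]
        ring
      have hT : (2 : ℕ) ^ 2 ^ n * 2 ^ ((w - 1) * 2 ^ n) = T w n := by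
        rw [T_eq, ← pow_add, hexp]
      rw [hsub, ← hT]
      ring
    · have hr : r < n := by omega
      have hy1 : sp w (r + 1) n (m % 2 ^ 2 ^ n) < T w n := sp_lt w (r + 1) hw n _
      have hs := smsk_lt w r hw n hr
      have i1 := spr_step w r hw n (m % 2 ^ 2 ^ n) hr
      have i2 := spr_step w r hw n (m / 2 ^ 2 ^ n) hr
      rw [spr_unfold] at i1 i2
      rw [spr_unfold, sp_gt w (r + 1) n m (by omega), smsk_ne w r n hn, sp_gt w r n m (by omega),
        land_concat_T w n _ _ _ _ hy1 hs, ← i1, ← i2]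
      have a1 : sp w (r + 1) n (m % 2 ^ 2 ^ n) &&& smsk w r n ≤ sp w (r + 1) n (m % 2 ^ 2 ^ n) :=
        Nat.and_le_left
      have a2 : sp w (r + 1) n (m / 2 ^ 2 ^ n) &&& smsk w r n ≤ sp w (r + 1) n (m / 2 ^ 2 ^ n) :=
        Nat.and_le_left
      generalize sp w (r + 1) n (m % 2 ^ 2 ^ n) &&& smsk w r n = A1 at a1 ⊢
      generalize sp w (r + 1) n (m / 2 ^ 2 ^ n) &&& smsk w r n = A2 at a2 ⊢
      generalize sp w (r + 1) n (m % 2 ^ 2 ^ n) = y1 at a1 ⊢
      generalize sp w (r + 1) n (m / 2 ^ 2 ^ n) = y2 at a2 ⊢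
      generalize T w n = Tn
      generalize 2 ^ ((w - 1) * 2 ^ r) = c
      have e1 : y1 - A1 + A1 = y1 := Nat.sub_add_cancel a1
      have e2 : y2 - A2 + A2 = y2 := Nat.sub_add_cancel a2
      have hsub : y1 + Tn * y2 - (A1 + Tn * A2) = (y1 - A1) + Tn * (y2 - A2) := by
        apply Nat.sub_eq_of_eq_add
        calc y1 + Tn * y2 = (y1 - A1 + A1) + Tn * (y2 - A2 + A2) := by rw [e1, e2]
          _ = _ := by ring
      rw [hsub]
      ring

lemma sprs_eq (w n m : ℕ) (hw : 1 ≤ w) : ∀ j : ℕ, j ≤ n →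
    sprs w n j (m % 2 ^ 2 ^ n) = sp w (n - j) n m
  | 0, _ => by
    show m % 2 ^ 2 ^ n = sp w (n - 0) n m
    rw [Nat.sub_zero, sp_self]
  | j + 1, h => by
    show spr w (n - (j + 1)) n (sprs w n j (m % 2 ^ 2 ^ n)) = _
    rw [sprs_eq w n m hw j (by omega)]
    have e : n - j = (n - (j + 1)) + 1 := by omega
    rw [e]
    exact spr_step w (n - (j + 1)) hw n m (by omega)

lemma bw_zero (w : ℕ) : ∀ (n m : ℕ), bw w 0 n m = 2 * sp w 0 n m
  | 0, _ => rfl
  | n + 1, m => by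
    rw [bw_gt w 0 n m (Nat.zero_le _), sp_gt w 0 n m (Nat.zero_le _), bw_zero w n, bw_zero w n]
    ring

/-- **the bit-parallel transform is the packed transform** -/
theorem whtW_eq (n m : ℕ) : whtW n m = whtP (2 ^ (n + 2)) n m := by
  show levs (n + 2) n n (2 * sprs (n + 2) n n (m % 2 ^ 2 ^ n)) = _
  rw [sprs_eq (n + 2) n m (by omega) n le_rfl, Nat.sub_self, ← bw_zero,
    levs_eq (n + 2) n m (by omega) n le_rfl, bw_self]

/-! ### the degree test through a mask -/

/-- mask of the fields above level `d` -/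
def hm (w : ℕ) : ℕ → ℕ → ℕ
  | 0, _ => 0
  | n + 1, d => hm w n d +
      (match d with | 0 => T w n - 1 | d' + 1 => hm w n d') <<< (w * 2 ^ n)

/-- the offset pattern on the fields above level `d` -/
def ht (w o : ℕ) : ℕ → ℕ → ℕ
  | 0, _ => 0
  | n + 1, d => ht w o n d +
      (match d with | 0 => o * rep (2 ^ w) n | d' + 1 => ht w o n d') <<< (w * 2 ^ n)

lemma hm_zero (w n : ℕ) : hm w (n + 1) 0 = hm w n 0 + T w n * (T w n - 1) := by
  show hm w n 0 + (T w n - 1) <<< (w * 2 ^ n) = _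
  rw [shl_T]

lemma hm_succ (w n d : ℕ) : hm w (n + 1) (d + 1) = hm w n (d + 1) + T w n * hm w n d := by
  show hm w n (d + 1) + (hm w n d) <<< (w * 2 ^ n) = _
  rw [shl_T]

lemma ht_zero (w o n : ℕ) : ht w o (n + 1) 0 = ht w o n 0 + T w n * (o * rep (2 ^ w) n) := by
  show ht w o n 0 + (o * rep (2 ^ w) n) <<< (w * 2 ^ n) = _
  rw [shl_T]

lemma ht_succ (w o n d : ℕ) :
    ht w o (n + 1) (d + 1) = ht w o n (d + 1) + T w n * ht w o n d := by
  show ht w o n (d + 1) + (ht w o n d) <<< (w * 2 ^ n) = _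
  rw [shl_T]

lemma hm_lt (w : ℕ) : ∀ (n d : ℕ), hm w n d < T w n
  | 0, _ => T_pos w 0
  | n + 1, 0 => by
    rw [hm_zero, T_succ]
    exact concat_lt _ _ _ (hm_lt w n 0) (Nat.sub_lt (T_pos w n) one_pos)
  | n + 1, d + 1 => by
    rw [hm_succ, T_succ]
    exact concat_lt _ _ _ (hm_lt w n (d + 1)) (hm_lt w n d)

lemma rep_lt (w o n : ℕ) (hw : 1 ≤ w) (ho : o < 2 ^ w) : o * rep (2 ^ w) n < T w n := by
  have hB2 := two_le_pow w hw
  have hdvd : 2 ^ w - 1 ∣ (2 ^ w) ^ 2 ^ n - 1 := Nat.sub_one_dvd_pow_sub_one (x := 2 ^ w) (n := 2 ^ n)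
  have hmul : rep (2 ^ w) n * (2 ^ w - 1) = (2 ^ w) ^ 2 ^ n - 1 := by
    unfold rep
    exact Nat.div_mul_cancel hdvd
  have h1 : o * rep (2 ^ w) n ≤ (2 ^ w - 1) * rep (2 ^ w) n :=
    Nat.mul_le_mul_right _ (by omega)
  have hp : 0 < (2 ^ w) ^ 2 ^ n := Nat.pos_of_ne_zero (by positivity)
  show o * rep (2 ^ w) n < (2 ^ w) ^ 2 ^ n
  rw [Nat.mul_comm (2 ^ w - 1)] at h1
  omega

lemma ht_lt (w o : ℕ) (hw : 1 ≤ w) (ho : o < 2 ^ w) : ∀ (n d : ℕ), ht w o n d < T w n
  | 0, _ => T_pos w 0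
  | n + 1, 0 => by
    rw [ht_zero, T_succ]
    exact concat_lt _ _ _ (ht_lt w o hw ho n 0) (rep_lt w o n hw ho)
  | n + 1, d + 1 => by
    rw [ht_succ, T_succ]
    exact concat_lt _ _ _ (ht_lt w o hw ho n (d + 1)) (ht_lt w o hw ho n d)

/-- the mask test implies the recursive degree test -/
lemma chkW_sound (w o : ℕ) (hw : 1 ≤ w) (ho : o < 2 ^ w) : ∀ (n d V : ℕ), V < T w n →
    V &&& hm w n d = ht w o n d → chkP (2 ^ w) o n d V = true
  | 0, _, _, _, _ => rfl
  | n + 1, d, V, hV, h => by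
    have h1 : V % T w n < T w n := Nat.mod_lt _ (T_pos w n)
    have h2 : V / T w n < T w n := by
      rw [T_succ] at hV
      exact Nat.div_lt_of_lt_mul hV
    have hVe := Nat.mod_add_div V (T w n)
    cases d with
    | zero =>
      rw [hm_zero, ht_zero, ← hVe,
        land_concat_T w n _ _ _ _ h1 (hm_lt w n 0)] at h
      obtain ⟨e1, e2⟩ := concat_inj (T w n) _ _ _ _
        (lt_of_le_of_lt Nat.and_le_left h1) (ht_lt w o hw ho n 0) h
      rw [land_T_sub_one, Nat.mod_eq_of_lt h2] at e2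
      show (chkP (2 ^ w) o n 0 (V % (2 ^ w) ^ 2 ^ n) &&
        decide (V / (2 ^ w) ^ 2 ^ n = o * rep (2 ^ w) n)) = true
      have c1 := chkW_sound w o hw ho n 0 (V % T w n) h1 e1
      have c1' : chkP (2 ^ w) o n 0 (V % (2 ^ w) ^ 2 ^ n) = true := c1
      have e2' : V / (2 ^ w) ^ 2 ^ n = o * rep (2 ^ w) n := e2
      rw [c1', decide_eq_true e2']
      rfl
    | succ d' =>
      rw [hm_succ, ht_succ, ← hVe,
        land_concat_T w n _ _ _ _ h1 (hm_lt w n (d' + 1))] at h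
      obtain ⟨e1, e2⟩ := concat_inj (T w n) _ _ _ _
        (lt_of_le_of_lt Nat.and_le_left h1) (ht_lt w o hw ho n (d' + 1)) h
      show (chkP (2 ^ w) o n (d' + 1) (V % (2 ^ w) ^ 2 ^ n) &&
        chkP (2 ^ w) o n d' (V / (2 ^ w) ^ 2 ^ n)) = true
      have c1 := chkW_sound w o hw ho n (d' + 1) (V % T w n) h1 e1
      have c2 := chkW_sound w o hw ho n d' (V / T w n) h2 e2
      have c1' : chkP (2 ^ w) o n (d' + 1) (V % (2 ^ w) ^ 2 ^ n) = true := c1
      have c2' : chkP (2 ^ w) o n d' (V / (2 ^ w) ^ 2 ^ n) = true := c2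
      rw [c1', c2']
      rfl

/-! ### the certificate -/

/-- the bit-parallel certificate for a truth table on `n` variables -/
def certifyW (n d m : ℕ) : Bool :=
  (fun V => (V &&& hm (n + 2) n d == ht (n + 2) (2 ^ n) n d) &&
    (decide (c0P (2 ^ (n + 2)) (2 ^ n) n V = 0) &&
      decide ((d : ℤ) * 4 ^ n < lvl1P (2 ^ (n + 2)) (2 ^ n) n V ^ 2))) (whtW n m)

lemma certifyW_sound (n d m : ℕ) (h : certifyW n d m = true) : certifyP n d m = true := by
  have h' : ((whtW n m &&& hm (n + 2) n d == ht (n + 2) (2 ^ n) n d) &&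
      (decide (c0P (2 ^ (n + 2)) (2 ^ n) n (whtW n m) = 0) &&
        decide ((d : ℤ) * 4 ^ n < lvl1P (2 ^ (n + 2)) (2 ^ n) n (whtW n m) ^ 2))) = true := h
  rw [whtW_eq, Bool.and_eq_true] at h'
  obtain ⟨h1, h2⟩ := h'
  have h1' : whtP (2 ^ (n + 2)) n m &&& hm (n + 2) n d = ht (n + 2) (2 ^ n) n d := by
    simpa using h1
  have hlt : whtP (2 ^ (n + 2)) n m < T (n + 2) n :=
    whtP_lt (2 ^ (n + 2)) (two_le_pow _ (by omega)) n m
      (Nat.pow_lt_pow_right (by norm_num) (by omega))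
  have ho : 2 ^ n < 2 ^ (n + 2) := Nat.pow_lt_pow_right (by norm_num) (by omega)
  have hc := chkW_sound (n + 2) (2 ^ n) (by omega) ho n d _ hlt h1'
  show (chkP (2 ^ (n + 2)) (2 ^ n) n d (whtP (2 ^ (n + 2)) n m) &&
      (decide (c0P (2 ^ (n + 2)) (2 ^ n) n (whtP (2 ^ (n + 2)) n m) = 0) &&
        decide ((d : ℤ) * 4 ^ n < lvl1P (2 ^ (n + 2)) (2 ^ n) n (whtP (2 ^ (n + 2)) n m) ^ 2))) = true
  rw [hc, h2]
  rfl

/-- **A certified truth table on `n` variables proves S0085** (bit-parallel certificate). -/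
theorem statement_of_certifyW (n d m : ℕ) (h : certifyW n d m = true) (C : ℝ) :
    ∃ n : ℕ, ∃ f : (Fin n → Bool) → Bool, ∃ d : ℕ,
      (∃ x y, f x ≠ f y) ∧
      (∀ S : Finset (Fin n), d < S.card →
        ∑ x : Fin n → Bool, ((if f x then (1 : ℝ) else -1) * ∏ i ∈ S, (if x i then (1 : ℝ) else -1)) = 0) ∧
      C * Real.sqrt d <
        ∑ i : Fin n, (∑ x : Fin n → Bool, ((if f x then (1 : ℝ) else -1) * (if x i then (1 : ℝ) else -1))) / 2 ^ n :=
  statement_of_certifyP n d m (certifyW_sound n d m h) C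

end Crest.Agent.GS.BP
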