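import Crest.Agent.GS.Table

/-!
# Weighted-degree ("val") and variance ("VAR") witnesses for S0085

`Compose.lean` proves that ONE balanced gadget `g` with `W g ^ 2 > deg g` gives S0085, through
the homogeneous composition `comp f g`.  This file proves the two weaker sufficient conditions
of the row-63 notes (helper86, helper84):

* `statement_of_val`: a balanced Boolean `f` with non-negative singleton coefficients and real
  weights `0 < d i < 1` such that `∑ i ∈ S, d i ≤ 1` on the support of the Fourier transform and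
  `∑ i, fhat(i) * sqrt (d i) > 1`.
* kernel certificates `certifyV` / `certifyVP` for it from a truth table and integer weights
  (`statement_of_certifyV (N - 3) M ps q bs R (by decide +kernel) C`; list entry `i` belongs to
  coordinate `i`, which is bit `N - 1 - i` of the index of the truth table).
* `statement_of_var`: ANY Boolean `f` (balanced or not) of degree at most `D ≥ 1`, with
  non-negative mean and singleton coefficients and `W f ^ 2 > D * (1 - mean ^ 2)`; kernel
  certificates `certifyVar` / `certifyVarR`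
  (`statement_of_certifyVar (N - 3) d M (by decide +kernel) C`).

The proof uses the heterogeneous composition `hcomp f g` (input `i` of `f` replaced by its own
inner function `g i`) and a tower indexed by a REAL degree budget `D`: block `i` receives the
budget `d i * D`, and a dictator is used as soon as `lam * D < 1` (`lam` = the least weight).
By induction `W ≥ sqrt lam * v ^ k * sqrt D` whenever `D ≥ lam⁻¹ ^ k`.

Helper module only; nothing here is a statement file.
-/

set_option autoImplicit false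
set_option linter.unusedSectionVars false

namespace Crest.Agent.GS

open Finset

section hcomp

variable {ι κ : Type*} [Fintype ι] [DecidableEq ι] [Fintype κ] [DecidableEq κ]

/-- heterogeneous composition on disjoint blocks: input `i` of `f` is replaced by `g i` -/
def hcomp (f : (ι → Bool) → Bool) (g : ι → (κ → Bool) → Bool) : (ι × κ → Bool) → Bool :=
  fun x => f (fun i => g i (fun k => x (i, k)))

/-- The composition formula (unnormalised), heterogeneous version. -/
theorem four_hcomp (f : (ι → Bool) → Bool) (g : ι → (κ → Bool) → Bool) (U : Finset (ι × κ)) :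
    four (hcomp f g) U * 2 ^ Fintype.card ι =
      ∑ S : Finset ι, four f S *
        ∏ i : ι, (if i ∈ S then four (g i) (fib U i)
          else (if fib U i = ∅ then (2 : ℝ) ^ Fintype.card κ else 0)) := by
  have hblock : ∀ (S : Finset ι) (i : ι),
      ∑ z : κ → Bool, (if i ∈ S then sg (g i z) else 1) * chi (fib U i) z =
        (if i ∈ S then four (g i) (fib U i)
          else (if fib U i = ∅ then (2 : ℝ) ^ Fintype.card κ else 0)) := by
    intro S i
    by_cases hi : i ∈ S
    · simp only [hi, if_true]; rfl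
    · simp only [hi, if_false, one_mul]
      exact sum_chi _
  have hS : ∀ S : Finset ι,
      ∑ x : ι × κ → Bool, chi S (fun i => g i (fun k => x (i, k))) * chi U x =
        ∏ i : ι, (if i ∈ S then four (g i) (fib U i)
          else (if fib U i = ∅ then (2 : ℝ) ^ Fintype.card κ else 0)) := by
    intro S
    have h1 : ∀ x : ι × κ → Bool,
        chi S (fun i => g i (fun k => x (i, k))) * chi U x =
          ∏ i : ι, ((if i ∈ S then sg (g i (fun k => x (i, k))) else 1) *
            chi (fib U i) (fun k => x (i, k))) := by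
      intro x
      rw [Finset.prod_mul_distrib, ← chi_prod, chi_eq_prod_univ]
    simp only [h1]
    rw [← Equiv.sum_comp (Equiv.curry ι κ Bool).symm]
    simp only [Equiv.curry_symm_apply, Function.uncurry_apply_pair]
    rw [← Finset.prod_congr rfl (fun i _ => hblock S i)]
    rw [Fintype.prod_sum]
  unfold four
  rw [Finset.sum_mul]
  have h2 : ∀ x : ι × κ → Bool,
      sg (hcomp f g x) * chi U x * 2 ^ Fintype.card ι =
        ∑ S : Finset ι, four f S * (chi S (fun i => g i (fun k => x (i, k))) * chi U x) := by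
    intro x
    have := inversion f (fun i => g i (fun k => x (i, k)))
    calc sg (hcomp f g x) * chi U x * 2 ^ Fintype.card ι
        = (sg (f (fun i => g i (fun k => x (i, k)))) * 2 ^ Fintype.card ι) * chi U x := by
          unfold hcomp; ring
      _ = _ := by
          rw [this, Finset.sum_mul]
          refine Finset.sum_congr rfl fun S _ => ?_
          ring
  simp only [h2]
  rw [Finset.sum_comm]
  refine Finset.sum_congr rfl fun S _ => ?_
  rw [← Finset.mul_sum]
  congr 1
  exact hS S

/-- Weighted degree bound: if `g i` has degree at most `e i` and `∑ i ∈ S, e i ≤ D` on the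
support of `f`, then the composition has degree at most `D`. -/
theorem degLE_hcomp {f : (ι → Bool) → Bool} {g : ι → (κ → Bool) → Bool} {e : ι → ℕ} {D : ℕ}
    (hg : ∀ i, DegLE (g i) (e i))
    (hf : ∀ S : Finset ι, four f S ≠ 0 → ∑ i ∈ S, e i ≤ D) : DegLE (hcomp f g) D := by
  intro U hU
  have h2 : (2 : ℝ) ^ Fintype.card ι ≠ 0 := by positivity
  have key := four_hcomp f g U
  have hz : ∑ S : Finset ι, four f S *
        ∏ i : ι, (if i ∈ S then four (g i) (fib U i)
          else (if fib U i = ∅ then (2 : ℝ) ^ Fintype.card κ else 0)) = 0 := by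
    refine Finset.sum_eq_zero fun S _ => ?_
    by_cases hS : four f S = 0
    · rw [hS, zero_mul]
    · have hS' := hf S hS
      have hex : ∃ i : ι, (i ∈ S ∧ e i < (fib U i).card) ∨ (i ∉ S ∧ fib U i ≠ ∅) := by
        by_contra hcon
        have hall : ∀ i : ι, (fib U i).card ≤ if i ∈ S then e i else 0 := by
          intro i
          by_cases hi : i ∈ S
          · simp only [hi, if_true]
            by_contra h
            exact hcon ⟨i, Or.inl ⟨hi, not_le.mp h⟩⟩
          · simp only [hi, if_false]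
            by_contra h
            refine hcon ⟨i, Or.inr ⟨hi, fun h0 => h ?_⟩⟩
            simp [h0]
        have hcard : U.card ≤ D := by
          rw [card_eq_sum_fib]
          calc ∑ i : ι, (fib U i).card ≤ ∑ i : ι, (if i ∈ S then e i else 0) :=
                Finset.sum_le_sum fun i _ => hall i
            _ = ∑ i ∈ S, e i := by
                rw [Finset.sum_ite_mem, Finset.univ_inter]
            _ ≤ D := hS'
        omega
      obtain ⟨i, hi⟩ := hex
      have : ∏ i : ι, (if i ∈ S then four (g i) (fib U i)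
          else (if fib U i = ∅ then (2 : ℝ) ^ Fintype.card κ else 0)) = 0 := by
        apply Finset.prod_eq_zero (Finset.mem_univ i)
        rcases hi with ⟨hiS, hie⟩ | ⟨hiS, hie⟩
        · simp only [hiS, if_true]
          exact hg i _ hie
        · simp only [hiS, if_false, hie]
      rw [this, mul_zero]
  rw [hz] at key
  exact (mul_eq_zero.mp key).resolve_right h2

/-- A composition of a balanced function with balanced inner functions is balanced. -/
theorem four_hcomp_empty {f : (ι → Bool) → Bool} {g : ι → (κ → Bool) → Bool}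
    (hbal : ∀ i, four (g i) ∅ = 0) (hf : four f ∅ = 0) : four (hcomp f g) ∅ = 0 := by
  have key := four_hcomp f g ∅
  have hfib : ∀ i : ι, fib (∅ : Finset (ι × κ)) i = ∅ := by
    intro i; ext k; simp [mem_fib]
  have hz : ∑ S : Finset ι, four f S *
        ∏ i : ι, (if i ∈ S then four (g i) (fib (∅ : Finset (ι × κ)) i)
          else (if fib (∅ : Finset (ι × κ)) i = ∅ then (2 : ℝ) ^ Fintype.card κ else 0)) = 0 := by
    refine Finset.sum_eq_zero fun S _ => ?_
    by_cases hS : S = ∅
    · subst hS; rw [hf, zero_mul]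
    · obtain ⟨i, hi⟩ := Finset.nonempty_iff_ne_empty.mpr hS
      have : ∏ i : ι, (if i ∈ S then four (g i) (fib (∅ : Finset (ι × κ)) i)
          else (if fib (∅ : Finset (ι × κ)) i = ∅ then (2 : ℝ) ^ Fintype.card κ else 0)) = 0 := by
        apply Finset.prod_eq_zero (Finset.mem_univ i)
        simp only [hi, if_true, hfib]
        exact hbal i
      rw [this, mul_zero]
  rw [hz] at key
  exact (mul_eq_zero.mp key).resolve_right (by positivity)

/-- The singleton coefficients of a composition with balanced inner functions. -/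
theorem four_hcomp_singleton {f : (ι → Bool) → Bool} {g : ι → (κ → Bool) → Bool}
    (hbal : ∀ i, four (g i) ∅ = 0) (i₀ : ι) (k₀ : κ) :
    four (hcomp f g) {(i₀, k₀)} * 2 ^ Fintype.card ι =
      four f {i₀} * (four (g i₀) {k₀} * ((2 : ℝ) ^ Fintype.card κ) ^ (Fintype.card ι - 1)) := by
  rw [four_hcomp]
  have hfib : ∀ i : ι, fib ({(i₀, k₀)} : Finset (ι × κ)) i = if i = i₀ then {k₀} else ∅ := by
    intro i
    ext k
    by_cases hi : i = i₀
    · subst hi; simp [mem_fib]
    · simp [mem_fib, hi]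
  rw [Finset.sum_eq_single {i₀}]
  · congr 1
    have : ∀ i : ι, (if i ∈ ({i₀} : Finset ι) then four (g i) (fib ({(i₀, k₀)} : Finset (ι × κ)) i)
          else (if fib ({(i₀, k₀)} : Finset (ι × κ)) i = ∅ then (2 : ℝ) ^ Fintype.card κ else 0)) =
        if i = i₀ then four (g i₀) {k₀} else (2 : ℝ) ^ Fintype.card κ := by
      intro i
      by_cases hi : i = i₀
      · subst hi; simp [hfib]
      · simp [hfib, hi]
    simp only [this]
    rw [Finset.prod_ite, Finset.prod_const, Finset.prod_const]
    have h1 : (Finset.univ.filter (fun i : ι => i = i₀)) = {i₀} := by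
      ext i; simp
    have h2 : (Finset.univ.filter (fun i : ι => ¬ i = i₀)).card = Fintype.card ι - 1 := by
      have : (Finset.univ.filter (fun i : ι => ¬ i = i₀)) = Finset.univ.erase i₀ := by
        ext i; simp
      rw [this, Finset.card_erase_of_mem (Finset.mem_univ _), Finset.card_univ]
    rw [h1, h2, Finset.card_singleton, pow_one]
  · intro S _ hS
    by_cases hi₀ : i₀ ∈ S
    · obtain ⟨i, hiS, hne⟩ : ∃ i ∈ S, i ≠ i₀ := by
        by_contra hcon
        apply hS
        ext j
        simp only [Finset.mem_singleton]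
        constructor
        · intro hj
          by_contra hji
          exact hcon ⟨j, hj, hji⟩
        · rintro rfl; exact hi₀
      have : ∏ i : ι, (if i ∈ S then four (g i) (fib ({(i₀, k₀)} : Finset (ι × κ)) i)
          else (if fib ({(i₀, k₀)} : Finset (ι × κ)) i = ∅ then (2 : ℝ) ^ Fintype.card κ
            else 0)) = 0 := by
        apply Finset.prod_eq_zero (Finset.mem_univ i)
        simp only [hiS, if_true, hfib, hne, if_false]
        exact hbal i
      rw [this, mul_zero]
    · have : ∏ i : ι, (if i ∈ S then four (g i) (fib ({(i₀, k₀)} : Finset (ι × κ)) i)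
          else (if fib ({(i₀, k₀)} : Finset (ι × κ)) i = ∅ then (2 : ℝ) ^ Fintype.card κ
            else 0)) = 0 := by
        apply Finset.prod_eq_zero (Finset.mem_univ i₀)
        simp [hi₀, hfib]
      rw [this, mul_zero]
  · intro h; exact absurd (Finset.mem_univ _) h

/-- `W` of a composition with balanced inner functions. -/
theorem W_hcomp {f : (ι → Bool) → Bool} {g : ι → (κ → Bool) → Bool}
    (hbal : ∀ i, four (g i) ∅ = 0) :
    W (hcomp f g) = ∑ i : ι, four f {i} / 2 ^ Fintype.card ι * W (g i) := by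
  unfold W
  rw [Fintype.sum_prod_type]
  refine Finset.sum_congr rfl fun i _ => ?_
  rw [Finset.mul_sum]
  refine Finset.sum_congr rfl fun k _ => ?_
  have key := four_hcomp_singleton (f := f) hbal i k
  have hι : 1 ≤ Fintype.card ι := Fintype.card_pos_iff.mpr ⟨i⟩
  have hpow : (2 : ℝ) ^ Fintype.card (ι × κ) =
      ((2 : ℝ) ^ Fintype.card κ) ^ (Fintype.card ι - 1) * 2 ^ Fintype.card κ := by
    rw [Fintype.card_prod, ← pow_mul, ← pow_add]
    congr 1
    have : Fintype.card ι = (Fintype.card ι - 1) + 1 := by omega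
    calc Fintype.card ι * Fintype.card κ
        = ((Fintype.card ι - 1) + 1) * Fintype.card κ := by rw [← this]
      _ = Fintype.card κ * (Fintype.card ι - 1) + Fintype.card κ := by ring
  have h2ι : (2 : ℝ) ^ Fintype.card ι ≠ 0 := by positivity
  have h2κ : (2 : ℝ) ^ Fintype.card κ ≠ 0 := by positivity
  have h2p : ((2 : ℝ) ^ Fintype.card κ) ^ (Fintype.card ι - 1) ≠ 0 := by positivity
  have hfc : four (hcomp f g) {(i, k)} =
      four f {i} * (four (g i) {k} * ((2 : ℝ) ^ Fintype.card κ) ^ (Fintype.card ι - 1)) /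
        2 ^ Fintype.card ι := by
    rw [← key]; field_simp
  rw [hfc, hpow]
  field_simp

end hcomp

section dict

variable {κ : Type*} [Fintype κ] [DecidableEq κ]

/-- the dictator of the coordinate `p` -/
def dict (p : κ) : (κ → Bool) → Bool := fun x => x p

lemma four_dict (p : κ) (S : Finset κ) :
    four (dict p) S = if S = {p} then (2 : ℝ) ^ Fintype.card κ else 0 := by
  unfold four dict
  by_cases hp : p ∈ S
  · have h1 : ∀ x : κ → Bool, sg (x p) * chi S x = chi (S.erase p) x := by
      intro x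
      unfold chi
      rw [← Finset.mul_prod_erase S _ hp, ← mul_assoc, sg_mul_self, one_mul]
    simp only [h1]
    rw [sum_chi]
    have h2 : (S.erase p = ∅) ↔ S = {p} := by
      rw [Finset.erase_eq_empty_iff]
      constructor
      · rintro (h | h)
        · subst h; simp at hp
        · exact h
      · intro h; exact Or.inr h
    simp only [h2]
  · have h1 : ∀ x : κ → Bool, sg (x p) * chi S x = chi (insert p S) x := by
      intro x
      unfold chi
      rw [Finset.prod_insert hp]
    simp only [h1]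
    rw [sum_chi]
    have h2 : insert p S ≠ ∅ := Finset.insert_ne_empty p S
    have h3 : S ≠ {p} := by
      rintro rfl; simp at hp
    simp [h2, h3]

lemma four_dict_empty (p : κ) : four (dict p) ∅ = 0 := by
  rw [four_dict]
  have : (∅ : Finset κ) ≠ {p} := (Finset.singleton_ne_empty p).symm
  simp [this]

lemma degLE_dict (p : κ) {D : ℕ} (hD : 1 ≤ D) : DegLE (dict p) D := by
  intro S hS
  rw [four_dict]
  have : S ≠ {p} := by
    rintro rfl
    simp at hS
    omega
  simp [this]

lemma W_dict (p : κ) : W (dict p) = 1 := by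
  unfold W
  rw [Finset.sum_eq_single p]
  · rw [four_dict]
    simp
  · intro i _ hi
    rw [four_dict]
    have : ({i} : Finset κ) ≠ {p} := by
      intro h; exact hi (Finset.singleton_injective h)
    simp [this]
  · intro h; exact absurd (Finset.mem_univ _) h

end dict

section tower

/-- a Boolean function of degree at most `d` with `W = w > C * sqrt d`, `w > 0`, gives the
conclusion of S0085 for this `C`. -/
theorem statement_of_good {d : ℕ} {w : ℝ} (h : Good d w) (C : ℝ) (hw : 0 < w)
    (hC : C * Real.sqrt d < w) :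
    ∃ n : ℕ, ∃ f : (Fin n → Bool) → Bool, ∃ d : ℕ,
      (∃ x y, f x ≠ f y) ∧
      (∀ S : Finset (Fin n), d < S.card →
        ∑ x : Fin n → Bool, ((if f x then (1 : ℝ) else -1) * ∏ i ∈ S, (if x i then (1 : ℝ) else -1)) = 0) ∧
      C * Real.sqrt d <
        ∑ i : Fin n, (∑ x : Fin n → Bool, ((if f x then (1 : ℝ) else -1) * (if x i then (1 : ℝ) else -1))) / 2 ^ n := by
  obtain ⟨n, f, hf, hWf⟩ := good_fin h
  refine ⟨n, f, d, ?_, ?_, ?_⟩
  · by_contra hcon
    have hc : ∀ x y, f x = f y := by
      intro x y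
      by_contra hxy
      exact hcon ⟨x, y, hxy⟩
    have := W_eq_zero_of_const hc
    linarith
  · intro S hS
    exact hf S hS
  · have hsum : ∑ i : Fin n, (∑ x : Fin n → Bool,
        ((if f x then (1 : ℝ) else -1) * (if x i then (1 : ℝ) else -1))) / 2 ^ n = W f := by
      unfold W
      refine Finset.sum_congr rfl fun i _ => ?_
      rw [Fintype.card_fin]
      congr 1
      unfold four chi
      refine Finset.sum_congr rfl fun x _ => ?_
      rw [Finset.prod_singleton]
      rfl
    rw [hsum, hWf]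
    exact hC

/-- **The budget tower.**  For every depth `m` there is one index type carrying, for every real
degree budget `D < Lam⁻¹ ^ m`, a balanced function of degree at most `D` with
`W ≥ sqrt lam * v ^ k * sqrt D` as soon as `D ≥ lam⁻¹ ^ k`. -/
theorem val_tower {ι : Type} [Fintype ι] [DecidableEq ι] [Nonempty ι]
    (f : (ι → Bool) → Bool) (hbal : four f ∅ = 0) (hnn : ∀ i, 0 ≤ four f {i})
    (d s : ι → ℝ) (lam Lam : ℝ) (hlam : 0 < lam) (hLam : Lam < 1)
    (hd1 : ∀ i, lam ≤ d i) (hd2 : ∀ i, d i ≤ Lam)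
    (hs : ∀ i, s i ^ 2 ≤ d i)
    (hsupp : ∀ S : Finset ι, four f S ≠ 0 → ∑ i ∈ S, d i ≤ 1)
    (v : ℝ) (hv : v = ∑ i, four f {i} / 2 ^ Fintype.card ι * s i) (hv1 : 1 ≤ v) (m : ℕ) :
    ∃ (κ : Type) (_ : Fintype κ) (_ : DecidableEq κ) (_ : Nonempty κ),
      ∀ (k : ℕ) (D : ℝ), (1 / lam) ^ k ≤ D → D * Lam ^ m < 1 →
        ∃ g : (κ → Bool) → Bool, four g ∅ = 0 ∧ DegLE g ⌊D⌋₊ ∧
          Real.sqrt lam * v ^ k * Real.sqrt D ≤ W g := by
  have hLam0 : 0 < Lam :=
    lt_of_lt_of_le hlam (le_trans (hd1 (Classical.arbitrary ι)) (hd2 _))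
  have hlam1 : lam < 1 :=
    lt_of_le_of_lt (le_trans (hd1 (Classical.arbitrary ι)) (hd2 _)) hLam
  have hinv : 1 ≤ 1 / lam := by rw [le_div_iff₀ hlam]; linarith
  have hpow1 : ∀ k : ℕ, 1 ≤ (1 / lam) ^ k := fun k => one_le_pow₀ hinv
  have hv0 : 0 ≤ v := by linarith
  induction m with
  | zero =>
    refine ⟨Unit, inferInstance, inferInstance, inferInstance, ?_⟩
    intro k D h1 h2
    exfalso
    have := hpow1 k
    simp at h2
    linarith
  | succ m ih =>
    obtain ⟨κ, hF, hDe, hN, ih⟩ := ih
    refine ⟨ι × κ, inferInstance, inferInstance, inferInstance, ?_⟩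
    intro k D h1 h2
    have hD1 : 1 ≤ D := le_trans (hpow1 k) h1
    by_cases hcase : D * lam < 1
    · -- the budget is too small to compose: a dictator
      obtain ⟨p⟩ : Nonempty (ι × κ) := inferInstance
      have hk : k = 0 := by
        by_contra hk
        have h3 : (1 / lam) ^ 1 ≤ (1 / lam) ^ k :=
          pow_le_pow_right₀ hinv (Nat.one_le_iff_ne_zero.mpr hk)
        rw [pow_one] at h3
        have h4 : 1 / lam ≤ D := le_trans h3 h1
        rw [div_le_iff₀ hlam] at h4
        linarith
      subst hk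
      refine ⟨dict p, four_dict_empty p, degLE_dict p (Nat.le_floor (by simpa using hD1)), ?_⟩
      rw [W_dict, pow_zero, mul_one, ← Real.sqrt_mul hlam.le]
      rw [Real.sqrt_le_iff]
      constructor
      · norm_num
      · nlinarith
    · -- compose: block `i` receives the budget `d i * D`
      have hcase' : 1 ≤ D * lam := not_lt.mp hcase
      have hsub : ∀ i, ∃ g : (κ → Bool) → Bool, four g ∅ = 0 ∧ DegLE g ⌊d i * D⌋₊ ∧
          Real.sqrt lam * v ^ (k - 1) * Real.sqrt (d i * D) ≤ W g := by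
        intro i
        apply ih (k - 1) (d i * D)
        · have hdD : lam * D ≤ d i * D := mul_le_mul_of_nonneg_right (hd1 i) (by linarith)
          rcases Nat.eq_zero_or_pos k with hk | hk
          · subst hk
            simp only [Nat.zero_sub, pow_zero]
            linarith
          · have h3 : (1 / lam) ^ k = (1 / lam) ^ (k - 1) * (1 / lam) := by
              rw [← pow_succ]; congr 1; omega
            rw [h3] at h1
            have h4 : (1 / lam) ^ (k - 1) ≤ lam * D := by
              have h5 := mul_le_mul_of_nonneg_left h1 hlam.le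
              have h6 : lam * ((1 / lam) ^ (k - 1) * (1 / lam)) = (1 / lam) ^ (k - 1) := by
                field_simp
              rw [h6] at h5; exact h5
            linarith
        · have h3 : d i * D * Lam ^ m ≤ D * Lam ^ (m + 1) := by
            rw [pow_succ]
            have hDL : 0 ≤ D * Lam ^ m := by positivity
            nlinarith [hd2 i]
          linarith
      choose g hg0 hgdeg hgW using hsub
      refine ⟨hcomp f g, four_hcomp_empty hg0 hbal, ?_, ?_⟩
      · apply degLE_hcomp hgdeg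
        intro S hS
        apply Nat.le_floor
        push_cast
        calc ∑ i ∈ S, (⌊d i * D⌋₊ : ℝ) ≤ ∑ i ∈ S, d i * D :=
              Finset.sum_le_sum fun i _ =>
                Nat.floor_le (mul_nonneg (le_trans hlam.le (hd1 i)) (by linarith))
          _ = (∑ i ∈ S, d i) * D := by rw [Finset.sum_mul]
          _ ≤ 1 * D := mul_le_mul_of_nonneg_right (hsupp S hS) (by linarith)
          _ = D := one_mul D
      · rw [W_hcomp hg0]
        have hDs : 0 ≤ Real.sqrt D := Real.sqrt_nonneg D
        have hA : 0 ≤ Real.sqrt lam * v ^ (k - 1) :=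
          mul_nonneg (Real.sqrt_nonneg _) (pow_nonneg hv0 _)
        have hterm : ∀ i, four f {i} / 2 ^ Fintype.card ι *
            (Real.sqrt lam * v ^ (k - 1) * (s i * Real.sqrt D))
            ≤ four f {i} / 2 ^ Fintype.card ι * W (g i) := by
          intro i
          have hc : 0 ≤ four f {i} / 2 ^ Fintype.card ι := div_nonneg (hnn i) (by positivity)
          apply mul_le_mul_of_nonneg_left _ hc
          refine le_trans ?_ (hgW i)
          have h7 : s i * Real.sqrt D ≤ Real.sqrt (d i * D) := by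
            rw [Real.sqrt_mul (le_trans hlam.le (hd1 i))]
            exact mul_le_mul_of_nonneg_right (Real.le_sqrt_of_sq_le (hs i)) hDs
          exact mul_le_mul_of_nonneg_left h7 hA
        have hvk : v ^ k ≤ v ^ (k - 1) * v := by
          rcases Nat.eq_zero_or_pos k with hk | hk
          · subst hk
            simp only [Nat.zero_sub, pow_zero, one_mul]
            exact hv1
          · rw [← pow_succ]
            have : k - 1 + 1 = k := by omega
            rw [this]
        have hsumeq : ∑ i, four f {i} / 2 ^ Fintype.card ι *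
            (Real.sqrt lam * v ^ (k - 1) * (s i * Real.sqrt D)) =
            Real.sqrt lam * (v ^ (k - 1) * v) * Real.sqrt D := by
          have h8 : ∀ i, four f {i} / 2 ^ Fintype.card ι *
              (Real.sqrt lam * v ^ (k - 1) * (s i * Real.sqrt D)) =
              (four f {i} / 2 ^ Fintype.card ι * s i) *
                (Real.sqrt lam * v ^ (k - 1) * Real.sqrt D) := by
            intro i; ring
          simp only [h8]
          rw [← Finset.sum_mul, ← hv]
          ring
        calc Real.sqrt lam * v ^ k * Real.sqrt D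
            ≤ Real.sqrt lam * (v ^ (k - 1) * v) * Real.sqrt D := by
              apply mul_le_mul_of_nonneg_right _ hDs
              exact mul_le_mul_of_nonneg_left hvk (Real.sqrt_nonneg _)
          _ = ∑ i, four f {i} / 2 ^ Fintype.card ι *
                (Real.sqrt lam * v ^ (k - 1) * (s i * Real.sqrt D)) := hsumeq.symm
          _ ≤ _ := Finset.sum_le_sum fun i _ => hterm i

/-- **A weighted-degree witness suffices.**  Let `f` be a balanced Boolean function with
non-negative singleton coefficients, and `d i ∈ (0,1)` weights with `∑ i ∈ S, d i ≤ 1` for every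
`S` in the support of the Fourier transform of `f`.  If `∑ i, fhat(i) * s i > 1` for some
`s i ≤ sqrt (d i)`, then the statement S0085 holds. -/
theorem statement_of_val {ι : Type} [Fintype ι] [DecidableEq ι]
    (f : (ι → Bool) → Bool) (hbal : four f ∅ = 0) (hnn : ∀ i, 0 ≤ four f {i})
    (d s : ι → ℝ) (hd0 : ∀ i, 0 < d i) (hd1 : ∀ i, d i < 1)
    (hs : ∀ i, s i ^ 2 ≤ d i)
    (hsupp : ∀ S : Finset ι, four f S ≠ 0 → ∑ i ∈ S, d i ≤ 1)
    (hv : 1 < ∑ i, four f {i} / 2 ^ Fintype.card ι * s i) (C : ℝ) :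
    ∃ n : ℕ, ∃ f : (Fin n → Bool) → Bool, ∃ d : ℕ,
      (∃ x y, f x ≠ f y) ∧
      (∀ S : Finset (Fin n), d < S.card →
        ∑ x : Fin n → Bool, ((if f x then (1 : ℝ) else -1) * ∏ i ∈ S, (if x i then (1 : ℝ) else -1)) = 0) ∧
      C * Real.sqrt d <
        ∑ i : Fin n, (∑ x : Fin n → Bool, ((if f x then (1 : ℝ) else -1) * (if x i then (1 : ℝ) else -1))) / 2 ^ n := by
  have hne : Nonempty ι := by
    by_contra h
    rw [not_nonempty_iff] at h
    simp at hv
    linarith
  obtain ⟨i0, -, hi0⟩ := Finset.exists_min_image Finset.univ d Finset.univ_nonempty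
  obtain ⟨i1, -, hi1⟩ := Finset.exists_max_image Finset.univ d Finset.univ_nonempty
  have hlam : 0 < d i0 := hd0 i0
  have hLam : d i1 < 1 := hd1 i1
  have hsl : 0 < Real.sqrt (d i0) := Real.sqrt_pos.mpr hlam
  have hv0 : 0 < ∑ i, four f {i} / 2 ^ Fintype.card ι * s i := by linarith
  obtain ⟨k, hk⟩ := pow_unbounded_of_one_lt (|C| / Real.sqrt (d i0)) hv
  have hDpos : 0 < (1 / d i0) ^ k := by positivity
  obtain ⟨m, hm⟩ := exists_pow_lt_of_lt_one (x := 1 / (1 / d i0) ^ k) (by positivity) hLam
  obtain ⟨κ, hF, hDe, hN, htow⟩ := val_tower f hbal hnn d s (d i0) (d i1) hlam hLam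
    (fun i => hi0 i (Finset.mem_univ i)) (fun i => hi1 i (Finset.mem_univ i)) hs hsupp
    _ rfl hv.le m
  have hm' : (1 / d i0) ^ k * d i1 ^ m < 1 := by
    rw [lt_div_iff₀ hDpos] at hm
    linarith
  obtain ⟨g, hg0, hgdeg, hgW⟩ := htow k ((1 / d i0) ^ k) le_rfl hm'
  have hgood : Good ⌊(1 / d i0) ^ k⌋₊ (W g) := ⟨κ, hF, hDe, g, hgdeg, rfl⟩
  have h3 : 0 < Real.sqrt ((1 / d i0) ^ k) := Real.sqrt_pos.mpr hDpos
  have h2 : |C| < Real.sqrt (d i0) * (∑ i, four f {i} / 2 ^ Fintype.card ι * s i) ^ k := by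
    rw [div_lt_iff₀ hsl] at hk
    linarith
  apply statement_of_good hgood C
  · have : 0 < Real.sqrt (d i0) * (∑ i, four f {i} / 2 ^ Fintype.card ι * s i) ^ k *
        Real.sqrt ((1 / d i0) ^ k) := by positivity
    linarith
  · have h1 : Real.sqrt ((⌊(1 / d i0) ^ k⌋₊ : ℕ) : ℝ) ≤ Real.sqrt ((1 / d i0) ^ k) :=
      Real.sqrt_le_sqrt (Nat.floor_le hDpos.le)
    calc C * Real.sqrt ((⌊(1 / d i0) ^ k⌋₊ : ℕ) : ℝ)
        ≤ |C| * Real.sqrt ((⌊(1 / d i0) ^ k⌋₊ : ℕ) : ℝ) :=
          mul_le_mul_of_nonneg_right (le_abs_self C) (Real.sqrt_nonneg _)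
      _ ≤ |C| * Real.sqrt ((1 / d i0) ^ k) := mul_le_mul_of_nonneg_left h1 (abs_nonneg C)
      _ < Real.sqrt (d i0) * (∑ i, four f {i} / 2 ^ Fintype.card ι * s i) ^ k *
            Real.sqrt ((1 / d i0) ^ k) := mul_lt_mul_of_pos_right h2 h3
      _ ≤ W g := hgW

end tower

/-! ### a kernel-checkable certificate (tree version)

Weights `d i = ps[i] / q`, lower bounds `bs[i] / R ≤ sqrt (d i)`; lists are indexed by the
coordinate `i : Fin n` (entry `0` first). -/

section cert

lemma sum_tl {n : ℕ} (S : Finset (Fin (n + 1))) (F : Fin (n + 1) → ℕ) :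
    ∑ i ∈ S, F i = (if (0 : Fin (n + 1)) ∈ S then F 0 else 0) + ∑ j ∈ tl S, F (Fin.succ j) := by
  have h1 : ∑ i ∈ S, F i = ∑ i : Fin (n + 1), (if i ∈ S then F i else 0) := by
    rw [Finset.sum_ite_mem, Finset.univ_inter]
  rw [h1, Fin.sum_univ_succ]
  unfold tl
  rw [Finset.sum_filter]

lemma getD_cons_fin_succ {n : ℕ} (p : ℕ) (ps : List ℕ) (j : Fin n) :
    (p :: ps).getD ((Fin.succ j : Fin (n + 1)) : ℕ) 0 = ps.getD (j : ℕ) 0 := by
  simp

lemma getD_cons_fin_zero {n : ℕ} (p : ℕ) (ps : List ℕ) :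
    (p :: ps).getD ((0 : Fin (n + 1)) : ℕ) 0 = p := by
  simp

lemma sum_getD_le : ∀ (n : ℕ) (ps : List ℕ) (S : Finset (Fin n)),
    ∑ i ∈ S, ps.getD (i : ℕ) 0 ≤ ps.sum
  | 0, ps, S => by
    have : S = ∅ := by ext i; exact i.elim0
    subst this; simp
  | n + 1, [], S => by simp
  | n + 1, p :: ps, S => by
    rw [sum_tl]
    have ih := sum_getD_le n ps (tl S)
    simp only [getD_cons_fin_succ]
    rw [getD_cons_fin_zero, List.sum_cons]
    split_ifs <;> omega

/-- weighted support check: every set with a non-zero coefficient has total weight `≤ b` -/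
def chkW : (n : ℕ) → List ℕ → ℕ → Tr n → Bool
  | 0, _, _, _ => true
  | _ + 1, [], _, _ => false
  | n + 1, p :: ps, b, c =>
      Nat.ble (p + ps.sum) b ||
        (chkW n ps b c.1 && (if p ≤ b then chkW n ps (b - p) c.2 else isZero n c.2))

lemma coef_chkW : ∀ (n : ℕ) (ps : List ℕ) (b : ℕ) (c : Tr n), chkW n ps b c = true →
    ∀ S : Finset (Fin n), coef n c S ≠ 0 → ∑ i ∈ S, ps.getD (i : ℕ) 0 ≤ b
  | 0, ps, b, c, _, S, _ => by
    have : S = ∅ := by ext i; exact i.elim0
    subst this; simp
  | n + 1, [], b, c, h, S, _ => by simp [chkW] at h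
  | n + 1, p :: ps, b, c, h, S, hS => by
    simp only [chkW, Bool.or_eq_true, Bool.and_eq_true] at h
    rcases h with h | ⟨h1, h2⟩
    · have h3 := Nat.le_of_ble_eq_true h
      have h4 := sum_getD_le (n + 1) (p :: ps) S
      rw [List.sum_cons] at h4
      omega
    · rw [sum_tl]
      simp only [getD_cons_fin_succ]
      rw [getD_cons_fin_zero]
      simp only [coef] at hS
      by_cases h0S : (0 : Fin (n + 1)) ∈ S
      · simp only [h0S, if_true] at hS ⊢
        by_cases hpb : p ≤ b
        · simp only [hpb, if_true] at h2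
          have := coef_chkW n ps (b - p) c.2 h2 (tl S) hS
          omega
        · simp only [hpb, if_false] at h2
          exact absurd (coef_isZero n c.2 h2 _) hS
      · simp only [h0S, if_false] at hS ⊢
        have := coef_chkW n ps b c.1 h1 (tl S) hS
        omega

lemma coef_singleton_zero (n : ℕ) (c : Tr (n + 1)) : coef (n + 1) c {0} = c0 n c.2 := by
  have h0 : tl ({0} : Finset (Fin (n + 1))) = ∅ := by
    ext j; simp [tl, Fin.succ_ne_zero]
  simp only [coef, Finset.mem_singleton, if_true, h0]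
  exact coef_empty n c.2

lemma coef_singleton_succ (n : ℕ) (c : Tr (n + 1)) (j : Fin n) :
    coef (n + 1) c {Fin.succ j} = coef n c.1 {j} := by
  have hj : tl ({Fin.succ j} : Finset (Fin (n + 1))) = {j} := by
    ext k; simp [tl]
  have : (0 : Fin (n + 1)) ∉ ({Fin.succ j} : Finset (Fin (n + 1))) := by
    simp [Fin.succ_ne_zero, eq_comm]
  simp only [coef, this, if_false, hj]

/-- all singleton coefficients are non-negative -/
def nn1 : (n : ℕ) → Tr n → Bool
  | 0, _ => true
  | n + 1, c => decide (0 ≤ c0 n c.2) && nn1 n c.1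

lemma coef_nn1 : ∀ (n : ℕ) (c : Tr n), nn1 n c = true → ∀ i : Fin n, 0 ≤ coef n c {i}
  | 0, _, _, i => i.elim0
  | n + 1, c, h, i => by
    simp only [nn1, Bool.and_eq_true, decide_eq_true_eq] at h
    refine Fin.cases ?_ (fun j => ?_) i
    · rw [coef_singleton_zero]; exact h.1
    · rw [coef_singleton_succ]; exact coef_nn1 n c.1 h.2 j

/-- the weighted sum of the singleton coefficients -/
def wl1 : (n : ℕ) → List ℕ → Tr n → ℤ
  | 0, _, _ => 0
  | _ + 1, [], _ => 0
  | n + 1, b :: bs, c => Int.add (Int.mul (c0 n c.2) (Int.ofNat b)) (wl1 n bs c.1)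

lemma sum_coef_wl1 : ∀ (n : ℕ) (bs : List ℕ) (c : Tr n),
    ∑ i : Fin n, coef n c {i} * ((bs.getD (i : ℕ) 0 : ℕ) : ℤ) = wl1 n bs c
  | 0, bs, c => by simp [wl1]
  | n + 1, [], c => by simp [wl1]
  | n + 1, b :: bs, c => by
    rw [Fin.sum_univ_succ, coef_singleton_zero]
    simp only [coef_singleton_succ, getD_cons_fin_succ]
    rw [getD_cons_fin_zero, sum_coef_wl1 n bs c.1]
    rfl

/-- `bs[i] / R ≤ sqrt (ps[i] / q)` for every entry of `bs` -/
def sqOK (q R : ℕ) : List ℕ → List ℕ → Bool
  | [], _ => true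
  | _ :: _, [] => false
  | b :: bs, p :: ps => Nat.ble (b * b * q) (p * (R * R)) && sqOK q R bs ps

lemma sqOK_sound (q R : ℕ) : ∀ (bs ps : List ℕ), sqOK q R bs ps = true →
    ∀ i : ℕ, bs.getD i 0 * bs.getD i 0 * q ≤ ps.getD i 0 * (R * R)
  | [], ps, _, i => by simp
  | b :: bs, [], h, i => by simp [sqOK] at h
  | b :: bs, p :: ps, h, i => by
    simp only [sqOK, Bool.and_eq_true] at h
    cases i with
    | zero => simpa using Nat.le_of_ble_eq_true h.1
    | succ i => simpa using sqOK_sound q R bs ps h.2 i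

/-- the first `n` weights lie strictly between `0` and `q` -/
def wOK (q : ℕ) : (n : ℕ) → List ℕ → Bool
  | 0, _ => true
  | _ + 1, [] => false
  | n + 1, p :: ps => Nat.ble 1 p && (Nat.blt p q && wOK q n ps)

lemma wOK_sound (q : ℕ) : ∀ (n : ℕ) (ps : List ℕ), wOK q n ps = true →
    ∀ i : ℕ, i < n → 1 ≤ ps.getD i 0 ∧ ps.getD i 0 < q
  | 0, _, _, i, hi => by omega
  | n + 1, [], h, i, _ => by simp [wOK] at h
  | n + 1, p :: ps, h, i, hi => by
    simp only [wOK, Bool.and_eq_true] at h
    cases i with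
    | zero =>
      have h1 := Nat.le_of_ble_eq_true h.1
      have h2 : p < q := by
        have := h.2.1
        simpa [Nat.blt] using Nat.le_of_ble_eq_true this
      simpa using And.intro h1 h2
    | succ i => simpa using wOK_sound q n ps h.2.2 i (by omega)

/-- **A weighted-degree certificate on a coefficient tree proves S0085.** -/
theorem statement_of_val_check (n m : ℕ) (ps : List ℕ) (q : ℕ) (bs : List ℕ) (R : ℕ)
    (h0 : c0 n (wht n (mk n m)) = 0)
    (h1 : nn1 n (wht n (mk n m)) = true)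
    (h2 : chkW n ps q (wht n (mk n m)) = true)
    (h3 : wOK q n ps = true)
    (h5 : sqOK q R bs ps = true)
    (h6 : (2 : ℤ) ^ n * (R : ℤ) < wl1 n bs (wht n (mk n m))) (C : ℝ) :
    ∃ n : ℕ, ∃ f : (Fin n → Bool) → Bool, ∃ d : ℕ,
      (∃ x y, f x ≠ f y) ∧
      (∀ S : Finset (Fin n), d < S.card →
        ∑ x : Fin n → Bool, ((if f x then (1 : ℝ) else -1) * ∏ i ∈ S, (if x i then (1 : ℝ) else -1)) = 0) ∧
      C * Real.sqrt d <
        ∑ i : Fin n, (∑ x : Fin n → Bool, ((if f x then (1 : ℝ) else -1) * (if x i then (1 : ℝ) else -1))) / 2 ^ n := by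
  -- there is at least one variable, hence `0 < q`
  have hn : 0 < n := by
    rcases Nat.eq_zero_or_pos n with hn | hn
    · subst hn
      exfalso
      have : wl1 0 bs (wht 0 (mk 0 m)) = 0 := rfl
      rw [this] at h6
      have : (0 : ℤ) ≤ (R : ℤ) := Int.natCast_nonneg R
      simp at h6
      omega
    · exact hn
  have hw := wOK_sound q n ps h3
  have hq : 0 < q := by
    have := (hw 0 hn).2
    omega
  have hqR : (0 : ℝ) < q := by exact_mod_cast hq
  -- `0 < R` follows from the strict inequalities as well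
  have hR : 0 < R := by
    rcases Nat.eq_zero_or_pos R with hR | hR
    · exfalso
      subst hR
      have hsq := sqOK_sound q 0 bs ps h5
      have hb0 : ∀ i : ℕ, bs.getD i 0 = 0 := by
        intro i
        have := hsq i
        simp only [Nat.mul_zero] at this
        have h7 : bs.getD i 0 * bs.getD i 0 * q = 0 := Nat.le_zero.mp this
        rcases Nat.mul_eq_zero.mp h7 with h8 | h8
        · rcases Nat.mul_eq_zero.mp h8 with h9 | h9 <;> exact h9
        · omega
      have h9 : ∑ i : Fin n, coef n (wht n (mk n m)) {i} * ((bs.getD (i : ℕ) 0 : ℕ) : ℤ) = 0 :=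
        Finset.sum_eq_zero (fun i _ => by rw [hb0]; simp)
      rw [← sum_coef_wl1, h9] at h6
      simp at h6
    · exact hR
  have hRR : (0 : ℝ) < R := by exact_mod_cast hR
  refine statement_of_val (gfun n m) ?_ ?_ (fun i => ((ps.getD (i : ℕ) 0 : ℕ) : ℝ) / q)
    (fun i => ((bs.getD (i : ℕ) 0 : ℕ) : ℝ) / R) ?_ ?_ ?_ ?_ ?_ C
  · rw [four_gfun, coef_empty, h0]; simp
  · intro i
    rw [four_gfun]
    exact_mod_cast coef_nn1 n _ h1 i
  · intro i
    have := (hw i i.isLt).1
    have h7 : (0 : ℝ) < ((ps.getD (i : ℕ) 0 : ℕ) : ℝ) := by exact_mod_cast this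
    exact div_pos h7 hqR
  · intro i
    have := (hw i i.isLt).2
    rw [div_lt_one hqR]
    exact_mod_cast this
  · intro i
    have := sqOK_sound q R bs ps h5 i
    rw [div_pow, div_le_div_iff₀ (by positivity) hqR]
    have h7 : (((bs.getD (i : ℕ) 0 * bs.getD (i : ℕ) 0 * q : ℕ)) : ℝ) ≤
        ((ps.getD (i : ℕ) 0 * (R * R) : ℕ) : ℝ) := by exact_mod_cast this
    push_cast at h7
    nlinarith
  · intro S hS
    rw [four_gfun] at hS
    have hS' : coef n (wht n (mk n m)) S ≠ 0 := by
      intro h; apply hS; rw [h]; simp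
    have := coef_chkW n ps q _ h2 S hS'
    rw [← Finset.sum_div, div_le_one hqR]
    exact_mod_cast this
  · rw [Fintype.card_fin]
    have h7 : ∀ i : Fin n, four (gfun n m) {i} / 2 ^ n * (((bs.getD (i : ℕ) 0 : ℕ) : ℝ) / R) =
        (((coef n (wht n (mk n m)) {i} * ((bs.getD (i : ℕ) 0 : ℕ) : ℤ) : ℤ)) : ℝ) /
          (2 ^ n * R) := by
      intro i
      rw [four_gfun]
      push_cast
      field_simp
    simp only [h7]
    rw [← Finset.sum_div, lt_div_iff₀ (by positivity), one_mul]
    have h8 : ((((2 : ℤ) ^ n * (R : ℤ) : ℤ)) : ℝ) < ((wl1 n bs (wht n (mk n m)) : ℤ) : ℝ) := by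
      exact_mod_cast h6
    rw [← sum_coef_wl1] at h8
    push_cast at h8 ⊢
    exact h8

end cert

/-! ### the same certificate on the packed transform of `Packed.lean` / `Table.lean` -/

section packed

/-- the packed transform is the packing of the tree transform, and all fields are in range -/
lemma whtP_spec (n m : ℕ) :
    ((whtP (2 ^ (n + 2)) n m : ℕ) : ℤ) =
        pk (2 ^ (n + 2)) ((2 ^ n : ℕ) : ℤ) n (wht n (mk n m)) ∧
      Bd (2 ^ (n + 2)) ((2 ^ n : ℕ) : ℤ) n (wht n (mk n m)) := by
  have hlt : 2 ^ (n + 1) < 2 ^ (n + 2) := Nat.pow_lt_pow_right (by norm_num) (by omega)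
  have hB2 : 2 ≤ 2 ^ (n + 2) := by
    have : 2 ^ 1 ≤ 2 ^ (n + 2) := Nat.pow_le_pow_right (by norm_num) (by omega)
    simpa using this
  constructor
  · rw [whtP_eq (2 ^ (n + 2)) hB2 n m hlt]
    push_cast
    rfl
  · refine bd_of_absLE _ _ (2 ^ n) (by push_cast; exact le_rfl) ?_ n _ (absLE_wht n m)
    have : ((2 ^ n + 2 ^ n : ℕ) : ℤ) < ((2 ^ (n + 2) : ℕ) : ℤ) := by
      have : 2 ^ n + 2 ^ n < 2 ^ (n + 2) := by
        have e : 2 ^ (n + 2) = 4 * 2 ^ n := by ring
        have : 0 < 2 ^ n := Nat.pos_of_ne_zero (by positivity)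
        omega
      exact_mod_cast this
    push_cast at this ⊢
    exact this

/-- packed weighted support check -/
def chkWP (B o : ℕ) : (n : ℕ) → List ℕ → ℕ → ℕ → Bool
  | 0, _, _, _ => true
  | _ + 1, [], _, _ => false
  | n + 1, p :: ps, b, V =>
      Nat.ble (p + ps.sum) b ||
        (chkWP B o n ps b (V % B ^ 2 ^ n) &&
          (if p ≤ b then chkWP B o n ps (b - p) (V / B ^ 2 ^ n)
            else decide (V / B ^ 2 ^ n = o * rep B n)))

lemma chkWP_sound (B o : ℕ) (hB2 : 2 ≤ B) (hoB : o < B) :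
    ∀ (n : ℕ) (ps : List ℕ) (b V : ℕ) (c : Tr n),
      Bd B o n c → (V : ℤ) = pk B o n c → chkWP B o n ps b V = true → chkW n ps b c = true
  | 0, _, _, _, _, _, _, _ => rfl
  | n + 1, [], b, V, c, _, _, h => by simp [chkWP] at h
  | n + 1, p :: ps, b, V, c, hbd, hV, h => by
    obtain ⟨h1, h2⟩ := pk_split B o n c hbd V hV
    simp only [chkWP, Bool.or_eq_true, Bool.and_eq_true] at h
    simp only [chkW, Bool.or_eq_true, Bool.and_eq_true]
    rcases h with h | ⟨ha, hb⟩
    · exact Or.inl h
    · refine Or.inr ⟨chkWP_sound B o hB2 hoB n ps b _ c.1 hbd.1 h1 ha, ?_⟩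
      by_cases hpb : p ≤ b
      · simp only [hpb, if_true] at hb ⊢
        exact chkWP_sound B o hB2 hoB n ps (b - p) _ c.2 hbd.2 h2 hb
      · simp only [hpb, if_false] at hb ⊢
        have hz : V / B ^ 2 ^ n = o * rep B n := of_decide_eq_true hb
        apply isZero_of_pk B o hoB n c.2 hbd.2
        rw [← h2, hz]
        push_cast
        rw [rep_cast B hB2]

/-- packed sign check of the singleton coefficients -/
def nn1P (B o : ℕ) : (n : ℕ) → ℕ → Bool
  | 0, _ => true
  | n + 1, V => decide (0 ≤ c0P B o n (V / B ^ 2 ^ n)) && nn1P B o n (V % B ^ 2 ^ n)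

lemma nn1P_sound (B o : ℕ) : ∀ (n V : ℕ) (c : Tr n), Bd B o n c → (V : ℤ) = pk B o n c →
    nn1P B o n V = nn1 n c
  | 0, _, _, _, _ => rfl
  | n + 1, V, c, hbd, hV => by
    obtain ⟨h1, h2⟩ := pk_split B o n c hbd V hV
    show (decide (0 ≤ c0P B o n (V / B ^ 2 ^ n)) && nn1P B o n (V % B ^ 2 ^ n)) =
      (decide (0 ≤ c0 n c.2) && nn1 n c.1)
    rw [c0P_sound B o n _ c.2 hbd.2 h2, nn1P_sound B o n _ c.1 hbd.1 h1]

/-- packed weighted sum of the singleton coefficients -/
def wl1P (B o : ℕ) : (n : ℕ) → List ℕ → ℕ → ℤ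
  | 0, _, _ => 0
  | _ + 1, [], _ => 0
  | n + 1, b :: bs, V =>
      Int.add (Int.mul (c0P B o n (V / B ^ 2 ^ n)) (Int.ofNat b)) (wl1P B o n bs (V % B ^ 2 ^ n))

lemma wl1P_sound (B o : ℕ) : ∀ (n : ℕ) (bs : List ℕ) (V : ℕ) (c : Tr n), Bd B o n c →
    (V : ℤ) = pk B o n c → wl1P B o n bs V = wl1 n bs c
  | 0, _, _, _, _, _ => rfl
  | n + 1, [], _, _, _, _ => rfl
  | n + 1, b :: bs, V, c, hbd, hV => by
    obtain ⟨h1, h2⟩ := pk_split B o n c hbd V hV
    show Int.add (Int.mul (c0P B o n (V / B ^ 2 ^ n)) (Int.ofNat b))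
        (wl1P B o n bs (V % B ^ 2 ^ n)) =
      Int.add (Int.mul (c0 n c.2) (Int.ofNat b)) (wl1 n bs c.1)
    rw [c0P_sound B o n _ c.2 hbd.2 h2, wl1P_sound B o n bs _ c.1 hbd.1 h1]

/-- the weighted-degree certificate for a truth table `m` on `n` variables (generic packed
transform; any `n`) -/
def certifyVP (n m : ℕ) (ps : List ℕ) (q : ℕ) (bs : List ℕ) (R : ℕ) : Bool :=
  (fun (V : ℕ) =>
    decide (c0P (2 ^ (n + 2)) (2 ^ n) n V = 0) &&
      (nn1P (2 ^ (n + 2)) (2 ^ n) n V &&
        (chkWP (2 ^ (n + 2)) (2 ^ n) n ps q V &&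
          (wOK q n ps && (sqOK q R bs ps &&
            decide ((2 : ℤ) ^ n * (R : ℤ) < wl1P (2 ^ (n + 2)) (2 ^ n) n bs V))))))
    (whtR (2 ^ (n + 2)) n m)

/-- the same for `k + 3` variables with the table-based transform of `Table.lean` (fastest) -/
def certifyV (k m : ℕ) (ps : List ℕ) (q : ℕ) (bs : List ℕ) (R : ℕ) : Bool :=
  (fun (V : ℕ) =>
    decide (c0P (2 ^ (k + 3 + 2)) (2 ^ (k + 3)) (k + 3) V = 0) &&
      (nn1P (2 ^ (k + 3 + 2)) (2 ^ (k + 3)) (k + 3) V &&
        (chkWP (2 ^ (k + 3 + 2)) (2 ^ (k + 3)) (k + 3) ps q V &&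
          (wOK q (k + 3) ps && (sqOK q R bs ps &&
            decide ((2 : ℤ) ^ (k + 3) * (R : ℤ) <
              wl1P (2 ^ (k + 3 + 2)) (2 ^ (k + 3)) (k + 3) bs V))))))
    (whtU (2 ^ (k + 3 + 2)) k m)

/-- soundness of the checks on a packed transform -/
theorem statement_of_packed (n m : ℕ) (ps : List ℕ) (q : ℕ) (bs : List ℕ) (R : ℕ)
    (h : (decide (c0P (2 ^ (n + 2)) (2 ^ n) n (whtP (2 ^ (n + 2)) n m) = 0) &&
      (nn1P (2 ^ (n + 2)) (2 ^ n) n (whtP (2 ^ (n + 2)) n m) &&
        (chkWP (2 ^ (n + 2)) (2 ^ n) n ps q (whtP (2 ^ (n + 2)) n m) &&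
          (wOK q n ps && (sqOK q R bs ps &&
            decide ((2 : ℤ) ^ n * (R : ℤ) <
              wl1P (2 ^ (n + 2)) (2 ^ n) n bs (whtP (2 ^ (n + 2)) n m))))))) = true) (C : ℝ) :
    ∃ n : ℕ, ∃ f : (Fin n → Bool) → Bool, ∃ d : ℕ,
      (∃ x y, f x ≠ f y) ∧
      (∀ S : Finset (Fin n), d < S.card →
        ∑ x : Fin n → Bool, ((if f x then (1 : ℝ) else -1) * ∏ i ∈ S, (if x i then (1 : ℝ) else -1)) = 0) ∧
      C * Real.sqrt d <
        ∑ i : Fin n, (∑ x : Fin n → Bool, ((if f x then (1 : ℝ) else -1) * (if x i then (1 : ℝ) else -1))) / 2 ^ n := by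
  obtain ⟨hV, hbd⟩ := whtP_spec n m
  have hB2 : 2 ≤ 2 ^ (n + 2) := by
    have : 2 ^ 1 ≤ 2 ^ (n + 2) := Nat.pow_le_pow_right (by norm_num) (by omega)
    simpa using this
  have hoB : 2 ^ n < 2 ^ (n + 2) := Nat.pow_lt_pow_right (by norm_num) (by omega)
  simp only [Bool.and_eq_true, decide_eq_true_eq] at h
  obtain ⟨h0, h1, h2, h3, h5, h6⟩ := h
  refine statement_of_val_check n m ps q bs R ?_ ?_ ?_ h3 h5 ?_ C
  · rw [← c0P_sound _ _ n _ _ hbd hV]; exact h0
  · rw [← nn1P_sound _ _ n _ _ hbd hV]; exact h1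
  · exact chkWP_sound _ _ hB2 hoB n ps q _ _ hbd hV h2
  · rw [← wl1P_sound _ _ n bs _ _ hbd hV]; exact h6

/-- **A certified weighted-degree witness proves S0085** (any number of variables):
`statement_of_certifyVP N M ps q bs R (by decide +kernel) C`. -/
theorem statement_of_certifyVP (n m : ℕ) (ps : List ℕ) (q : ℕ) (bs : List ℕ) (R : ℕ)
    (h : certifyVP n m ps q bs R = true) (C : ℝ) :
    ∃ n : ℕ, ∃ f : (Fin n → Bool) → Bool, ∃ d : ℕ,
      (∃ x y, f x ≠ f y) ∧
      (∀ S : Finset (Fin n), d < S.card →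
        ∑ x : Fin n → Bool, ((if f x then (1 : ℝ) else -1) * ∏ i ∈ S, (if x i then (1 : ℝ) else -1)) = 0) ∧
      C * Real.sqrt d <
        ∑ i : Fin n, (∑ x : Fin n → Bool, ((if f x then (1 : ℝ) else -1) * (if x i then (1 : ℝ) else -1))) / 2 ^ n := by
  apply statement_of_packed n m ps q bs R _ C
  rw [← whtR_eq]
  exact h

/-- **A certified weighted-degree witness on `k + 3` variables proves S0085** (fastest):
`statement_of_certifyV (N - 3) M ps q bs R (by decide +kernel) C`. -/
theorem statement_of_certifyV (k m : ℕ) (ps : List ℕ) (q : ℕ) (bs : List ℕ) (R : ℕ)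
    (h : certifyV k m ps q bs R = true) (C : ℝ) :
    ∃ n : ℕ, ∃ f : (Fin n → Bool) → Bool, ∃ d : ℕ,
      (∃ x y, f x ≠ f y) ∧
      (∀ S : Finset (Fin n), d < S.card →
        ∑ x : Fin n → Bool, ((if f x then (1 : ℝ) else -1) * ∏ i ∈ S, (if x i then (1 : ℝ) else -1)) = 0) ∧
      C * Real.sqrt d <
        ∑ i : Fin n, (∑ x : Fin n → Bool, ((if f x then (1 : ℝ) else -1) * (if x i then (1 : ℝ) else -1))) / 2 ^ n := by
  have hB : 16 < 2 ^ (k + 3 + 2) := by
    have : 2 ^ 5 ≤ 2 ^ (k + 3 + 2) := Nat.pow_le_pow_right (by norm_num) (by omega)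
    omega
  apply statement_of_packed (k + 3) m ps q bs R _ C
  rw [← whtT_eq _ hB, ← whtU_eq]
  exact h

end packed

/-! ### variance witnesses: `W f ^ 2 > deg f * (1 - mean ^ 2)` for an arbitrary Boolean `f`

`oddify f (s, x) = s * f (s * x)` (in sign notation) is odd, its coefficients are
`2 * fhat(T)` on the sets `T` (`|T|` odd) and `T ∪ {s}` (`|T|` even), so with the weight `t` on
`s` and `(1 - t) / D` on the old variables it is a weighted-degree witness as soon as
`mean ^ 2 + W ^ 2 / D > 1`. -/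

section oddify

variable {ι : Type*} [Fintype ι] [DecidableEq ι]

/-- `g (s, x) = f x` if `s` is true and `¬ f (¬ x)` otherwise: an odd (hence balanced) function
on one more variable (`none` is the new variable `s`). -/
def oddify (f : (ι → Bool) → Bool) : (Option ι → Bool) → Bool :=
  fun y => if y none then f (fun i => y (some i)) else !f (fun i => !y (some i))

lemma sg_not (b : Bool) : sg (!b) = -sg b := by cases b <;> simp [sg]

lemma chi_not (T : Finset ι) (x : ι → Bool) :
    chi T (fun i => !x i) = (-1) ^ T.card * chi T x := by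
  unfold chi
  simp only [sg_not]
  rw [Finset.prod_neg]

lemma chi_option (U : Finset (Option ι)) (y : Option ι → Bool) :
    chi U y = (if none ∈ U then sg (y none) else 1) * chi U.eraseNone (fun i => y (some i)) := by
  rw [chi_eq_prod_univ, Fintype.prod_option, chi_eq_prod_univ]
  congr 1
  refine Finset.prod_congr rfl fun i _ => ?_
  simp only [Finset.mem_eraseNone]

lemma four_not_arg (f : (ι → Bool) → Bool) (T : Finset ι) :
    ∑ x : ι → Bool, sg (f (fun i => !x i)) * chi T x = (-1) ^ T.card * four f T := by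
  let e : (ι → Bool) ≃ (ι → Bool) :=
    ⟨fun x i => !x i, fun x i => !x i, fun x => by funext i; simp, fun x => by funext i; simp⟩
  unfold four
  rw [← Equiv.sum_comp e, Finset.mul_sum]
  refine Finset.sum_congr rfl fun x _ => ?_
  have h1 : (fun i => !(e x) i) = x := by funext i; simp [e]
  have h2 : chi T (e x) = (-1) ^ T.card * chi T x := chi_not T x
  rw [h1, h2]; ring

/-- The Fourier coefficients of `oddify f`. -/
theorem four_oddify (f : (ι → Bool) → Bool) (U : Finset (Option ι)) :
    four (oddify f) U =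
      (1 - (if none ∈ U then -1 else 1) * (-1) ^ U.eraseNone.card) * four f U.eraseNone := by
  have hT : ∀ x : ι → Bool,
      sg (oddify f ((Equiv.piOptionEquivProd (β := fun _ : Option ι => Bool)).symm (true, x))) *
        chi U ((Equiv.piOptionEquivProd (β := fun _ : Option ι => Bool)).symm (true, x)) =
      sg (f x) * chi U.eraseNone x := by
    intro x
    rw [chi_option]
    show sg (f x) * ((if none ∈ U then sg true else 1) * chi U.eraseNone x) = _
    rw [sg_true]; simp
  have hF : ∀ x : ι → Bool,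
      sg (oddify f ((Equiv.piOptionEquivProd (β := fun _ : Option ι => Bool)).symm (false, x))) *
        chi U ((Equiv.piOptionEquivProd (β := fun _ : Option ι => Bool)).symm (false, x)) =
      -(if none ∈ U then (-1 : ℝ) else 1) * (sg (f (fun i => !x i)) * chi U.eraseNone x) := by
    intro x
    rw [chi_option]
    show sg (!f (fun i => !x i)) * ((if none ∈ U then sg false else 1) * chi U.eraseNone x) = _
    rw [sg_not, sg_false]
    split_ifs <;> ring
  have h0 : four (oddify f) U =
      ∑ x : ι → Bool, sg (f x) * chi U.eraseNone x +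
        ∑ x : ι → Bool, -(if none ∈ U then (-1 : ℝ) else 1) *
          (sg (f (fun i => !x i)) * chi U.eraseNone x) := by
    unfold four
    rw [← Equiv.sum_comp (Equiv.piOptionEquivProd (β := fun _ : Option ι => Bool)).symm,
      Fintype.sum_prod_type, Fintype.sum_bool]
    simp only [hT, hF]
  rw [h0, ← Finset.mul_sum, four_not_arg]
  unfold four
  ring

lemma four_oddify_empty (f : (ι → Bool) → Bool) : four (oddify f) ∅ = 0 := by
  rw [four_oddify]
  simp

lemma four_oddify_none (f : (ι → Bool) → Bool) : four (oddify f) {none} = 2 * four f ∅ := by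
  rw [four_oddify, Finset.eraseNone_none]
  simp
  norm_num

lemma eraseNone_singleton_some (i : ι) : ({some i} : Finset (Option ι)).eraseNone = {i} := by
  ext j
  simp [Finset.mem_eraseNone]

lemma four_oddify_some (f : (ι → Bool) → Bool) (i : ι) :
    four (oddify f) {some i} = 2 * four f {i} := by
  rw [four_oddify, eraseNone_singleton_some]
  simp
  norm_num

end oddify

section var

/-- **A variance witness suffices.**  Any Boolean `f` of degree at most `D ≥ 1` (balanced or
not) with non-negative mean and singleton coefficients and `W f ^ 2 > D * (1 - mean ^ 2)` proves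
S0085: `oddify f` is a weighted-degree witness with weight `t` on the new variable and
`(1 - t) / D` on the old ones. -/
theorem statement_of_var {ι : Type} [Fintype ι] [DecidableEq ι] (f : (ι → Bool) → Bool)
    (D : ℕ) (hD : 1 ≤ D) (hdeg : DegLE f D) (hnn : ∀ i, 0 ≤ four f {i}) (hmu : 0 ≤ four f ∅)
    (hvar : (D : ℝ) * (1 - (four f ∅ / 2 ^ Fintype.card ι) ^ 2) < W f ^ 2) (C : ℝ) :
    ∃ n : ℕ, ∃ f : (Fin n → Bool) → Bool, ∃ d : ℕ,
      (∃ x y, f x ≠ f y) ∧
      (∀ S : Finset (Fin n), d < S.card →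
        ∑ x : Fin n → Bool, ((if f x then (1 : ℝ) else -1) * ∏ i ∈ S, (if x i then (1 : ℝ) else -1)) = 0) ∧
      C * Real.sqrt d <
        ∑ i : Fin n, (∑ x : Fin n → Bool, ((if f x then (1 : ℝ) else -1) * (if x i then (1 : ℝ) else -1))) / 2 ^ n := by
  have h2N : (0 : ℝ) < 2 ^ Fintype.card ι := by positivity
  have hDR : (1 : ℝ) ≤ D := by exact_mod_cast hD
  have hμ0 : 0 ≤ four f ∅ / 2 ^ Fintype.card ι := div_nonneg hmu h2N.le
  have hμ1 : four f ∅ / 2 ^ Fintype.card ι ≤ 1 := by
    rw [div_le_one h2N]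
    unfold four
    calc ∑ x : ι → Bool, sg (f x) * chi ∅ x ≤ ∑ x : ι → Bool, (1 : ℝ) := by
          refine Finset.sum_le_sum fun x _ => ?_
          unfold chi
          rw [Finset.prod_empty, mul_one]
          unfold sg; split_ifs <;> norm_num
      _ = 2 ^ Fintype.card ι := by simp
  have hw0 : 0 ≤ W f := by
    unfold W
    exact Finset.sum_nonneg fun i _ => div_nonneg (hnn i) (by positivity)
  generalize hμ : four f ∅ / 2 ^ Fintype.card ι = μ at hvar hμ0 hμ1
  generalize hw : W f = w at hvar hw0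
  have hw2 : 0 < w ^ 2 := by
    have : 0 ≤ (D : ℝ) * (1 - μ ^ 2) := mul_nonneg (by linarith) (by nlinarith)
    linarith
  have hwpos : 0 < w := by
    rcases hw0.lt_or_eq with h | h
    · exact h
    · rw [← h] at hw2; simp at hw2
  -- the reduction to a choice of `t`, `a ≤ sqrt t`, `b ≤ sqrt ((1 - t) / D)`
  have key : ∀ (t a b : ℝ), 0 < t → t < 1 → a ^ 2 ≤ t → b ^ 2 ≤ (1 - t) / D →
      1 < μ * a + w * b →
      ∃ n : ℕ, ∃ f : (Fin n → Bool) → Bool, ∃ d : ℕ,
        (∃ x y, f x ≠ f y) ∧
        (∀ S : Finset (Fin n), d < S.card →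
          ∑ x : Fin n → Bool, ((if f x then (1 : ℝ) else -1) * ∏ i ∈ S, (if x i then (1 : ℝ) else -1)) = 0) ∧
        C * Real.sqrt d <
          ∑ i : Fin n, (∑ x : Fin n → Bool, ((if f x then (1 : ℝ) else -1) * (if x i then (1 : ℝ) else -1))) / 2 ^ n := by
    intro t a b ht0 ht1 ha hb hval
    refine statement_of_val (oddify f) (four_oddify_empty f) ?_
      (fun u => Option.elim u t (fun _ => (1 - t) / D))
      (fun u => Option.elim u a (fun _ => b)) ?_ ?_ ?_ ?_ ?_ C
    · intro u
      cases u with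
      | none => rw [four_oddify_none]; linarith
      | some i => rw [four_oddify_some]; have := hnn i; linarith
    · intro u
      cases u with
      | none => simpa using ht0
      | some i =>
        simp only [Option.elim_some]
        exact div_pos (by linarith) (by linarith)
    · intro u
      cases u with
      | none => simpa using ht1
      | some i =>
        simp only [Option.elim_some]
        rw [div_lt_one (by linarith)]
        linarith
    · intro u
      cases u with
      | none => simpa using ha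
      | some i => simpa using hb
    · intro U hU
      rw [four_oddify] at hU
      have hT : four f U.eraseNone ≠ 0 := fun h => hU (by rw [h, mul_zero])
      have hcard : U.eraseNone.card ≤ D := by
        by_contra hc
        exact hT (hdeg _ (not_le.mp hc))
      have hsum : ∑ u ∈ U, Option.elim u t (fun _ => (1 - t) / (D : ℝ)) =
          (if none ∈ U then t else 0) + U.eraseNone.card * ((1 - t) / D) := by
        have h1 : ∑ u ∈ U, Option.elim u t (fun _ => (1 - t) / (D : ℝ)) =
            ∑ u : Option ι,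
              (if u ∈ U then Option.elim u t (fun _ => (1 - t) / (D : ℝ)) else 0) := by
          rw [Finset.sum_ite_mem, Finset.univ_inter]
        rw [h1, Fintype.sum_option]
        congr 1
        simp only [Option.elim_some, ← Finset.mem_eraseNone]
        rw [Finset.sum_ite_mem, Finset.univ_inter, Finset.sum_const, nsmul_eq_mul]
      rw [hsum]
      have h3 : (U.eraseNone.card : ℝ) * ((1 - t) / D) ≤ D * ((1 - t) / D) :=
        mul_le_mul_of_nonneg_right (by exact_mod_cast hcard)
          (div_nonneg (by linarith) (by linarith))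
      have h4 : (D : ℝ) * ((1 - t) / D) = 1 - t := by field_simp
      have h5 : (if none ∈ U then t else 0) ≤ t := by split_ifs <;> linarith
      linarith
    · rw [Fintype.sum_option, Fintype.card_option]
      simp only [Option.elim_none, Option.elim_some, four_oddify_none, four_oddify_some]
      have h6 : 2 * four f ∅ / 2 ^ (Fintype.card ι + 1) * a = μ * a := by
        rw [← hμ, pow_succ]; field_simp
      have h7 : ∑ i : ι, 2 * four f {i} / 2 ^ (Fintype.card ι + 1) * b = w * b := by
        rw [← hw]; unfold W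
        rw [Finset.sum_mul]
        refine Finset.sum_congr rfl fun i _ => ?_
        rw [pow_succ]; field_simp
      rw [h6, h7]; exact hval
  -- the choice of `t`, `a`, `b`
  have hBq0 : 0 < w ^ 2 / D := div_pos hw2 (by linarith)
  have hAB : 1 < μ ^ 2 + w ^ 2 / D := by
    have : 1 - μ ^ 2 < w ^ 2 / D := by
      rw [lt_div_iff₀ (by linarith)]; linarith
    linarith
  generalize hBq : w ^ 2 / (D : ℝ) = Bq at hBq0 hAB
  rcases hμ0.lt_or_eq with hμpos | hμzero
  · have hApos : 0 < μ ^ 2 := by positivity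
    have hr2 : Real.sqrt (μ ^ 2 + Bq) ^ 2 = μ ^ 2 + Bq := Real.sq_sqrt (by linarith)
    have hr1 : 1 < Real.sqrt (μ ^ 2 + Bq) := by
      rw [Real.lt_sqrt (by norm_num)]; simpa using hAB
    generalize Real.sqrt (μ ^ 2 + Bq) = r at hr2 hr1
    have hrpos : 0 < r := by linarith
    apply key (μ ^ 2 / (μ ^ 2 + Bq)) (μ / r) (w / (D * r))
    · exact div_pos hApos (by linarith)
    · rw [div_lt_one (by linarith)]; linarith
    · rw [div_pow, hr2]
    · have h8 : (1 - μ ^ 2 / (μ ^ 2 + Bq)) / D = Bq / ((μ ^ 2 + Bq) * D) := by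
        field_simp; ring
      rw [h8, div_pow, mul_pow, hr2, ← hBq]
      apply le_of_eq
      field_simp
    · have h9 : μ * (μ / r) + w * (w / (D * r)) = (μ ^ 2 + Bq) / r := by
        rw [← hBq]; field_simp
      rw [h9, ← hr2]
      have : r ^ 2 / r = r := by field_simp
      rw [this]; exact hr1
  · have hBq1 : 1 < Bq := by
      have : μ ^ 2 = 0 := by rw [← hμzero]; ring
      linarith
    have hinv1 : 1 / Bq < 1 := by rw [div_lt_one hBq0]; exact hBq1
    have hinv0 : 0 < 1 / Bq := by positivity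
    apply key ((1 - 1 / Bq) / 2) 0 (Real.sqrt ((1 - (1 - 1 / Bq) / 2) / D))
    · linarith
    · linarith
    · have : (0 : ℝ) ^ 2 = 0 := by norm_num
      rw [this]; linarith
    · rw [Real.sq_sqrt]
      exact div_nonneg (by linarith) (by linarith)
    · rw [← hμzero, zero_mul, zero_add]
      have h10 : 1 / w < Real.sqrt ((1 - (1 - 1 / Bq) / 2) / D) := by
        rw [Real.lt_sqrt (by positivity)]
        have h11 : (1 / w) ^ 2 = 1 / Bq / D := by rw [← hBq]; field_simp
        rw [h11]
        apply div_lt_div_of_pos_right _ (by linarith)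
        linarith
      calc (1 : ℝ) = w * (1 / w) := by field_simp
        _ < w * Real.sqrt ((1 - (1 - 1 / Bq) / 2) / D) := mul_lt_mul_of_pos_left h10 hwpos

/-- **A variance certificate on a coefficient tree proves S0085.** -/
theorem statement_of_var_check (n d m : ℕ) (hd : 1 ≤ d)
    (h1 : chk n d (wht n (mk n m)) = true)
    (h2 : 0 ≤ c0 n (wht n (mk n m)))
    (h3 : nn1 n (wht n (mk n m)) = true)
    (h4 : (d : ℤ) * (4 ^ n - c0 n (wht n (mk n m)) ^ 2) < lvl1 n (wht n (mk n m)) ^ 2)
    (C : ℝ) :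
    ∃ n : ℕ, ∃ f : (Fin n → Bool) → Bool, ∃ d : ℕ,
      (∃ x y, f x ≠ f y) ∧
      (∀ S : Finset (Fin n), d < S.card →
        ∑ x : Fin n → Bool, ((if f x then (1 : ℝ) else -1) * ∏ i ∈ S, (if x i then (1 : ℝ) else -1)) = 0) ∧
      C * Real.sqrt d <
        ∑ i : Fin n, (∑ x : Fin n → Bool, ((if f x then (1 : ℝ) else -1) * (if x i then (1 : ℝ) else -1))) / 2 ^ n := by
  refine statement_of_var (gfun n m) d hd ?_ ?_ ?_ ?_ C
  · intro S hS
    rw [four_gfun, coef_chk n d _ h1 S hS]
    simp
  · intro i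
    rw [four_gfun]
    exact_mod_cast coef_nn1 n _ h3 i
  · rw [four_gfun, coef_empty]
    exact_mod_cast h2
  · have hW : W (gfun n m) = ((lvl1 n (wht n (mk n m)) : ℤ) : ℝ) / 2 ^ n := by
      unfold W
      rw [Fintype.card_fin, ← Finset.sum_div, ← sum_coef_singleton]
      push_cast
      congr 1
      refine Finset.sum_congr rfl fun i _ => ?_
      rw [four_gfun]
    rw [hW, four_gfun, coef_empty, Fintype.card_fin]
    have h5 : (((d : ℤ) * (4 ^ n - c0 n (wht n (mk n m)) ^ 2) : ℤ) : ℝ) <
        ((lvl1 n (wht n (mk n m)) ^ 2 : ℤ) : ℝ) := by exact_mod_cast h4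
    push_cast at h5
    have h4n : ((2 : ℝ) ^ n) ^ 2 = 4 ^ n := by
      rw [← pow_mul, mul_comm, pow_mul]; norm_num
    rw [div_pow, div_pow, h4n, lt_div_iff₀ (by positivity)]
    have h6 : (d : ℝ) * (1 - ((c0 n (wht n (mk n m)) : ℤ) : ℝ) ^ 2 / 4 ^ n) * 4 ^ n =
        (d : ℝ) * (4 ^ n - ((c0 n (wht n (mk n m)) : ℤ) : ℝ) ^ 2) := by
      field_simp
    rw [h6]
    exact h5

/-- soundness of the variance checks on the packed transform -/
theorem statement_of_var_packed (n d m : ℕ) (hd : 1 ≤ d)
    (h1 : chkP (2 ^ (n + 2)) (2 ^ n) n d (whtP (2 ^ (n + 2)) n m) = true)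
    (h2 : 0 ≤ c0P (2 ^ (n + 2)) (2 ^ n) n (whtP (2 ^ (n + 2)) n m))
    (h3 : nn1P (2 ^ (n + 2)) (2 ^ n) n (whtP (2 ^ (n + 2)) n m) = true)
    (h4 : (d : ℤ) * (4 ^ n - c0P (2 ^ (n + 2)) (2 ^ n) n (whtP (2 ^ (n + 2)) n m) ^ 2) <
      lvl1P (2 ^ (n + 2)) (2 ^ n) n (whtP (2 ^ (n + 2)) n m) ^ 2) (C : ℝ) :
    ∃ n : ℕ, ∃ f : (Fin n → Bool) → Bool, ∃ d : ℕ,
      (∃ x y, f x ≠ f y) ∧
      (∀ S : Finset (Fin n), d < S.card →
        ∑ x : Fin n → Bool, ((if f x then (1 : ℝ) else -1) * ∏ i ∈ S, (if x i then (1 : ℝ) else -1)) = 0) ∧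
      C * Real.sqrt d <
        ∑ i : Fin n, (∑ x : Fin n → Bool, ((if f x then (1 : ℝ) else -1) * (if x i then (1 : ℝ) else -1))) / 2 ^ n := by
  obtain ⟨hV, hbd⟩ := whtP_spec n m
  have hB2 : 2 ≤ 2 ^ (n + 2) := by
    have : 2 ^ 1 ≤ 2 ^ (n + 2) := Nat.pow_le_pow_right (by norm_num) (by omega)
    simpa using this
  have hoB : 2 ^ n < 2 ^ (n + 2) := Nat.pow_lt_pow_right (by norm_num) (by omega)
  refine statement_of_var_check n d m hd (chkP_sound _ _ hB2 hoB n d _ _ hbd hV h1) ?_ ?_ ?_ C
  · rw [← c0P_sound _ _ n _ _ hbd hV]; exact h2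
  · rw [← nn1P_sound _ _ n _ _ hbd hV]; exact h3
  · rw [← c0P_sound _ _ n _ _ hbd hV, ← lvl1P_sound _ _ n _ _ hbd hV]; exact h4

/-- the variance certificate for a truth table `m` on `n` variables and a degree bound `d`
(generic packed transform; any `n`): `1 ≤ d`, degree at most `d`, mean and singleton coefficients
non-negative, and `d * (4 ^ n - c0 ^ 2) < (sum of the singleton coefficients) ^ 2`. -/
def certifyVarR (n d m : ℕ) : Bool :=
  (fun (V : ℕ) =>
    Nat.ble 1 d &&
      (chkR (2 ^ (n + 2)) (2 ^ n) n d V &&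
        (decide (0 ≤ c0P (2 ^ (n + 2)) (2 ^ n) n V) &&
          (nn1P (2 ^ (n + 2)) (2 ^ n) n V &&
            decide ((d : ℤ) * (4 ^ n - c0P (2 ^ (n + 2)) (2 ^ n) n V ^ 2) <
              lvl1P (2 ^ (n + 2)) (2 ^ n) n V ^ 2)))))
    (whtR (2 ^ (n + 2)) n m)

/-- the same for `k + 3` variables with the table-based transform of `Table.lean` (fastest) -/
def certifyVar (k d m : ℕ) : Bool :=
  (fun (V : ℕ) =>
    Nat.ble 1 d &&
      (chkU (2 ^ (k + 3 + 2)) (2 ^ (k + 3)) (k + 3) d V &&
        (decide (0 ≤ c0P (2 ^ (k + 3 + 2)) (2 ^ (k + 3)) (k + 3) V) &&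
          (nn1P (2 ^ (k + 3 + 2)) (2 ^ (k + 3)) (k + 3) V &&
            decide ((d : ℤ) * (4 ^ (k + 3) - c0P (2 ^ (k + 3 + 2)) (2 ^ (k + 3)) (k + 3) V ^ 2) <
              lvl1P (2 ^ (k + 3 + 2)) (2 ^ (k + 3)) (k + 3) V ^ 2)))))
    (whtU (2 ^ (k + 3 + 2)) k m)

/-- **A certified variance witness proves S0085** (any number of variables):
`statement_of_certifyVarR N d M (by decide +kernel) C`. -/
theorem statement_of_certifyVarR (n d m : ℕ) (h : certifyVarR n d m = true) (C : ℝ) :
    ∃ n : ℕ, ∃ f : (Fin n → Bool) → Bool, ∃ d : ℕ,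
      (∃ x y, f x ≠ f y) ∧
      (∀ S : Finset (Fin n), d < S.card →
        ∑ x : Fin n → Bool, ((if f x then (1 : ℝ) else -1) * ∏ i ∈ S, (if x i then (1 : ℝ) else -1)) = 0) ∧
      C * Real.sqrt d <
        ∑ i : Fin n, (∑ x : Fin n → Bool, ((if f x then (1 : ℝ) else -1) * (if x i then (1 : ℝ) else -1))) / 2 ^ n := by
  have h' : (Nat.ble 1 d &&
      (chkR (2 ^ (n + 2)) (2 ^ n) n d (whtR (2 ^ (n + 2)) n m) &&
        (decide (0 ≤ c0P (2 ^ (n + 2)) (2 ^ n) n (whtR (2 ^ (n + 2)) n m)) &&
          (nn1P (2 ^ (n + 2)) (2 ^ n) n (whtR (2 ^ (n + 2)) n m) &&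
            decide ((d : ℤ) * (4 ^ n - c0P (2 ^ (n + 2)) (2 ^ n) n (whtR (2 ^ (n + 2)) n m) ^ 2) <
              lvl1P (2 ^ (n + 2)) (2 ^ n) n (whtR (2 ^ (n + 2)) n m) ^ 2))))) = true := h
  rw [whtR_eq, chkR_eq] at h'
  simp only [Bool.and_eq_true, decide_eq_true_eq] at h'
  obtain ⟨h0, h1, h2, h3, h4⟩ := h'
  exact statement_of_var_packed n d m (Nat.le_of_ble_eq_true h0) h1 h2 h3 h4 C

/-- **A certified variance witness on `k + 3` variables proves S0085** (fastest):
`statement_of_certifyVar (N - 3) d M (by decide +kernel) C`. -/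
theorem statement_of_certifyVar (k d m : ℕ) (h : certifyVar k d m = true) (C : ℝ) :
    ∃ n : ℕ, ∃ f : (Fin n → Bool) → Bool, ∃ d : ℕ,
      (∃ x y, f x ≠ f y) ∧
      (∀ S : Finset (Fin n), d < S.card →
        ∑ x : Fin n → Bool, ((if f x then (1 : ℝ) else -1) * ∏ i ∈ S, (if x i then (1 : ℝ) else -1)) = 0) ∧
      C * Real.sqrt d <
        ∑ i : Fin n, (∑ x : Fin n → Bool, ((if f x then (1 : ℝ) else -1) * (if x i then (1 : ℝ) else -1))) / 2 ^ n := by
  have hB : 16 < 2 ^ (k + 3 + 2) := by
    have : 2 ^ 5 ≤ 2 ^ (k + 3 + 2) := Nat.pow_le_pow_right (by norm_num) (by omega)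
    omega
  have h' : (Nat.ble 1 d &&
      (chkU (2 ^ (k + 3 + 2)) (2 ^ (k + 3)) (k + 3) d (whtU (2 ^ (k + 3 + 2)) k m) &&
        (decide (0 ≤ c0P (2 ^ (k + 3 + 2)) (2 ^ (k + 3)) (k + 3) (whtU (2 ^ (k + 3 + 2)) k m)) &&
          (nn1P (2 ^ (k + 3 + 2)) (2 ^ (k + 3)) (k + 3) (whtU (2 ^ (k + 3 + 2)) k m) &&
            decide ((d : ℤ) * (4 ^ (k + 3) -
                c0P (2 ^ (k + 3 + 2)) (2 ^ (k + 3)) (k + 3) (whtU (2 ^ (k + 3 + 2)) k m) ^ 2) <
              lvl1P (2 ^ (k + 3 + 2)) (2 ^ (k + 3)) (k + 3)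
                (whtU (2 ^ (k + 3 + 2)) k m) ^ 2))))) = true := h
  rw [whtU_eq, whtT_eq _ hB] at h'
  simp only [Bool.and_eq_true, decide_eq_true_eq] at h'
  obtain ⟨h0, h1, h2, h3, h4⟩ := h'
  exact statement_of_var_packed (k + 3) d m (Nat.le_of_ble_eq_true h0)
    (chkU_sound _ _ _ _ _ h1) h2 h3 h4 C

end var

end Crest.Agent.GS
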