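import Crest.Agent.GS.Bitpar
import Crest.Agent.GS.Val

/-!
# The variance certificate on the bit-parallel transform

`certifyVarW n d m` is `certifyVarR n d m` of `Val.lean` (helper90's variance criterion: any
Boolean function with `1 ≤ d`, degree at most `d`, non-negative mean and singleton coefficients and
`d * (4 ^ n - c0 ^ 2) < (sum of the singleton coefficients) ^ 2`) computed with the bit-parallel
transform `whtW` and the mask degree test of `Bitpar.lean`.

  theorem result (C : ℝ) (hC : 0 < C) : ... :=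
    Crest.Agent.GS.BP.statement_of_certifyVarW N d M (by decide +kernel) C
-/

set_option autoImplicit false

namespace Crest.Agent.GS.BP

/-- the variance certificate for a truth table `m` on `n` variables and a degree bound `d` -/
def certifyVarW (n d m : ℕ) : Bool :=
  (fun (V : ℕ) =>
    Nat.ble 1 d &&
      ((V &&& hm (n + 2) n d == ht (n + 2) (2 ^ n) n d) &&
        (decide (0 ≤ c0P (2 ^ (n + 2)) (2 ^ n) n V) &&
          (nn1P (2 ^ (n + 2)) (2 ^ n) n V &&
            decide ((d : ℤ) * (4 ^ n - c0P (2 ^ (n + 2)) (2 ^ n) n V ^ 2) <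
              lvl1P (2 ^ (n + 2)) (2 ^ n) n V ^ 2)))))
    (whtW n m)

/-- **A certified variance witness proves S0085** (bit-parallel certificate, any number of
variables). -/
theorem statement_of_certifyVarW (n d m : ℕ) (h : certifyVarW n d m = true) (C : ℝ) :
    ∃ n : ℕ, ∃ f : (Fin n → Bool) → Bool, ∃ d : ℕ,
      (∃ x y, f x ≠ f y) ∧
      (∀ S : Finset (Fin n), d < S.card →
        ∑ x : Fin n → Bool, ((if f x then (1 : ℝ) else -1) * ∏ i ∈ S, (if x i then (1 : ℝ) else -1)) = 0) ∧
      C * Real.sqrt d <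
        ∑ i : Fin n, (∑ x : Fin n → Bool, ((if f x then (1 : ℝ) else -1) * (if x i then (1 : ℝ) else -1))) / 2 ^ n := by
  have h' : (Nat.ble 1 d &&
      ((whtW n m &&& hm (n + 2) n d == ht (n + 2) (2 ^ n) n d) &&
        (decide (0 ≤ c0P (2 ^ (n + 2)) (2 ^ n) n (whtW n m)) &&
          (nn1P (2 ^ (n + 2)) (2 ^ n) n (whtW n m) &&
            decide ((d : ℤ) * (4 ^ n - c0P (2 ^ (n + 2)) (2 ^ n) n (whtW n m) ^ 2) <
              lvl1P (2 ^ (n + 2)) (2 ^ n) n (whtW n m) ^ 2))))) = true := h
  rw [whtW_eq] at h'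
  simp only [Bool.and_eq_true, decide_eq_true_eq, beq_iff_eq] at h'
  obtain ⟨h0, h1, h2, h3, h4⟩ := h'
  have hlt : whtP (2 ^ (n + 2)) n m < T (n + 2) n :=
    whtP_lt (2 ^ (n + 2)) (two_le_pow _ (by omega)) n m
      (Nat.pow_lt_pow_right (by norm_num) (by omega))
  have ho : 2 ^ n < 2 ^ (n + 2) := Nat.pow_lt_pow_right (by norm_num) (by omega)
  exact statement_of_var_packed n d m (Nat.le_of_ble_eq_true h0)
    (chkW_sound (n + 2) (2 ^ n) (by omega) ho n d _ hlt h1) h2 h3 h4 C

end Crest.Agent.GS.BP
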