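import Crest.Agent.GS.Val
import Crest.Agent.GS.Biased

/-!
# Sign-free variance criterion and open chains for S0085

* `statement_of_var_abs`: ANY Boolean `f` of degree at most `D ≥ 1` with
  `W f ^ 2 > D * (1 - mean ^ 2)` proves S0085 — no sign condition on the mean or on the singleton
  coefficients (inputs with a negative coefficient are flipped, and `f` is replaced by its dual
  if the mean is negative; then `statement_of_var` of `Val.lean` applies).
* `statement_of_goodB`: the same for the end of a chain tracked by `GoodB d w a`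
  (`Biased.lean`: a function of degree at most `d` with level-one sum `w` and mean `a`), with the
  open step `goodB_step_open` (`comp G f` has mean `qmean G a` and level-one sum `qder G a * w`).
* `certifyChain` / `statement_of_certifyChain`: a kernel certificate for a chain of gates
  `G_T ∘ ... ∘ G_1` given by truth tables: the means and level-one sums are propagated exactly
  (rational numbers), and the final test is `D * (1 - a ^ 2) < w ^ 2` with `D = ∏ d_t`.

Helper module only; nothing here is a statement file.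
-/

set_option autoImplicit false
set_option linter.unusedSectionVars false

namespace Crest.Agent.GS

open Finset

section signs

variable {ι : Type*} [Fintype ι] [DecidableEq ι]

lemma sg_xor (a b : Bool) : sg (xor a b) = -sg a * sg b := by
  cases a <;> cases b <;> simp [sg]

/-- flip the inputs `i` with `m i = true` -/
def flipIn (m : ι → Bool) (f : (ι → Bool) → Bool) : (ι → Bool) → Bool :=
  fun x => f (fun i => xor (m i) (x i))

lemma four_flipIn (m : ι → Bool) (f : (ι → Bool) → Bool) (S : Finset ι) :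
    four (flipIn m f) S = (∏ i ∈ S, -sg (m i)) * four f S := by
  let e : (ι → Bool) ≃ (ι → Bool) :=
    ⟨fun x i => xor (m i) (x i), fun x i => xor (m i) (x i),
      fun x => by
        funext i
        show xor (m i) (xor (m i) (x i)) = x i
        cases m i <;> cases x i <;> rfl,
      fun x => by
        funext i
        show xor (m i) (xor (m i) (x i)) = x i
        cases m i <;> cases x i <;> rfl⟩
  unfold four
  rw [← Equiv.sum_comp e, Finset.mul_sum]
  refine Finset.sum_congr rfl fun x _ => ?_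
  have h1 : flipIn m f (e x) = f x := by
    unfold flipIn
    congr 1
    funext i
    show xor (m i) (xor (m i) (x i)) = x i
    cases m i <;> cases x i <;> rfl
  have h2 : chi S (e x) = (∏ i ∈ S, -sg (m i)) * chi S x := by
    unfold chi
    rw [← Finset.prod_mul_distrib]
    refine Finset.prod_congr rfl fun i _ => ?_
    show sg (xor (m i) (x i)) = -sg (m i) * sg (x i)
    exact sg_xor _ _
  rw [h1, h2]
  ring

lemma four_flipIn_empty (m : ι → Bool) (f : (ι → Bool) → Bool) :
    four (flipIn m f) ∅ = four f ∅ := by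
  rw [four_flipIn]; simp

lemma four_flipIn_singleton (m : ι → Bool) (f : (ι → Bool) → Bool) (i : ι) :
    four (flipIn m f) {i} = -sg (m i) * four f {i} := by
  rw [four_flipIn]; simp

lemma degLE_flipIn (m : ι → Bool) {f : (ι → Bool) → Bool} {d : ℕ} (hf : DegLE f d) :
    DegLE (flipIn m f) d := by
  intro S hS
  rw [four_flipIn, hf S hS, mul_zero]

/-- the dual function `x ↦ ¬ f (¬ x)` -/
def dual (f : (ι → Bool) → Bool) : (ι → Bool) → Bool := fun x => !f (fun i => !x i)

lemma four_dual (f : (ι → Bool) → Bool) (S : Finset ι) :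
    four (dual f) S = -((-1) ^ S.card * four f S) := by
  have h := four_not_arg f S
  have h2 : four (dual f) S = ∑ x : ι → Bool, -(sg (f (fun i => !x i)) * chi S x) := by
    unfold four dual
    simp only [sg_not, neg_mul]
  rw [h2, Finset.sum_neg_distrib, h]

lemma four_dual_empty (f : (ι → Bool) → Bool) : four (dual f) ∅ = -four f ∅ := by
  rw [four_dual]; simp

lemma four_dual_singleton (f : (ι → Bool) → Bool) (i : ι) : four (dual f) {i} = four f {i} := by
  rw [four_dual]; simp

lemma degLE_dual {f : (ι → Bool) → Bool} {d : ℕ} (hf : DegLE f d) : DegLE (dual f) d := by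
  intro S hS
  rw [four_dual, hf S hS, mul_zero, neg_zero]

end signs

section varabs

/-- **The variance criterion without sign conditions.**  Any Boolean `f` of degree at most
`D ≥ 1` with `W f ^ 2 > D * (1 - mean ^ 2)` proves S0085. -/
theorem statement_of_var_abs {ι : Type} [Fintype ι] [DecidableEq ι] (f : (ι → Bool) → Bool)
    (D : ℕ) (hD : 1 ≤ D) (hdeg : DegLE f D)
    (hvar : (D : ℝ) * (1 - (four f ∅ / 2 ^ Fintype.card ι) ^ 2) < W f ^ 2) (C : ℝ) :
    ∃ n : ℕ, ∃ f : (Fin n → Bool) → Bool, ∃ d : ℕ,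
      (∃ x y, f x ≠ f y) ∧
      (∀ S : Finset (Fin n), d < S.card →
        ∑ x : Fin n → Bool, ((if f x then (1 : ℝ) else -1) * ∏ i ∈ S, (if x i then (1 : ℝ) else -1)) = 0) ∧
      C * Real.sqrt d <
        ∑ i : Fin n, (∑ x : Fin n → Bool, ((if f x then (1 : ℝ) else -1) * (if x i then (1 : ℝ) else -1))) / 2 ^ n := by
  -- flip the inputs with a negative singleton coefficient
  set m : ι → Bool := fun i => decide (four f {i} < 0) with hm
  have habs : ∀ i, four (flipIn m f) {i} = |four f {i}| := by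
    intro i
    rw [four_flipIn_singleton]
    by_cases h : four f {i} < 0
    · have : m i = true := by simp [hm, h]
      rw [this, sg_true, abs_of_neg h]; ring
    · have : m i = false := by simp [hm, h]
      rw [this, sg_false, abs_of_nonneg (not_lt.mp h)]; ring
  have hnn1 : ∀ i, 0 ≤ four (flipIn m f) {i} := fun i => by rw [habs]; exact abs_nonneg _
  have hW1 : |W f| ≤ W (flipIn m f) := by
    unfold W
    calc |∑ i : ι, four f {i} / 2 ^ Fintype.card ι|
        ≤ ∑ i : ι, |four f {i} / 2 ^ Fintype.card ι| := Finset.abs_sum_le_sum_abs _ _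
      _ = ∑ i : ι, four (flipIn m f) {i} / 2 ^ Fintype.card ι := by
          refine Finset.sum_congr rfl fun i _ => ?_
          rw [habs, abs_div, abs_of_pos (by positivity : (0 : ℝ) < 2 ^ Fintype.card ι)]
  have hsq : W f ^ 2 ≤ W (flipIn m f) ^ 2 := by
    rw [← sq_abs (W f)]
    exact pow_le_pow_left₀ (abs_nonneg _) hW1 2
  have hdeg1 : DegLE (flipIn m f) D := degLE_flipIn m hdeg
  have hmean1 : four (flipIn m f) ∅ = four f ∅ := four_flipIn_empty m f
  by_cases hmu : 0 ≤ four f ∅
  · refine statement_of_var (flipIn m f) D hD hdeg1 hnn1 (by rw [hmean1]; exact hmu) ?_ C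
    rw [hmean1]
    linarith
  · have hmu' : four f ∅ < 0 := not_le.mp hmu
    refine statement_of_var (dual (flipIn m f)) D hD (degLE_dual hdeg1) ?_ ?_ ?_ C
    · intro i
      rw [four_dual_singleton]; exact hnn1 i
    · rw [four_dual_empty, hmean1]; linarith
    · have hWd : W (dual (flipIn m f)) = W (flipIn m f) := by
        unfold W
        refine Finset.sum_congr rfl fun i _ => ?_
        rw [four_dual_singleton]
      rw [hWd, four_dual_empty, hmean1]
      have : (-four f ∅ / 2 ^ Fintype.card ι) ^ 2 = (four f ∅ / 2 ^ Fintype.card ι) ^ 2 := by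
        ring
      rw [this]
      linarith

end varabs

section chain

/-- the start of every chain: a dictator (degree `1`, level-one sum `1`, mean `0`) -/
lemma goodB_base : GoodB 1 1 0 := by
  refine ⟨Unit, inferInstance, inferInstance, dict (), degLE_dict () le_rfl, W_dict (), ?_⟩
  unfold mean
  rw [four_dict_empty, zero_div]

/-- one open step of a chain: no fixed point is needed -/
lemma goodB_step_open {e : ℕ} {w a : ℝ} (h : GoodB e w a) {κ : Type} [Fintype κ] [DecidableEq κ]
    (G : (κ → Bool) → Bool) {d : ℕ} (hG : DegLE G d) :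
    GoodB (d * e) (qder G a * w) (qmean G a) := by
  obtain ⟨ι, _, _, f, hf, hW, hm⟩ := h
  refine ⟨κ × ι, inferInstance, inferInstance, comp G f, degLE_comp hG hf, ?_, ?_⟩
  · rw [W_comp_biased, hm, hW]
  · rw [mean_comp, hm]

/-- **The end of a chain.**  A function of degree at most `d ≥ 1` with level-one sum `w` and mean
`a` such that `d * (1 - a ^ 2) < w ^ 2` proves S0085. -/
theorem statement_of_goodB {d : ℕ} {w a : ℝ} (h : GoodB d w a) (hd : 1 ≤ d)
    (hvar : (d : ℝ) * (1 - a ^ 2) < w ^ 2) (C : ℝ) :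
    ∃ n : ℕ, ∃ f : (Fin n → Bool) → Bool, ∃ d : ℕ,
      (∃ x y, f x ≠ f y) ∧
      (∀ S : Finset (Fin n), d < S.card →
        ∑ x : Fin n → Bool, ((if f x then (1 : ℝ) else -1) * ∏ i ∈ S, (if x i then (1 : ℝ) else -1)) = 0) ∧
      C * Real.sqrt d <
        ∑ i : Fin n, (∑ x : Fin n → Bool, ((if f x then (1 : ℝ) else -1) * (if x i then (1 : ℝ) else -1))) / 2 ^ n := by
  obtain ⟨ι, hF, hDe, f, hf, hW, hm⟩ := h
  refine statement_of_var_abs f d hd hf ?_ C
  unfold mean at hm
  rw [hW, hm]
  exact hvar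

/-- evaluation of a chain of gates `(n, d, M)` (number of variables, degree bound, truth table;
the FIRST gate of the list is the innermost one).  State: mean `A / B`, level-one sum `P / Q`,
degree bound `D`. -/
def chainEval : List (ℕ × ℕ × ℕ) → ℤ → ℤ → ℤ → ℤ → ℕ → Bool
  | [], A, B, P, Q, D => decide ((D : ℤ) * (B ^ 2 - A ^ 2) * Q ^ 2 < P ^ 2 * B ^ 2)
  | g :: gs, A, B, P, Q, D =>
      Nat.ble 1 g.2.1 && (chk g.1 g.2.1 (wht g.1 (mk g.1 g.2.2)) &&
        chainEval gs (evalq g.1 (wht g.1 (mk g.1 g.2.2)) A B) (2 ^ g.1 * B ^ g.1)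
          (devalq g.1 (wht g.1 (mk g.1 g.2.2)) A B * B * P) (2 ^ g.1 * B ^ g.1 * Q) (g.2.1 * D))

/-- the chain certificate: start from uniform inputs -/
def certifyChain (gs : List (ℕ × ℕ × ℕ)) : Bool := chainEval gs 0 1 1 1 1

theorem statement_of_chainEval (C : ℝ) : ∀ (gs : List (ℕ × ℕ × ℕ)) (A B P Q : ℤ) (D : ℕ),
    0 < B → 0 < Q → 1 ≤ D → GoodB D ((P : ℝ) / Q) ((A : ℝ) / B) →
    chainEval gs A B P Q D = true →
    ∃ n : ℕ, ∃ f : (Fin n → Bool) → Bool, ∃ d : ℕ,
      (∃ x y, f x ≠ f y) ∧
      (∀ S : Finset (Fin n), d < S.card →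
        ∑ x : Fin n → Bool, ((if f x then (1 : ℝ) else -1) * ∏ i ∈ S, (if x i then (1 : ℝ) else -1)) = 0) ∧
      C * Real.sqrt d <
        ∑ i : Fin n, (∑ x : Fin n → Bool, ((if f x then (1 : ℝ) else -1) * (if x i then (1 : ℝ) else -1))) / 2 ^ n
  | [], A, B, P, Q, D, hB, hQ, hD, hgood, h => by
    have h' : (D : ℤ) * (B ^ 2 - A ^ 2) * Q ^ 2 < P ^ 2 * B ^ 2 := of_decide_eq_true h
    have hBR : (0 : ℝ) < B := by exact_mod_cast hB
    have hQR : (0 : ℝ) < Q := by exact_mod_cast hQ
    refine statement_of_goodB hgood hD ?_ C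
    have h'' : (((D : ℤ) * (B ^ 2 - A ^ 2) * Q ^ 2 : ℤ) : ℝ) < ((P ^ 2 * B ^ 2 : ℤ) : ℝ) := by
      exact_mod_cast h'
    push_cast at h''
    rw [div_pow, div_pow, lt_div_iff₀ (by positivity)]
    have e : (D : ℝ) * (1 - (A : ℝ) ^ 2 / (B : ℝ) ^ 2) * (Q : ℝ) ^ 2 =
        (D : ℝ) * ((B : ℝ) ^ 2 - (A : ℝ) ^ 2) * (Q : ℝ) ^ 2 / (B : ℝ) ^ 2 := by
      field_simp
    rw [e, div_lt_iff₀ (by positivity)]
    exact h''
  | g :: gs, A, B, P, Q, D, hB, hQ, hD, hgood, h => by
    obtain ⟨n, d, M⟩ := g
    simp only [chainEval, Bool.and_eq_true] at h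
    obtain ⟨h1, h2, h3⟩ := h
    have hd : 1 ≤ d := Nat.le_of_ble_eq_true h1
    have hBR : ((B : ℤ) : ℝ) ≠ 0 := by
      have : (0 : ℝ) < B := by exact_mod_cast hB
      exact ne_of_gt this
    have hQR : ((Q : ℤ) : ℝ) ≠ 0 := by
      have : (0 : ℝ) < Q := by exact_mod_cast hQ
      exact ne_of_gt this
    have hG : DegLE (gfun n M) d := by
      intro S hS
      rw [four_gfun, coef_chk n d _ h2 S hS]
      simp
    have hstep := goodB_step_open hgood (gfun n M) hG
    have hmean : qmean (gfun n M) ((A : ℝ) / B) =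
        ((evalq n (wht n (mk n M)) A B : ℤ) : ℝ) / ((2 ^ n * B ^ n : ℤ) : ℝ) := by
      rw [← qmean_gfun n M A B hBR]
      push_cast
      field_simp
    have hder : qder (gfun n M) ((A : ℝ) / B) * ((P : ℝ) / Q) =
        ((devalq n (wht n (mk n M)) A B * B * P : ℤ) : ℝ) / ((2 ^ n * B ^ n * Q : ℤ) : ℝ) := by
      have h4 := qder_gfun n M A B hBR
      push_cast
      rw [← h4]
      field_simp
    rw [hmean, hder] at hstep
    refine statement_of_chainEval C gs _ _ _ _ _ ?_ ?_ ?_ hstep h3
    · positivity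
    · positivity
    · exact Nat.mul_pos hd hD

/-- **A certified chain proves S0085**:
`statement_of_certifyChain [(n₁, d₁, M₁), ..., (n_T, d_T, M_T)] (by decide +kernel) C`
(innermost gate first; each `M_t` a truth table as in `Check.lean`). -/
theorem statement_of_certifyChain (gs : List (ℕ × ℕ × ℕ)) (h : certifyChain gs = true) (C : ℝ) :
    ∃ n : ℕ, ∃ f : (Fin n → Bool) → Bool, ∃ d : ℕ,
      (∃ x y, f x ≠ f y) ∧
      (∀ S : Finset (Fin n), d < S.card →
        ∑ x : Fin n → Bool, ((if f x then (1 : ℝ) else -1) * ∏ i ∈ S, (if x i then (1 : ℝ) else -1)) = 0) ∧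
      C * Real.sqrt d <
        ∑ i : Fin n, (∑ x : Fin n → Bool, ((if f x then (1 : ℝ) else -1) * (if x i then (1 : ℝ) else -1))) / 2 ^ n := by
  refine statement_of_chainEval C gs 0 1 1 1 1 (by norm_num) (by norm_num) le_rfl ?_ h
  have : GoodB 1 ((((1 : ℤ) : ℝ)) / ((1 : ℤ) : ℝ)) ((((0 : ℤ) : ℝ)) / ((1 : ℤ) : ℝ)) := by
    simpa using goodB_base
  exact this

end chain

end Crest.Agent.GS
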