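import Crest.Agent.GS.Compose

/-!
# A kernel-checkable certificate for a gadget (S0085)

A Boolean function on `Fin n → Bool` is given by a truth table packed into one natural number.
`mk n m` unpacks it into a complete binary tree with leaves `±1`, `wht` is the Walsh–Hadamard
transform on such trees, and `chk`, `c0`, `lvl1` read off the degree bound, the empty coefficient
and the sum of the singleton coefficients.  The soundness lemmas connect these with `four`.

Usage (once a gadget is known): with `N` variables, degree bound `d` and truth table `M`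
(bit `j` of `M` = value at the point whose coordinate `i` is bit `N-1-i` of `j`; any consistent
bit order or sign convention gives an equivalent certificate),

  theorem result (C : ℝ) (hC : 0 < C) : ... :=
    Crest.Agent.GS.statement_of_certify N d M (by decide +kernel) C

(`Crest.Agent.GS.statement_of_certifyR` in `Fast.lean` is the same with a packed big-number
transform, about fifteen times faster in the kernel: prefer it for `N ≥ 14`.)

The certificate `certify N d M = true` says: all coefficients above level `d` vanish, the empty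
coefficient vanishes, and `d * 4 ^ N < (sum of the unnormalised singleton coefficients) ^ 2`.
-/

set_option autoImplicit false
set_option linter.unusedSectionVars false

namespace Crest.Agent.GS

open Finset

/-- complete binary trees of depth `n` with integer leaves -/
def Tr : ℕ → Type
  | 0 => ℤ
  | n + 1 => Tr n × Tr n

/-- a leaf as an integer -/
def leaf (v : Tr 0) : ℤ := v

/-- pointwise sum -/
def addT : (n : ℕ) → Tr n → Tr n → Tr n
  | 0, a, b => Int.add a b
  | n + 1, a, b => (addT n a.1 b.1, addT n a.2 b.2)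

/-- pointwise difference -/
def subT : (n : ℕ) → Tr n → Tr n → Tr n
  | 0, a, b => Int.sub a b
  | n + 1, a, b => (subT n a.1 b.1, subT n a.2 b.2)

/-- Walsh–Hadamard transform: first component = coordinate `0` not in the set. -/
def wht : (n : ℕ) → Tr n → Tr n
  | 0, v => v
  | n + 1, t => (addT n (wht n t.2) (wht n t.1), subT n (wht n t.2) (wht n t.1))

/-- the function represented by a tree: first component = coordinate `0` is `false`. -/
def val : (n : ℕ) → Tr n → (Fin n → Bool) → ℤ
  | 0, v, _ => v
  | n + 1, t, x => if x 0 then val n t.2 (Fin.tail x) else val n t.1 (Fin.tail x)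

/-- the trace of a set of coordinates on the last `n` coordinates -/
def tl {n : ℕ} (S : Finset (Fin (n + 1))) : Finset (Fin n) :=
  Finset.univ.filter (fun j => Fin.succ j ∈ S)

/-- lookup in a tree of coefficients -/
def coef : (n : ℕ) → Tr n → Finset (Fin n) → ℤ
  | 0, v, _ => v
  | n + 1, c, S => if (0 : Fin (n + 1)) ∈ S then coef n c.2 (tl S) else coef n c.1 (tl S)

/-- all leaves vanish -/
def isZero : (n : ℕ) → Tr n → Bool
  | 0, v => decide (leaf v = 0)
  | n + 1, c => isZero n c.1 && isZero n c.2

/-- all coefficients of sets with more than `d` elements vanish -/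
def chk : (n : ℕ) → ℕ → Tr n → Bool
  | 0, _, _ => true
  | n + 1, d, c => chk n d c.1 && (match d with
      | 0 => isZero n c.2
      | d' + 1 => chk n d' c.2)

/-- the coefficient of the empty set -/
def c0 : (n : ℕ) → Tr n → ℤ
  | 0, v => v
  | n + 1, c => c0 n c.1

/-- the sum of the singleton coefficients -/
def lvl1 : (n : ℕ) → Tr n → ℤ
  | 0, _ => 0
  | n + 1, c => Int.add (lvl1 n c.1) (c0 n c.2)

/-- unpack a truth table: the high half of the bits is the branch `coordinate 0 = true`. -/
def mk : (n : ℕ) → ℕ → Tr n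
  | 0, m => if m % 2 = 1 then (1 : ℤ) else (-1 : ℤ)
  | n + 1, m => (mk n (m % 2 ^ 2 ^ n), mk n (m / 2 ^ 2 ^ n))

/-! ### soundness -/

lemma coef_addT : ∀ (n : ℕ) (a b : Tr n) (S : Finset (Fin n)),
    coef n (addT n a b) S = coef n a S + coef n b S
  | 0, a, b, S => rfl
  | n + 1, a, b, S => by
    simp only [coef, addT]
    split_ifs <;> exact coef_addT n _ _ _

lemma coef_subT : ∀ (n : ℕ) (a b : Tr n) (S : Finset (Fin n)),
    coef n (subT n a b) S = coef n a S - coef n b S
  | 0, a, b, S => rfl
  | n + 1, a, b, S => by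
    simp only [coef, subT]
    split_ifs <;> exact coef_subT n _ _ _

/-- integer character -/
def chiZ {n : ℕ} (S : Finset (Fin n)) (x : Fin n → Bool) : ℤ :=
  ∏ i ∈ S, (if x i then 1 else -1)

/-- integer Fourier sum of an integer-valued function -/
def fourZ {n : ℕ} (F : (Fin n → Bool) → ℤ) (S : Finset (Fin n)) : ℤ :=
  ∑ x : Fin n → Bool, F x * chiZ S x

lemma sum_cube_succ {n : ℕ} (G : (Fin (n + 1) → Bool) → ℤ) :
    ∑ x : Fin (n + 1) → Bool, G x =
      ∑ x' : Fin n → Bool, G (Fin.cons true x') + ∑ x' : Fin n → Bool, G (Fin.cons false x') := by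
  rw [← Equiv.sum_comp (Fin.consEquiv (fun _ : Fin (n + 1) => Bool)), Fintype.sum_prod_type,
    Fintype.sum_bool]
  rfl

lemma chiZ_cons {n : ℕ} (S : Finset (Fin (n + 1))) (b : Bool) (x' : Fin n → Bool) :
    chiZ S (Fin.cons b x') =
      (if (0 : Fin (n + 1)) ∈ S then (if b then 1 else -1) else 1) * chiZ (tl S) x' := by
  unfold chiZ
  have h1 : ∏ i ∈ S, (if (Fin.cons b x' : Fin (n + 1) → Bool) i then (1 : ℤ) else -1) =
      ∏ i : Fin (n + 1), (if i ∈ S then
        (if (Fin.cons b x' : Fin (n + 1) → Bool) i then (1 : ℤ) else -1) else 1) := by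
    rw [Finset.prod_ite_mem, Finset.univ_inter]
  rw [h1, Fin.prod_univ_succ]
  have h2 : ∏ j : Fin n, (if Fin.succ j ∈ S then
      (if (Fin.cons b x' : Fin (n + 1) → Bool) (Fin.succ j) then (1 : ℤ) else -1) else 1) =
      ∏ i ∈ tl S, (if x' i then (1 : ℤ) else -1) := by
    unfold tl
    rw [Finset.prod_filter]
    refine Finset.prod_congr rfl fun j _ => ?_
    simp
  rw [h2]
  simp

theorem fourZ_val : ∀ (n : ℕ) (t : Tr n) (S : Finset (Fin n)),
    fourZ (val n t) S = coef n (wht n t) S
  | 0, t, S => by
    have hS : S = ∅ := by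
      ext i; exact i.elim0
    subst hS
    unfold fourZ chiZ
    rw [Fintype.sum_unique]
    simp only [Finset.prod_empty]
    exact mul_one (M := ℤ) _
  | n + 1, t, S => by
    have ih1 := fourZ_val n t.1 (tl S)
    have ih2 := fourZ_val n t.2 (tl S)
    unfold fourZ at ih1 ih2 ⊢
    rw [sum_cube_succ]
    have hv1 : ∀ x' : Fin n → Bool, val (n + 1) t (Fin.cons true x') = val n t.2 x' := by
      intro x'; simp [val]
    have hv0 : ∀ x' : Fin n → Bool, val (n + 1) t (Fin.cons false x') = val n t.1 x' := by
      intro x'; simp [val]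
    by_cases h0 : (0 : Fin (n + 1)) ∈ S
    · have hT : ∀ x' : Fin n → Bool,
          val (n + 1) t (Fin.cons true x') * chiZ S (Fin.cons true x') =
            val n t.2 x' * chiZ (tl S) x' := by
        intro x'; rw [hv1, chiZ_cons]; simp [h0]
      have hF : ∀ x' : Fin n → Bool,
          val (n + 1) t (Fin.cons false x') * chiZ S (Fin.cons false x') =
            -(val n t.1 x' * chiZ (tl S) x') := by
        intro x'; rw [hv0, chiZ_cons]; simp [h0]
      simp only [hT, hF, Finset.sum_neg_distrib, ih1, ih2]
      simp only [coef, wht, h0, if_true]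
      rw [coef_subT]; ring
    · have hT : ∀ x' : Fin n → Bool,
          val (n + 1) t (Fin.cons true x') * chiZ S (Fin.cons true x') =
            val n t.2 x' * chiZ (tl S) x' := by
        intro x'; rw [hv1, chiZ_cons]; simp [h0]
      have hF : ∀ x' : Fin n → Bool,
          val (n + 1) t (Fin.cons false x') * chiZ S (Fin.cons false x') =
            val n t.1 x' * chiZ (tl S) x' := by
        intro x'; rw [hv0, chiZ_cons]; simp [h0]
      simp only [hT, hF, ih1, ih2]
      simp only [coef, wht, h0, if_false]
      rw [coef_addT]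

lemma coef_isZero : ∀ (n : ℕ) (c : Tr n), isZero n c = true → ∀ S : Finset (Fin n), coef n c S = 0
  | 0, c, h, S => by
    have : leaf c = 0 := of_decide_eq_true h
    exact this
  | n + 1, c, h, S => by
    simp only [isZero, Bool.and_eq_true] at h
    simp only [coef]
    split_ifs
    · exact coef_isZero n c.2 h.2 _
    · exact coef_isZero n c.1 h.1 _

lemma card_tl {n : ℕ} (S : Finset (Fin (n + 1))) :
    S.card = (tl S).card + (if (0 : Fin (n + 1)) ∈ S then 1 else 0) := by
  have h1 : S.card = ∑ i : Fin (n + 1), (if i ∈ S then 1 else 0) := by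
    rw [Finset.sum_ite_mem, Finset.univ_inter]; simp
  rw [h1, Fin.sum_univ_succ]
  unfold tl
  rw [Finset.card_filter]
  ring

lemma coef_chk : ∀ (n : ℕ) (d : ℕ) (c : Tr n), chk n d c = true →
    ∀ S : Finset (Fin n), d < S.card → coef n c S = 0
  | 0, d, c, _, S, hS => by
    exfalso
    have : S = ∅ := by ext i; exact i.elim0
    subst this
    simp at hS
  | n + 1, d, c, h, S, hS => by
    simp only [chk, Bool.and_eq_true] at h
    have hc := card_tl S
    simp only [coef]
    split_ifs with h0
    · simp only [h0, if_true] at hc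
      cases d with
      | zero => exact coef_isZero n c.2 h.2 _
      | succ d' => exact coef_chk n d' c.2 h.2 _ (by omega)
    · simp only [h0, if_false] at hc
      exact coef_chk n d c.1 h.1 _ (by omega)

lemma coef_empty : ∀ (n : ℕ) (c : Tr n), coef n c ∅ = c0 n c
  | 0, c => rfl
  | n + 1, c => by
    have : tl (∅ : Finset (Fin (n + 1))) = ∅ := by
      ext j; simp [tl]
    simp only [coef, c0, Finset.notMem_empty, if_false, this]
    exact coef_empty n c.1

lemma sum_coef_singleton : ∀ (n : ℕ) (c : Tr n), ∑ i : Fin n, coef n c {i} = lvl1 n c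
  | 0, c => by simp [lvl1]
  | n + 1, c => by
    rw [Fin.sum_univ_succ]
    have h0 : tl ({0} : Finset (Fin (n + 1))) = ∅ := by
      ext j; simp [tl, Fin.succ_ne_zero]
    have hj : ∀ j : Fin n, tl ({Fin.succ j} : Finset (Fin (n + 1))) = {j} := by
      intro j; ext k; simp [tl]
    have e1 : coef (n + 1) c {0} = c0 n c.2 := by
      simp only [coef, Finset.mem_singleton, if_true, h0]
      exact coef_empty n c.2
    have e2 : ∀ j : Fin n, coef (n + 1) c {Fin.succ j} = coef n c.1 {j} := by
      intro j
      have : (0 : Fin (n + 1)) ∉ ({Fin.succ j} : Finset (Fin (n + 1))) := by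
        simp [Fin.succ_ne_zero, eq_comm]
      simp only [coef, this, if_false, hj]
    rw [e1]
    simp only [e2]
    rw [sum_coef_singleton n c.1]
    show _ = lvl1 n c.1 + c0 n c.2
    ring

lemma val_mk : ∀ (n : ℕ) (m : ℕ) (x : Fin n → Bool), val n (mk n m) x = 1 ∨ val n (mk n m) x = -1
  | 0, m, x => by
    show (if m % 2 = 1 then (1 : ℤ) else -1) = 1 ∨ (if m % 2 = 1 then (1 : ℤ) else -1) = -1
    split_ifs
    · exact Or.inl rfl
    · exact Or.inr rfl
  | n + 1, m, x => by
    simp only [val, mk]
    split_ifs
    · exact val_mk n _ _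
    · exact val_mk n _ _

/-- the Boolean function with truth table `m` -/
def gfun (n m : ℕ) : (Fin n → Bool) → Bool := fun x => decide (val n (mk n m) x = 1)

lemma four_gfun (n m : ℕ) (S : Finset (Fin n)) :
    four (gfun n m) S = ((coef n (wht n (mk n m)) S : ℤ) : ℝ) := by
  rw [← fourZ_val]
  unfold four fourZ
  push_cast
  refine Finset.sum_congr rfl fun x _ => ?_
  have h1 : sg (gfun n m x) = ((val n (mk n m) x : ℤ) : ℝ) := by
    unfold gfun sg
    rcases val_mk n m x with h | h <;> simp [h]
  have h2 : chi S x = ((chiZ S x : ℤ) : ℝ) := by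
    unfold chi chiZ sg
    push_cast
    refine Finset.prod_congr rfl fun i _ => ?_
    split_ifs <;> simp
  rw [h1, h2]

/-- The certificate: three kernel-checkable facts give a gadget. -/
theorem gadget_of_check (n d m : ℕ) (h1 : chk n d (wht n (mk n m)) = true)
    (h2 : c0 n (wht n (mk n m)) = 0)
    (h3 : (d : ℤ) * 4 ^ n < lvl1 n (wht n (mk n m)) ^ 2) :
    DegLE (gfun n m) d ∧ four (gfun n m) ∅ = 0 ∧ (d : ℝ) < W (gfun n m) ^ 2 := by
  refine ⟨?_, ?_, ?_⟩
  · intro S hS
    rw [four_gfun, coef_chk n d _ h1 S hS]
    simp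
  · rw [four_gfun, coef_empty, h2]
    simp
  · have hW : W (gfun n m) = ((lvl1 n (wht n (mk n m)) : ℤ) : ℝ) / 2 ^ n := by
      unfold W
      rw [Fintype.card_fin, ← Finset.sum_div, ← sum_coef_singleton]
      push_cast
      congr 1
      refine Finset.sum_congr rfl fun i _ => ?_
      rw [four_gfun]
    rw [hW, div_pow, lt_div_iff₀ (by positivity)]
    have : ((d : ℤ) : ℝ) * 4 ^ n < ((lvl1 n (wht n (mk n m)) : ℤ) : ℝ) ^ 2 := by
      exact_mod_cast h3
    have h4 : ((2 : ℝ) ^ n) ^ 2 = 4 ^ n := by
      rw [← pow_mul, mul_comm, pow_mul]; norm_num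
    rw [h4]
    simpa using this

/-- the whole certificate as one Boolean, so that the transform is evaluated once -/
def certify (n d m : ℕ) : Bool :=
  let c := wht n (mk n m)
  chk n d c && (decide (c0 n c = 0) && decide ((d : ℤ) * 4 ^ n < lvl1 n c ^ 2))

theorem gadget_of_certify (n d m : ℕ) (h : certify n d m = true) :
    DegLE (gfun n m) d ∧ four (gfun n m) ∅ = 0 ∧ (d : ℝ) < W (gfun n m) ^ 2 := by
  simp only [certify, Bool.and_eq_true, decide_eq_true_eq] at h
  exact gadget_of_check n d m h.1 h.2.1 h.2.2

/-- **A certified truth table proves S0085.** -/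
theorem statement_of_certify (n d m : ℕ) (h : certify n d m = true) (C : ℝ) :
    ∃ n : ℕ, ∃ f : (Fin n → Bool) → Bool, ∃ d : ℕ,
      (∃ x y, f x ≠ f y) ∧
      (∀ S : Finset (Fin n), d < S.card →
        ∑ x : Fin n → Bool, ((if f x then (1 : ℝ) else -1) * ∏ i ∈ S, (if x i then (1 : ℝ) else -1)) = 0) ∧
      C * Real.sqrt d <
        ∑ i : Fin n, (∑ x : Fin n → Bool, ((if f x then (1 : ℝ) else -1) * (if x i then (1 : ℝ) else -1))) / 2 ^ n :=
  have hg := gadget_of_certify n d m h
  statement_of_gadget (gfun n m) d hg.1 hg.2.1 hg.2.2 C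

end Crest.Agent.GS
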