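import Mathlib

/-!
# Composition framework for S0085 (linear Fourier coefficients versus degree)

`four f S` is the unnormalised Fourier–Walsh coefficient of a Boolean function
`f : (ι → Bool) → Bool` (signs `+1` for `true`, `-1` for `false`).  We prove the composition
formula for `comp f g` (every input of `f` replaced by a copy of `g` on fresh variables), deduce
that degrees multiply and that the level-one sum `W` multiplies when `g` is balanced, and
conclude that ONE balanced gadget `g` with `W g ^ 2 > deg g` implies the statement S0085.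
-/

set_option autoImplicit false
set_option linter.unusedSectionVars false

namespace Crest.Agent.GS

open Finset

/-- sign of a Boolean: `true ↦ 1`, `false ↦ -1`. -/
def sg (b : Bool) : ℝ := if b then 1 else -1

lemma sg_true : sg true = 1 := rfl
lemma sg_false : sg false = -1 := by simp [sg]

lemma sg_mul_self (b : Bool) : sg b * sg b = 1 := by cases b <;> simp [sg]

lemma sum_sg : ∑ b : Bool, sg b = 0 := by simp [sg]

section basic

variable {ι : Type*} [Fintype ι] [DecidableEq ι]

/-- the character of a set of coordinates -/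
def chi (S : Finset ι) (x : ι → Bool) : ℝ := ∏ i ∈ S, sg (x i)

/-- unnormalised Fourier–Walsh coefficient -/
def four (f : (ι → Bool) → Bool) (S : Finset ι) : ℝ := ∑ x : ι → Bool, sg (f x) * chi S x

/-- degree at most `d` -/
def DegLE (f : (ι → Bool) → Bool) (d : ℕ) : Prop := ∀ S : Finset ι, d < S.card → four f S = 0

/-- the sum of the normalised singleton coefficients -/
noncomputable def W (f : (ι → Bool) → Bool) : ℝ := ∑ i : ι, four f {i} / 2 ^ Fintype.card ι

lemma chi_eq_prod_univ (S : Finset ι) (x : ι → Bool) :
    chi S x = ∏ i : ι, (if i ∈ S then sg (x i) else 1) := by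
  unfold chi
  rw [← Finset.prod_filter]
  congr 1
  ext i; simp

/-- orthogonality: the sum of a character over the cube -/
lemma sum_chi (S : Finset ι) :
    ∑ x : ι → Bool, chi S x = if S = ∅ then (2 : ℝ) ^ Fintype.card ι else 0 := by
  have h1 : ∑ x : ι → Bool, chi S x = ∏ i : ι, ∑ b : Bool, (if i ∈ S then sg b else 1) := by
    rw [Fintype.prod_sum]
    refine Finset.sum_congr rfl fun x _ => ?_
    exact chi_eq_prod_univ S x
  rw [h1]
  split_ifs with hS
  · subst hS
    simp
  · obtain ⟨i, hi⟩ := Finset.nonempty_iff_ne_empty.mpr hS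
    apply Finset.prod_eq_zero (Finset.mem_univ i)
    simp [hi, sg]

/-- Fourier inversion (unnormalised) -/
lemma inversion (f : (ι → Bool) → Bool) (y : ι → Bool) :
    sg (f y) * 2 ^ Fintype.card ι = ∑ S : Finset ι, four f S * chi S y := by
  have key : ∀ x : ι → Bool, ∑ S : Finset ι, chi S x * chi S y =
      if x = y then (2 : ℝ) ^ Fintype.card ι else 0 := by
    intro x
    have h1 : ∑ S : Finset ι, chi S x * chi S y = ∏ i : ι, (1 + sg (x i) * sg (y i)) := by
      rw [Finset.prod_one_add, Finset.powerset_univ]
      refine Finset.sum_congr rfl fun S _ => ?_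
      unfold chi
      rw [Finset.prod_mul_distrib]
    rw [h1]
    split_ifs with hxy
    · subst hxy
      have : ∀ i : ι, (1 + sg (x i) * sg (x i)) = 2 := by
        intro i; rw [sg_mul_self]; norm_num
      simp [this]
    · obtain ⟨i, hi⟩ : ∃ i, x i ≠ y i := by
        by_contra h
        exact hxy (funext fun i => by
          by_contra hi
          exact h ⟨i, hi⟩)
      apply Finset.prod_eq_zero (Finset.mem_univ i)
      cases hx : x i <;> cases hy : y i <;> simp_all [sg]
  calc sg (f y) * 2 ^ Fintype.card ι
      = ∑ x : ι → Bool, sg (f x) * (if x = y then (2 : ℝ) ^ Fintype.card ι else 0) := by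
        simp
    _ = ∑ x : ι → Bool, sg (f x) * ∑ S : Finset ι, chi S x * chi S y := by
        refine Finset.sum_congr rfl fun x _ => ?_
        rw [key]
    _ = ∑ S : Finset ι, four f S * chi S y := by
        simp only [Finset.mul_sum]
        rw [Finset.sum_comm]
        refine Finset.sum_congr rfl fun S _ => ?_
        unfold four
        rw [Finset.sum_mul]
        refine Finset.sum_congr rfl fun x _ => ?_
        ring

end basic

section comp

variable {ι κ : Type*} [Fintype ι] [DecidableEq ι] [Fintype κ] [DecidableEq κ]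

/-- composition on disjoint blocks: every input of `f` is replaced by a copy of `g` -/
def comp (f : (ι → Bool) → Bool) (g : (κ → Bool) → Bool) : (ι × κ → Bool) → Bool :=
  fun x => f (fun i => g (fun k => x (i, k)))

/-- the fibre of a set of pairs over a first coordinate -/
def fib (U : Finset (ι × κ)) (i : ι) : Finset κ := Finset.univ.filter (fun k => (i, k) ∈ U)

lemma mem_fib (U : Finset (ι × κ)) (i : ι) (k : κ) : k ∈ fib U i ↔ (i, k) ∈ U := by
  simp [fib]

lemma card_eq_sum_fib (U : Finset (ι × κ)) : U.card = ∑ i : ι, (fib U i).card := by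
  have h1 : U.card = ∑ p : ι × κ, (if p ∈ U then 1 else 0) := by
    rw [Finset.sum_ite_mem, Finset.univ_inter]; simp
  rw [h1, Fintype.sum_prod_type]
  refine Finset.sum_congr rfl fun i _ => ?_
  unfold fib
  rw [Finset.card_filter]

lemma chi_prod (U : Finset (ι × κ)) (x : ι × κ → Bool) :
    chi U x = ∏ i : ι, chi (fib U i) (fun k => x (i, k)) := by
  rw [chi_eq_prod_univ, Fintype.prod_prod_type]
  refine Finset.prod_congr rfl fun i _ => ?_
  rw [chi_eq_prod_univ]
  refine Finset.prod_congr rfl fun k _ => ?_
  simp only [mem_fib]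

/-- The composition formula (unnormalised). -/
theorem four_comp (f : (ι → Bool) → Bool) (g : (κ → Bool) → Bool) (U : Finset (ι × κ)) :
    four (comp f g) U * 2 ^ Fintype.card ι =
      ∑ S : Finset ι, four f S *
        ∏ i : ι, (if i ∈ S then four g (fib U i)
          else (if fib U i = ∅ then (2 : ℝ) ^ Fintype.card κ else 0)) := by
  -- the factor attached to the block `i`
  have hblock : ∀ (S : Finset ι) (i : ι),
      ∑ z : κ → Bool, (if i ∈ S then sg (g z) else 1) * chi (fib U i) z =
        (if i ∈ S then four g (fib U i)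
          else (if fib U i = ∅ then (2 : ℝ) ^ Fintype.card κ else 0)) := by
    intro S i
    by_cases hi : i ∈ S
    · simp only [hi, if_true]; rfl
    · simp only [hi, if_false, one_mul]
      exact sum_chi _
  have hS : ∀ S : Finset ι,
      ∑ x : ι × κ → Bool, chi S (fun i => g (fun k => x (i, k))) * chi U x =
        ∏ i : ι, (if i ∈ S then four g (fib U i)
          else (if fib U i = ∅ then (2 : ℝ) ^ Fintype.card κ else 0)) := by
    intro S
    have h1 : ∀ x : ι × κ → Bool,
        chi S (fun i => g (fun k => x (i, k))) * chi U x =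
          ∏ i : ι, ((if i ∈ S then sg (g (fun k => x (i, k))) else 1) *
            chi (fib U i) (fun k => x (i, k))) := by
      intro x
      rw [Finset.prod_mul_distrib, ← chi_prod, chi_eq_prod_univ]
    simp only [h1]
    rw [← Equiv.sum_comp (Equiv.curry ι κ Bool).symm]
    simp only [Equiv.curry_symm_apply, Function.uncurry_apply_pair]
    rw [← Finset.prod_congr rfl (fun i _ => hblock S i)]
    rw [Fintype.prod_sum]
  unfold four
  rw [Finset.sum_mul]
  have h2 : ∀ x : ι × κ → Bool,
      sg (comp f g x) * chi U x * 2 ^ Fintype.card ι =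
        ∑ S : Finset ι, four f S * (chi S (fun i => g (fun k => x (i, k))) * chi U x) := by
    intro x
    have := inversion f (fun i => g (fun k => x (i, k)))
    calc sg (comp f g x) * chi U x * 2 ^ Fintype.card ι
        = (sg (f (fun i => g (fun k => x (i, k)))) * 2 ^ Fintype.card ι) * chi U x := by
          unfold comp; ring
      _ = _ := by
          rw [this, Finset.sum_mul]
          refine Finset.sum_congr rfl fun S _ => ?_
          ring
  simp only [h2]
  rw [Finset.sum_comm]
  refine Finset.sum_congr rfl fun S _ => ?_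
  rw [← Finset.mul_sum]
  congr 1
  exact hS S

/-- Degrees multiply under composition. -/
theorem degLE_comp {f : (ι → Bool) → Bool} {g : (κ → Bool) → Bool} {d e : ℕ}
    (hf : DegLE f d) (hg : DegLE g e) : DegLE (comp f g) (d * e) := by
  intro U hU
  have h2 : (2 : ℝ) ^ Fintype.card ι ≠ 0 := by positivity
  have key := four_comp f g U
  have hz : ∑ S : Finset ι, four f S *
        ∏ i : ι, (if i ∈ S then four g (fib U i)
          else (if fib U i = ∅ then (2 : ℝ) ^ Fintype.card κ else 0)) = 0 := by
    refine Finset.sum_eq_zero fun S _ => ?_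
    by_cases hS : d < S.card
    · rw [hf S hS, zero_mul]
    · have hS' : S.card ≤ d := not_lt.mp hS
      -- some block kills the product
      have hex : ∃ i : ι, (i ∈ S ∧ e < (fib U i).card) ∨ (i ∉ S ∧ fib U i ≠ ∅) := by
        by_contra hcon
        have hall : ∀ i : ι, (fib U i).card ≤ if i ∈ S then e else 0 := by
          intro i
          by_cases hi : i ∈ S
          · simp only [hi, if_true]
            by_contra h
            exact hcon ⟨i, Or.inl ⟨hi, not_le.mp h⟩⟩
          · simp only [hi, if_false]
            by_contra h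
            refine hcon ⟨i, Or.inr ⟨hi, fun h0 => h ?_⟩⟩
            simp [h0]
        have hcard : U.card ≤ d * e := by
          rw [card_eq_sum_fib]
          calc ∑ i : ι, (fib U i).card ≤ ∑ i : ι, (if i ∈ S then e else 0) :=
                Finset.sum_le_sum fun i _ => hall i
            _ = S.card * e := by
                rw [Finset.sum_ite_mem, Finset.univ_inter, Finset.sum_const, smul_eq_mul]
            _ ≤ d * e := Nat.mul_le_mul_right e hS'
        omega
      obtain ⟨i, hi⟩ := hex
      have : ∏ i : ι, (if i ∈ S then four g (fib U i)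
          else (if fib U i = ∅ then (2 : ℝ) ^ Fintype.card κ else 0)) = 0 := by
        apply Finset.prod_eq_zero (Finset.mem_univ i)
        rcases hi with ⟨hiS, hie⟩ | ⟨hiS, hie⟩
        · simp only [hiS, if_true]
          exact hg _ hie
        · simp only [hiS, if_false, hie]
      rw [this, mul_zero]
  rw [hz] at key
  exact (mul_eq_zero.mp key).resolve_right h2

/-- The singleton coefficients of a composition with a balanced inner function. -/
theorem four_comp_singleton {f : (ι → Bool) → Bool} {g : (κ → Bool) → Bool}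
    (hbal : four g ∅ = 0) (i₀ : ι) (k₀ : κ) :
    four (comp f g) {(i₀, k₀)} * 2 ^ Fintype.card ι =
      four f {i₀} * (four g {k₀} * ((2 : ℝ) ^ Fintype.card κ) ^ (Fintype.card ι - 1)) := by
  rw [four_comp]
  have hfib : ∀ i : ι, fib ({(i₀, k₀)} : Finset (ι × κ)) i = if i = i₀ then {k₀} else ∅ := by
    intro i
    ext k
    by_cases hi : i = i₀
    · subst hi; simp [mem_fib]
    · simp [mem_fib, hi]
  rw [Finset.sum_eq_single {i₀}]
  · congr 1
    have : ∀ i : ι, (if i ∈ ({i₀} : Finset ι) then four g (fib ({(i₀, k₀)} : Finset (ι × κ)) i)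
          else (if fib ({(i₀, k₀)} : Finset (ι × κ)) i = ∅ then (2 : ℝ) ^ Fintype.card κ else 0)) =
        if i = i₀ then four g {k₀} else (2 : ℝ) ^ Fintype.card κ := by
      intro i
      by_cases hi : i = i₀
      · subst hi; simp [hfib]
      · simp [hfib, hi]
    simp only [this]
    rw [Finset.prod_ite, Finset.prod_const, Finset.prod_const]
    have h1 : (Finset.univ.filter (fun i : ι => i = i₀)) = {i₀} := by
      ext i; simp
    have h2 : (Finset.univ.filter (fun i : ι => ¬ i = i₀)).card = Fintype.card ι - 1 := by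
      have : (Finset.univ.filter (fun i : ι => ¬ i = i₀)) = Finset.univ.erase i₀ := by
        ext i; simp
      rw [this, Finset.card_erase_of_mem (Finset.mem_univ _), Finset.card_univ]
    rw [h1, h2, Finset.card_singleton, pow_one]
  · intro S _ hS
    by_cases hi₀ : i₀ ∈ S
    · -- some other element of S has empty fibre, and g is balanced
      obtain ⟨i, hiS, hne⟩ : ∃ i ∈ S, i ≠ i₀ := by
        by_contra hcon
        apply hS
        ext j
        simp only [Finset.mem_singleton]
        constructor
        · intro hj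
          by_contra hji
          exact hcon ⟨j, hj, hji⟩
        · rintro rfl; exact hi₀
      have : ∏ i : ι, (if i ∈ S then four g (fib ({(i₀, k₀)} : Finset (ι × κ)) i)
          else (if fib ({(i₀, k₀)} : Finset (ι × κ)) i = ∅ then (2 : ℝ) ^ Fintype.card κ
            else 0)) = 0 := by
        apply Finset.prod_eq_zero (Finset.mem_univ i)
        simp only [hiS, if_true, hfib, hne, if_false]
        exact hbal
      rw [this, mul_zero]
    · have : ∏ i : ι, (if i ∈ S then four g (fib ({(i₀, k₀)} : Finset (ι × κ)) i)
          else (if fib ({(i₀, k₀)} : Finset (ι × κ)) i = ∅ then (2 : ℝ) ^ Fintype.card κ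
            else 0)) = 0 := by
        apply Finset.prod_eq_zero (Finset.mem_univ i₀)
        simp [hi₀, hfib]
      rw [this, mul_zero]
  · intro h; exact absurd (Finset.mem_univ _) h

/-- `W` is multiplicative for compositions with a balanced inner function. -/
theorem W_comp {f : (ι → Bool) → Bool} {g : (κ → Bool) → Bool} (hbal : four g ∅ = 0) :
    W (comp f g) = W f * W g := by
  unfold W
  rw [Fintype.sum_prod_type, Finset.sum_mul_sum]
  refine Finset.sum_congr rfl fun i _ => Finset.sum_congr rfl fun k _ => ?_
  have key := four_comp_singleton (f := f) hbal i k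
  have hι : 1 ≤ Fintype.card ι := Fintype.card_pos_iff.mpr ⟨i⟩
  have hpow : (2 : ℝ) ^ Fintype.card (ι × κ) =
      ((2 : ℝ) ^ Fintype.card κ) ^ (Fintype.card ι - 1) * 2 ^ Fintype.card κ := by
    rw [Fintype.card_prod, ← pow_mul, ← pow_add]
    congr 1
    have : Fintype.card ι = (Fintype.card ι - 1) + 1 := by omega
    calc Fintype.card ι * Fintype.card κ
        = ((Fintype.card ι - 1) + 1) * Fintype.card κ := by rw [← this]
      _ = Fintype.card κ * (Fintype.card ι - 1) + Fintype.card κ := by ring
  have h2ι : (2 : ℝ) ^ Fintype.card ι ≠ 0 := by positivity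
  have h2κ : (2 : ℝ) ^ Fintype.card κ ≠ 0 := by positivity
  have h2p : ((2 : ℝ) ^ Fintype.card κ) ^ (Fintype.card ι - 1) ≠ 0 := by positivity
  have hfc : four (comp f g) {(i, k)} =
      four f {i} * (four g {k} * ((2 : ℝ) ^ Fintype.card κ) ^ (Fintype.card ι - 1)) /
        2 ^ Fintype.card ι := by
    rw [← key]; field_simp
  rw [hfc, hpow]
  field_simp

end comp

section transport

variable {ι ι' : Type*} [Fintype ι] [DecidableEq ι] [Fintype ι'] [DecidableEq ι']

/-- relabelling the coordinates -/
lemma four_relabel (e : ι ≃ ι') (f : (ι → Bool) → Bool) (S' : Finset ι') :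
    four (fun x : ι' → Bool => f (x ∘ e)) S' = four f (S'.map e.symm.toEmbedding) := by
  unfold four
  rw [← Equiv.sum_comp (e.arrowCongr (Equiv.refl Bool))]
  refine Finset.sum_congr rfl fun y _ => ?_
  have h1 : ((e.arrowCongr (Equiv.refl Bool)) y) ∘ e = y := by
    funext i
    simp [Equiv.arrowCongr]
  show sg (f (((e.arrowCongr (Equiv.refl Bool)) y) ∘ e)) * _ = _
  rw [h1]
  congr 1
  unfold chi
  rw [Finset.prod_map]
  refine Finset.prod_congr rfl fun i' _ => ?_
  simp [Equiv.arrowCongr]

lemma degLE_relabel (e : ι ≃ ι') {f : (ι → Bool) → Bool} {d : ℕ} (hf : DegLE f d) :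
    DegLE (fun x : ι' → Bool => f (x ∘ e)) d := by
  intro S' hS'
  rw [four_relabel]
  apply hf
  rwa [Finset.card_map]

lemma W_relabel (e : ι ≃ ι') (f : (ι → Bool) → Bool) :
    W (fun x : ι' → Bool => f (x ∘ e)) = W f := by
  unfold W
  rw [← Equiv.sum_comp e]
  refine Finset.sum_congr rfl fun i _ => ?_
  rw [four_relabel, Finset.map_singleton, Fintype.card_congr e]
  simp

/-- a constant function has `W = 0` -/
lemma W_eq_zero_of_const {f : (ι → Bool) → Bool} (hf : ∀ x y, f x = f y) : W f = 0 := by
  unfold W
  refine Finset.sum_eq_zero fun i _ => ?_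
  have : four f {i} = 0 := by
    unfold four
    have h1 : ∀ x : ι → Bool, sg (f x) * chi {i} x = sg (f (fun _ => true)) * chi {i} x := by
      intro x; rw [hf x (fun _ => true)]
    simp only [h1]
    rw [← Finset.mul_sum, sum_chi]
    simp
  rw [this, zero_div]

end transport

section tower

/-- there is a Boolean function of degree at most `d` with level-one sum `w` -/
def Good (d : ℕ) (w : ℝ) : Prop :=
  ∃ (ι : Type) (_ : Fintype ι) (_ : DecidableEq ι) (f : (ι → Bool) → Bool), DegLE f d ∧ W f = w

lemma good_one : Good 1 1 := by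
  refine ⟨Unit, inferInstance, inferInstance, fun x => x (), ?_, ?_⟩
  · intro S hS
    exfalso
    have : S.card ≤ Fintype.card Unit := Finset.card_le_univ S
    simp at this
    omega
  · unfold W four chi
    simp [sg_mul_self]

lemma good_mul {d e : ℕ} {w : ℝ} (h : Good d w) {κ : Type} [Fintype κ] [DecidableEq κ]
    (g : (κ → Bool) → Bool) (hg : DegLE g e) (hbal : four g ∅ = 0) :
    Good (d * e) (w * W g) := by
  obtain ⟨ι, _, _, f, hf, hW⟩ := h
  exact ⟨ι × κ, inferInstance, inferInstance, comp f g, degLE_comp hf hg, by rw [W_comp hbal, hW]⟩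

lemma good_pow {κ : Type} [Fintype κ] [DecidableEq κ] (g : (κ → Bool) → Bool) {e : ℕ}
    (hg : DegLE g e) (hbal : four g ∅ = 0) (k : ℕ) : Good (e ^ k) (W g ^ k) := by
  induction k with
  | zero => simpa using good_one
  | succ k ih =>
    rw [pow_succ, pow_succ]
    exact good_mul ih g hg hbal

lemma good_fin {d : ℕ} {w : ℝ} (h : Good d w) :
    ∃ n : ℕ, ∃ f : (Fin n → Bool) → Bool, DegLE f d ∧ W f = w := by
  obtain ⟨ι, _, _, f, hf, hW⟩ := h
  refine ⟨Fintype.card ι, fun x => f (x ∘ (Fintype.equivFin ι)), ?_, ?_⟩
  · exact degLE_relabel _ hf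
  · rw [W_relabel, hW]

end tower

/-- **One balanced gadget suffices.**  If some Boolean function `g` of degree at most `d₀` is
balanced and has `W g ^ 2 > d₀`, then the statement S0085 holds. -/
theorem statement_of_gadget {κ : Type} [Fintype κ] [DecidableEq κ] (g : (κ → Bool) → Bool)
    (d₀ : ℕ) (hdeg : DegLE g d₀) (hbal : four g ∅ = 0) (hW : (d₀ : ℝ) < W g ^ 2)
    (C : ℝ) :
    ∃ n : ℕ, ∃ f : (Fin n → Bool) → Bool, ∃ d : ℕ,
      (∃ x y, f x ≠ f y) ∧
      (∀ S : Finset (Fin n), d < S.card →
        ∑ x : Fin n → Bool, ((if f x then (1 : ℝ) else -1) * ∏ i ∈ S, (if x i then (1 : ℝ) else -1)) = 0) ∧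
      C * Real.sqrt d <
        ∑ i : Fin n, (∑ x : Fin n → Bool, ((if f x then (1 : ℝ) else -1) * (if x i then (1 : ℝ) else -1))) / 2 ^ n := by
  -- the degree bound is positive
  have hd₀ : 1 ≤ d₀ := by
    by_contra h
    have h0 : d₀ = 0 := by omega
    subst h0
    have : W g = 0 := by
      unfold W
      refine Finset.sum_eq_zero fun k _ => ?_
      rw [hdeg {k} (by simp), zero_div]
    rw [this] at hW
    simp at hW
  have hd₀' : (0 : ℝ) < d₀ := by exact_mod_cast hd₀
  have hr : 1 < W g ^ 2 / d₀ := by rw [lt_div_iff₀ hd₀']; simpa using hW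
  obtain ⟨j, hj⟩ := pow_unbounded_of_one_lt C hr
  obtain ⟨n, f, hf, hWf⟩ := good_fin (good_pow g hdeg hbal (2 * j))
  have hWpos : 0 < W f := by
    rw [hWf, pow_mul]
    have : 0 < W g ^ 2 := lt_trans hd₀' hW
    positivity
  refine ⟨n, f, d₀ ^ (2 * j), ?_, ?_, ?_⟩
  · by_contra hcon
    have hc : ∀ x y, f x = f y := by
      intro x y
      by_contra hxy
      exact hcon ⟨x, y, hxy⟩
    have := W_eq_zero_of_const hc
    linarith
  · intro S hS
    exact hf S hS
  · have hsum : ∑ i : Fin n, (∑ x : Fin n → Bool,
        ((if f x then (1 : ℝ) else -1) * (if x i then (1 : ℝ) else -1))) / 2 ^ n = W f := by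
      unfold W
      refine Finset.sum_congr rfl fun i _ => ?_
      rw [Fintype.card_fin]
      congr 1
      unfold four chi
      refine Finset.sum_congr rfl fun x _ => ?_
      rw [Finset.prod_singleton]
      rfl
    rw [hsum, hWf]
    have hsqrt : Real.sqrt ((d₀ ^ (2 * j) : ℕ) : ℝ) = (d₀ : ℝ) ^ j := by
      have : ((d₀ ^ (2 * j) : ℕ) : ℝ) = ((d₀ : ℝ) ^ j) ^ 2 := by
        push_cast
        rw [← pow_mul, mul_comm]
      rw [this, Real.sqrt_sq (by positivity)]
    rw [hsqrt, pow_mul]
    have hdj : (0 : ℝ) < (d₀ : ℝ) ^ j := by positivity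
    have : C < (W g ^ 2) ^ j / (d₀ : ℝ) ^ j := by rwa [← div_pow]
    rwa [lt_div_iff₀ hdj] at this

end Crest.Agent.GS
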