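import Crest.Agent.GS.Check

/-!
# The inverse transform: a gadget given by its Fourier coefficients (S0085)

`iwht n c` turns a tree of coefficients into the tree of values of the polynomial
`x ↦ ∑_S c_S χ_S(x)`.  If every value is `K` or `-K` (`AllPM K`), then the polynomial is `K` times
a Boolean function whose unnormalised Fourier coefficients are `2 ^ n * c_S / K`, so the degree
bound, the balance and the sum of the singleton coefficients can be read off the coefficient
tree `c` itself (`gadget_of_eval`, `statement_of_eval`).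

Conventions as in `Check.lean`: in a tree of values the first component is the branch
`coordinate 0 = false`, in a tree of coefficients the second component holds the sets that
contain coordinate `0`.
-/

set_option autoImplicit false
set_option linter.unusedSectionVars false

namespace Crest.Agent.GS

open Finset

/-- coefficients to values: `P = p + x₀ q` is `p - q` at `x₀ = false` and `p + q` at `x₀ = true` -/
def iwht : (n : ℕ) → Tr n → Tr n
  | 0, v => v
  | n + 1, c => (subT n (iwht n c.1) (iwht n c.2), addT n (iwht n c.1) (iwht n c.2))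

/-! ### tree algebra -/

lemma addT_addT_swap : ∀ (n : ℕ) (a b c d : Tr n),
    addT n (addT n a b) (addT n c d) = addT n (addT n a c) (addT n b d)
  | 0, a, b, c, d => by
    show (leaf a + leaf b) + (leaf c + leaf d) = (leaf a + leaf c) + (leaf b + leaf d)
    ring
  | n + 1, a, b, c, d => by
    show (addT n (addT n a.1 b.1) (addT n c.1 d.1), addT n (addT n a.2 b.2) (addT n c.2 d.2)) =
      (addT n (addT n a.1 c.1) (addT n b.1 d.1), addT n (addT n a.2 c.2) (addT n b.2 d.2))
    exact congrArg₂ Prod.mk (addT_addT_swap n _ _ _ _) (addT_addT_swap n _ _ _ _)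

lemma subT_addT_swap : ∀ (n : ℕ) (a b c d : Tr n),
    subT n (addT n a b) (addT n c d) = addT n (subT n a c) (subT n b d)
  | 0, a, b, c, d => by
    show (leaf a + leaf b) - (leaf c + leaf d) = (leaf a - leaf c) + (leaf b - leaf d)
    ring
  | n + 1, a, b, c, d => by
    show (subT n (addT n a.1 b.1) (addT n c.1 d.1), subT n (addT n a.2 b.2) (addT n c.2 d.2)) =
      (addT n (subT n a.1 c.1) (subT n b.1 d.1), addT n (subT n a.2 c.2) (subT n b.2 d.2))
    exact congrArg₂ Prod.mk (subT_addT_swap n _ _ _ _) (subT_addT_swap n _ _ _ _)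

lemma subT_subT_swap : ∀ (n : ℕ) (a b c d : Tr n),
    subT n (subT n a b) (subT n c d) = subT n (subT n a c) (subT n b d)
  | 0, a, b, c, d => by
    show (leaf a - leaf b) - (leaf c - leaf d) = (leaf a - leaf c) - (leaf b - leaf d)
    ring
  | n + 1, a, b, c, d => by
    show (subT n (subT n a.1 b.1) (subT n c.1 d.1), subT n (subT n a.2 b.2) (subT n c.2 d.2)) =
      (subT n (subT n a.1 c.1) (subT n b.1 d.1), subT n (subT n a.2 c.2) (subT n b.2 d.2))
    exact congrArg₂ Prod.mk (subT_subT_swap n _ _ _ _) (subT_subT_swap n _ _ _ _)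

lemma addT_subT_swap : ∀ (n : ℕ) (a b c d : Tr n),
    addT n (subT n a b) (subT n c d) = subT n (addT n a c) (addT n b d)
  | 0, a, b, c, d => by
    show (leaf a - leaf b) + (leaf c - leaf d) = (leaf a + leaf c) - (leaf b + leaf d)
    ring
  | n + 1, a, b, c, d => by
    show (addT n (subT n a.1 b.1) (subT n c.1 d.1), addT n (subT n a.2 b.2) (subT n c.2 d.2)) =
      (subT n (addT n a.1 c.1) (addT n b.1 d.1), subT n (addT n a.2 c.2) (addT n b.2 d.2))
    exact congrArg₂ Prod.mk (addT_subT_swap n _ _ _ _) (addT_subT_swap n _ _ _ _)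

/-- `iwht` is additive -/
lemma iwht_addT : ∀ (n : ℕ) (a b : Tr n), iwht n (addT n a b) = addT n (iwht n a) (iwht n b)
  | 0, _, _ => rfl
  | n + 1, a, b => by
    show (subT n (iwht n (addT n a.1 b.1)) (iwht n (addT n a.2 b.2)),
        addT n (iwht n (addT n a.1 b.1)) (iwht n (addT n a.2 b.2))) =
      (addT n (subT n (iwht n a.1) (iwht n a.2)) (subT n (iwht n b.1) (iwht n b.2)),
        addT n (addT n (iwht n a.1) (iwht n a.2)) (addT n (iwht n b.1) (iwht n b.2)))
    rw [iwht_addT n a.1 b.1, iwht_addT n a.2 b.2]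
    exact congrArg₂ Prod.mk (subT_addT_swap n _ _ _ _) (addT_addT_swap n _ _ _ _)

lemma iwht_subT : ∀ (n : ℕ) (a b : Tr n), iwht n (subT n a b) = subT n (iwht n a) (iwht n b)
  | 0, _, _ => rfl
  | n + 1, a, b => by
    show (subT n (iwht n (subT n a.1 b.1)) (iwht n (subT n a.2 b.2)),
        addT n (iwht n (subT n a.1 b.1)) (iwht n (subT n a.2 b.2))) =
      (subT n (subT n (iwht n a.1) (iwht n a.2)) (subT n (iwht n b.1) (iwht n b.2)),
        subT n (addT n (iwht n a.1) (iwht n a.2)) (addT n (iwht n b.1) (iwht n b.2)))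
    rw [iwht_subT n a.1 b.1, iwht_subT n a.2 b.2]
    exact congrArg₂ Prod.mk (subT_subT_swap n _ _ _ _) (addT_subT_swap n _ _ _ _)

/-- restriction to `coordinate 0 = false` -/
lemma iwht_succ_fst (n : ℕ) (c : Tr (n + 1)) : (iwht (n + 1) c).1 = iwht n (subT n c.1 c.2) := by
  rw [iwht_subT]; rfl

/-- restriction to `coordinate 0 = true` -/
lemma iwht_succ_snd (n : ℕ) (c : Tr (n + 1)) : (iwht (n + 1) c).2 = iwht n (addT n c.1 c.2) := by
  rw [iwht_addT]; rfl

/-! ### `wht` inverts `iwht` up to the factor `2 ^ n` -/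

lemma coef_wht_addT : ∀ (n : ℕ) (a b : Tr n) (S : Finset (Fin n)),
    coef n (wht n (addT n a b)) S = coef n (wht n a) S + coef n (wht n b) S
  | 0, _, _, _ => rfl
  | n + 1, a, b, S => by
    have e : wht (n + 1) (addT (n + 1) a b) =
        (addT n (wht n (addT n a.2 b.2)) (wht n (addT n a.1 b.1)),
          subT n (wht n (addT n a.2 b.2)) (wht n (addT n a.1 b.1))) := rfl
    rw [e]
    simp only [coef, wht]
    split_ifs
    · rw [coef_subT, coef_subT, coef_subT, coef_wht_addT n, coef_wht_addT n]; ring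
    · rw [coef_addT, coef_addT, coef_addT, coef_wht_addT n, coef_wht_addT n]; ring

lemma coef_wht_subT : ∀ (n : ℕ) (a b : Tr n) (S : Finset (Fin n)),
    coef n (wht n (subT n a b)) S = coef n (wht n a) S - coef n (wht n b) S
  | 0, _, _, _ => rfl
  | n + 1, a, b, S => by
    have e : wht (n + 1) (subT (n + 1) a b) =
        (addT n (wht n (subT n a.2 b.2)) (wht n (subT n a.1 b.1)),
          subT n (wht n (subT n a.2 b.2)) (wht n (subT n a.1 b.1))) := rfl
    rw [e]
    simp only [coef, wht]
    split_ifs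
    · rw [coef_subT, coef_subT, coef_subT, coef_wht_subT n, coef_wht_subT n]; ring
    · rw [coef_addT, coef_addT, coef_addT, coef_wht_subT n, coef_wht_subT n]; ring

/-- **Fourier inversion on trees.** -/
theorem coef_wht_iwht : ∀ (n : ℕ) (c : Tr n) (S : Finset (Fin n)),
    coef n (wht n (iwht n c)) S = 2 ^ n * coef n c S
  | 0, c, S => by
    show coef 0 c S = 2 ^ 0 * coef 0 c S
    simp
  | n + 1, c, S => by
    have e : wht (n + 1) (iwht (n + 1) c) =
        (addT n (wht n (addT n (iwht n c.1) (iwht n c.2))) (wht n (subT n (iwht n c.1) (iwht n c.2))),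
          subT n (wht n (addT n (iwht n c.1) (iwht n c.2)))
            (wht n (subT n (iwht n c.1) (iwht n c.2)))) := rfl
    rw [e]
    simp only [coef]
    split_ifs
    · rw [coef_subT, coef_wht_addT, coef_wht_subT, coef_wht_iwht n, coef_wht_iwht n, pow_succ]; ring
    · rw [coef_addT, coef_wht_addT, coef_wht_subT, coef_wht_iwht n, coef_wht_iwht n, pow_succ]; ring

/-! ### Boolean-valued polynomials -/

/-- every leaf is `K` or `-K` -/
def AllPM (K : ℤ) : (n : ℕ) → Tr n → Prop
  | 0, v => leaf v = K ∨ leaf v = -K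
  | n + 1, t => AllPM K n t.1 ∧ AllPM K n t.2

lemma val_of_allPM (K : ℤ) : ∀ (n : ℕ) (t : Tr n), AllPM K n t →
    ∀ x : Fin n → Bool, val n t x = K ∨ val n t x = -K
  | 0, _, h, _ => h
  | n + 1, t, h, x => by
    simp only [val]
    split_ifs
    · exact val_of_allPM K n t.2 h.2 _
    · exact val_of_allPM K n t.1 h.1 _

/-- the Boolean function `x ↦ [P(x) = K]` of the polynomial with coefficient tree `c` -/
def efun (n : ℕ) (K : ℤ) (c : Tr n) : (Fin n → Bool) → Bool :=
  fun x => decide (val n (iwht n c) x = K)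

lemma four_efun (n : ℕ) (K : ℤ) (hK : 0 < K) (c : Tr n) (hv : AllPM K n (iwht n c))
    (S : Finset (Fin n)) :
    four (efun n K c) S * (K : ℝ) = (2 : ℝ) ^ n * ((coef n c S : ℤ) : ℝ) := by
  have h := fourZ_val n (iwht n c) S
  rw [coef_wht_iwht] at h
  have e : four (efun n K c) S * (K : ℝ) = ((fourZ (val n (iwht n c)) S : ℤ) : ℝ) := by
    unfold four fourZ
    push_cast
    rw [Finset.sum_mul]
    refine Finset.sum_congr rfl fun x _ => ?_
    have h1 : sg (efun n K c x) * (K : ℝ) = ((val n (iwht n c) x : ℤ) : ℝ) := by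
      unfold efun sg
      rcases val_of_allPM K n _ hv x with h | h
      · simp [h]
      · have hne : ¬ (-K = K) := by omega
        simp [h, hne]
    have h2 : chi S x = ((chiZ S x : ℤ) : ℝ) := by
      unfold chi chiZ sg
      push_cast
      refine Finset.prod_congr rfl fun i _ => ?_
      split_ifs <;> simp
    rw [← h1, h2]; ring
  rw [e, h]
  push_cast
  ring

/-- **A polynomial certificate gives a gadget.**  `c` is the tree of the integers `K * f̂(S)`;
if all values of the polynomial are `±K`, the coefficients above level `d` vanish, the empty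
coefficient vanishes and `d * K ^ 2 < (sum of the singleton coefficients) ^ 2`, then
`efun n K c` is a balanced Boolean function of degree at most `d` with `d < W ^ 2`. -/
theorem gadget_of_eval (n d : ℕ) (K : ℤ) (hK : 0 < K) (c : Tr n) (hv : AllPM K n (iwht n c))
    (h1 : chk n d c = true) (h2 : c0 n c = 0) (h3 : (d : ℤ) * K ^ 2 < lvl1 n c ^ 2) :
    DegLE (efun n K c) d ∧ four (efun n K c) ∅ = 0 ∧ (d : ℝ) < W (efun n K c) ^ 2 := by
  have hKR : (0 : ℝ) < (K : ℝ) := by exact_mod_cast hK
  have key : ∀ S : Finset (Fin n),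
      four (efun n K c) S = (2 : ℝ) ^ n * ((coef n c S : ℤ) : ℝ) / (K : ℝ) := by
    intro S
    rw [eq_div_iff hKR.ne']
    exact four_efun n K hK c hv S
  refine ⟨?_, ?_, ?_⟩
  · intro S hS
    rw [key, coef_chk n d c h1 S hS]
    simp
  · rw [key, coef_empty, h2]
    simp
  · have hW : W (efun n K c) = ((lvl1 n c : ℤ) : ℝ) / (K : ℝ) := by
      unfold W
      rw [Fintype.card_fin, ← sum_coef_singleton]
      push_cast
      rw [Finset.sum_div]
      refine Finset.sum_congr rfl fun i _ => ?_
      rw [key]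
      field_simp
    rw [hW, div_pow, lt_div_iff₀ (by positivity)]
    exact_mod_cast h3

/-- **A polynomial certificate proves S0085.** -/
theorem statement_of_eval (n d : ℕ) (K : ℤ) (hK : 0 < K) (c : Tr n) (hv : AllPM K n (iwht n c))
    (h1 : chk n d c = true) (h2 : c0 n c = 0) (h3 : (d : ℤ) * K ^ 2 < lvl1 n c ^ 2) (C : ℝ) :
    ∃ n : ℕ, ∃ f : (Fin n → Bool) → Bool, ∃ d : ℕ,
      (∃ x y, f x ≠ f y) ∧
      (∀ S : Finset (Fin n), d < S.card →
        ∑ x : Fin n → Bool, ((if f x then (1 : ℝ) else -1) * ∏ i ∈ S, (if x i then (1 : ℝ) else -1)) = 0) ∧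
      C * Real.sqrt d <
        ∑ i : Fin n, (∑ x : Fin n → Bool, ((if f x then (1 : ℝ) else -1) * (if x i then (1 : ℝ) else -1))) / 2 ^ n :=
  have hg := gadget_of_eval n d K hK c hv h1 h2 h3
  statement_of_gadget (efun n K c) d hg.1 hg.2.1 hg.2.2 C

end Crest.Agent.GS
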