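import Crest.Agent.GS.LandTest

/-!
# A gadget given by a sparse list of Fourier coefficients (S0085)

A polynomial `P = ∑_S c_S χ_S` with integer coefficients is stored as a binary trie `Tri`
(level `i` of the trie = coordinate `i`; right child = the monomials containing the coordinate).
`evP` computes the table of all values of `P` as a pair of packed big numbers (positive and
negative parts, fields of `w` bits), by one recursion over the trie.  `blk` tests that all
values are `±2 ^ k`; `AllBlk` does the same after restricting the first `r` coordinates in all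
`2 ^ r` ways (each restriction is a trie again, `addS`/`subS`), so that every piece can be its
own kernel computation.  `statement_of_poly` turns such a certificate into S0085.

Everything lives in the namespace `Crest.Agent.GS.Poly`.
-/

set_option autoImplicit false

namespace Crest.Agent.GS.Poly

open Crest.Agent.GS

/-- sparse binary tries with integer leaves -/
inductive Tri : Type
  | nil : Tri
  | lf : ℤ → Tri
  | nd : Tri → Tri → Tri

open Tri

/-- the leaf value -/
def lv : Tri → ℤ
  | lf c => c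
  | _ => 0

/-- left child (monomials without the coordinate) -/
def lft : Tri → Tri
  | nd a _ => a
  | _ => nil

/-- right child (monomials with the coordinate) -/
def rgt : Tri → Tri
  | nd _ b => b
  | _ => nil

/-- the coefficient tree of a trie (anything not of depth exactly `n` counts as zero) -/
def toTr : (n : ℕ) → Tri → Tr n
  | 0, t => lv t
  | n + 1, t => (toTr n (lft t), toTr n (rgt t))

/-! ### the zero tree `toTr n nil` -/

lemma addT_zero_left : ∀ (n : ℕ) (x : Tr n), addT n (toTr n nil) x = x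
  | 0, x => by
    show (0 : ℤ) + leaf x = leaf x
    exact zero_add _
  | n + 1, x => by
    show (addT n (toTr n nil) x.1, addT n (toTr n nil) x.2) = x
    rw [addT_zero_left n, addT_zero_left n]
    rfl

lemma addT_zero_right : ∀ (n : ℕ) (x : Tr n), addT n x (toTr n nil) = x
  | 0, x => by
    show leaf x + (0 : ℤ) = leaf x
    exact add_zero _
  | n + 1, x => by
    show (addT n x.1 (toTr n nil), addT n x.2 (toTr n nil)) = x
    rw [addT_zero_right n, addT_zero_right n]
    rfl

lemma subT_zero_right : ∀ (n : ℕ) (x : Tr n), subT n x (toTr n nil) = x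
  | 0, x => by
    show leaf x - (0 : ℤ) = leaf x
    exact sub_zero _
  | n + 1, x => by
    show (subT n x.1 (toTr n nil), subT n x.2 (toTr n nil)) = x
    rw [subT_zero_right n, subT_zero_right n]
    rfl

lemma iwht_zero : ∀ n : ℕ, iwht n (toTr n nil) = toTr n nil
  | 0 => rfl
  | n + 1 => by
    show (subT n (iwht n (toTr n nil)) (iwht n (toTr n nil)),
      addT n (iwht n (toTr n nil)) (iwht n (toTr n nil))) = (toTr n nil, toTr n nil)
    rw [iwht_zero n, subT_zero_right, addT_zero_right]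

lemma pk_zero (B : ℕ) : ∀ n : ℕ, pk B 0 n (toTr n nil) = 0
  | 0 => by
    show (0 : ℤ) + 0 = 0
    rfl
  | n + 1 => by
    show pk B 0 n (toTr n nil) + (B : ℤ) ^ 2 ^ n * pk B 0 n (toTr n nil) = 0
    rw [pk_zero B n]; ring

lemma isZero_zero : ∀ n : ℕ, isZero n (toTr n nil) = true
  | 0 => by
    show decide ((0 : ℤ) = 0) = true
    rfl
  | n + 1 => by
    show (isZero n (toTr n nil) && isZero n (toTr n nil)) = true
    rw [isZero_zero n]; rfl

lemma chk_zero : ∀ (n d : ℕ), chk n d (toTr n nil) = true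
  | 0, _ => rfl
  | n + 1, 0 => by
    show (chk n 0 (toTr n nil) && isZero n (toTr n nil)) = true
    rw [chk_zero n 0, isZero_zero n]; rfl
  | n + 1, d + 1 => by
    show (chk n (d + 1) (toTr n nil) && chk n d (toTr n nil)) = true
    rw [chk_zero n (d + 1), chk_zero n d]; rfl

lemma toTr_lf_succ (n : ℕ) (c : ℤ) : toTr (n + 1) (lf c) = toTr (n + 1) nil := rfl

/-! ### trie arithmetic -/

/-- sum of two tries of depth `n` -/
def addS : (n : ℕ) → Tri → Tri → Tri
  | _, nil, b => b
  | _, a, nil => a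
  | 0, a, b => lf (lv a + lv b)
  | n + 1, a, b => nd (addS n (lft a) (lft b)) (addS n (rgt a) (rgt b))

/-- difference of two tries of depth `n` -/
def subS : (n : ℕ) → Tri → Tri → Tri
  | _, a, nil => a
  | 0, a, b => lf (lv a - lv b)
  | n + 1, a, b => nd (subS n (lft a) (lft b)) (subS n (rgt a) (rgt b))

lemma toTr_addS : ∀ (n : ℕ) (a b : Tri), toTr n (addS n a b) = addT n (toTr n a) (toTr n b)
  | n, nil, b => by
    rw [addT_zero_left]
    cases n <;> rfl
  | n, lf c, nil => by
    rw [addT_zero_right]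
    cases n <;> rfl
  | n, nd a b, nil => by
    rw [addT_zero_right]
    cases n <;> rfl
  | 0, lf c, lf c' => rfl
  | 0, lf c, nd a b => rfl
  | 0, nd a b, lf c => rfl
  | 0, nd a b, nd a' b' => rfl
  | n + 1, lf c, lf c' => by
    show (toTr n (addS n nil nil), toTr n (addS n nil nil)) =
      (addT n (toTr n nil) (toTr n nil), addT n (toTr n nil) (toTr n nil))
    rw [toTr_addS n nil nil]
  | n + 1, lf c, nd a b => by
    show (toTr n (addS n nil a), toTr n (addS n nil b)) =
      (addT n (toTr n nil) (toTr n a), addT n (toTr n nil) (toTr n b))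
    rw [toTr_addS n nil a, toTr_addS n nil b]
  | n + 1, nd a b, lf c => by
    show (toTr n (addS n a nil), toTr n (addS n b nil)) =
      (addT n (toTr n a) (toTr n nil), addT n (toTr n b) (toTr n nil))
    rw [toTr_addS n a nil, toTr_addS n b nil]
  | n + 1, nd a b, nd a' b' => by
    show (toTr n (addS n a a'), toTr n (addS n b b')) =
      (addT n (toTr n a) (toTr n a'), addT n (toTr n b) (toTr n b'))
    rw [toTr_addS n a a', toTr_addS n b b']

lemma toTr_subS : ∀ (n : ℕ) (a b : Tri), toTr n (subS n a b) = subT n (toTr n a) (toTr n b)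
  | n, a, nil => by
    rw [subT_zero_right]
    cases n <;> cases a <;> rfl
  | 0, a, lf c => by cases a <;> rfl
  | 0, a, nd x y => by cases a <;> rfl
  | n + 1, a, lf c => by
    show (toTr n (subS n (lft a) nil), toTr n (subS n (rgt a) nil)) =
      (subT n (toTr n (lft a)) (toTr n nil), subT n (toTr n (rgt a)) (toTr n nil))
    rw [toTr_subS n (lft a) nil, toTr_subS n (rgt a) nil]
  | n + 1, a, nd x y => by
    show (toTr n (subS n (lft a) x), toTr n (subS n (rgt a) y)) =
      (subT n (toTr n (lft a)) (toTr n x), subT n (toTr n (rgt a)) (toTr n y))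
    rw [toTr_subS n (lft a) x, toTr_subS n (rgt a) y]

/-! ### the packed table of values -/

/-- one step of the evaluation: `(a - b, a + b)` on pairs (positive part, negative part),
the second half shifted by `s` bits -/
def comb (s : ℕ) (pa pb : ℕ × ℕ) : ℕ × ℕ :=
  (pa.1 + pb.2 + (pa.1 + pb.1) <<< s, pa.2 + pb.1 + (pa.2 + pb.2) <<< s)

/-- the values of the polynomial on all `2 ^ h` points, packed in fields of `w` bits, as a pair
(positive part, negative part) -/
def evP (w : ℕ) : (h : ℕ) → Tri → ℕ × ℕ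
  | _, nil => (0, 0)
  | 0, lf c => (Int.toNat c, Int.toNat (-c))
  | 0, nd _ _ => (0, 0)
  | _ + 1, lf _ => (0, 0)
  | h + 1, nd a b => comb (w * 2 ^ h) (evP w h a) (evP w h b)

lemma evP_spec (w : ℕ) : ∀ (h : ℕ) (t : Tri),
    (((evP w h t).1 : ℕ) : ℤ) - (((evP w h t).2 : ℕ) : ℤ) = pk (2 ^ w) 0 h (iwht h (toTr h t))
  | h, nil => by
    have e : evP w h nil = (0, 0) := by cases h <;> rfl
    rw [e, iwht_zero, pk_zero]
    simp
  | 0, lf c => by
    show ((Int.toNat c : ℕ) : ℤ) - ((Int.toNat (-c) : ℕ) : ℤ) = leaf c + 0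
    rw [add_zero]
    exact Int.toNat_sub_toNat_neg c
  | 0, nd a b => by
    show (((0 : ℕ) : ℤ)) - (((0 : ℕ) : ℤ)) = (0 : ℤ) + 0
    simp
  | h + 1, lf c => by
    have e : evP w (h + 1) (lf c) = (0, 0) := rfl
    rw [e, toTr_lf_succ, iwht_zero, pk_zero]
    simp
  | h + 1, nd a b => by
    have iha := evP_spec w h a
    have ihb := evP_spec w h b
    have e : evP w (h + 1) (nd a b) = comb (w * 2 ^ h) (evP w h a) (evP w h b) := rfl
    have e2 : pk (2 ^ w) 0 (h + 1) (iwht (h + 1) (toTr (h + 1) (nd a b))) =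
        pk (2 ^ w) 0 h (subT h (iwht h (toTr h a)) (iwht h (toTr h b))) +
          ((2 ^ w : ℕ) : ℤ) ^ 2 ^ h * pk (2 ^ w) 0 h (addT h (iwht h (toTr h a)) (iwht h (toTr h b))) :=
      rfl
    have s1 := pk_subT (2 ^ w) 0 0 h (iwht h (toTr h a)) (iwht h (toTr h b))
    have s2 := pk_addT (2 ^ w) 0 0 h (iwht h (toTr h a)) (iwht h (toTr h b))
    rw [sub_zero] at s1
    rw [add_zero] at s2
    rw [e, e2, s1, s2, ← iha, ← ihb]
    unfold comb
    have hT : ((2 ^ w : ℕ) : ℤ) ^ 2 ^ h = ((2 ^ (w * 2 ^ h) : ℕ) : ℤ) := by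
      push_cast
      rw [← pow_mul]
    rw [hT]
    simp only [Nat.shiftLeft_eq]
    push_cast
    ring

/-! ### sparse versions of the checks -/

/-- sum of the absolute values of the leaves -/
def l1S : Tri → ℕ
  | nil => 0
  | lf c => c.natAbs
  | nd a b => l1S a + l1S b

lemma l1_toTr_le : ∀ (n : ℕ) (t : Tri), l1 n (toTr n t) ≤ (l1S t : ℤ)
  | 0, nil => by
    show |(0 : ℤ)| ≤ ((0 : ℕ) : ℤ)
    simp
  | 0, lf c => by
    show |c| ≤ ((c.natAbs : ℕ) : ℤ)
    rw [Int.natCast_natAbs]
  | 0, nd a b => by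
    show |(0 : ℤ)| ≤ ((l1S a + l1S b : ℕ) : ℤ)
    rw [abs_zero]
    exact Int.natCast_nonneg _
  | n + 1, nil => by
    have h := l1_toTr_le n nil
    show l1 n (toTr n nil) + l1 n (toTr n nil) ≤ ((0 : ℕ) : ℤ)
    have h' : l1 n (toTr n nil) ≤ ((0 : ℕ) : ℤ) := h
    have h0 := l1_nonneg n (toTr n nil)
    push_cast at h' ⊢
    linarith
  | n + 1, lf c => by
    have h := l1_toTr_le n nil
    show l1 n (toTr n nil) + l1 n (toTr n nil) ≤ ((c.natAbs : ℕ) : ℤ)
    have h' : l1 n (toTr n nil) ≤ ((0 : ℕ) : ℤ) := h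
    have hc : (0 : ℤ) ≤ ((c.natAbs : ℕ) : ℤ) := Int.natCast_nonneg _
    push_cast at h'
    linarith
  | n + 1, nd a b => by
    have h1 := l1_toTr_le n a
    have h2 := l1_toTr_le n b
    show l1 n (toTr n a) + l1 n (toTr n b) ≤ ((l1S a + l1S b : ℕ) : ℤ)
    push_cast
    linarith

/-- the trie is zero at depth `n` -/
def zS : (n : ℕ) → Tri → Bool
  | _, nil => true
  | 0, lf c => decide (c = 0)
  | 0, nd _ _ => true
  | _ + 1, lf _ => true
  | n + 1, nd a b => zS n a && zS n b

lemma isZero_of_zS : ∀ (n : ℕ) (t : Tri), zS n t = true → isZero n (toTr n t) = true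
  | n, nil, _ => isZero_zero n
  | 0, lf c, h => h
  | 0, nd a b, _ => by
    show decide ((0 : ℤ) = 0) = true
    rfl
  | n + 1, lf c, _ => isZero_zero (n + 1)
  | n + 1, nd a b, h => by
    have h' : (zS n a && zS n b) = true := h
    rw [Bool.and_eq_true] at h'
    show (isZero n (toTr n a) && isZero n (toTr n b)) = true
    rw [isZero_of_zS n a h'.1, isZero_of_zS n b h'.2]; rfl

/-- no monomial of the trie has more than `d` coordinates -/
def chkS : (n : ℕ) → ℕ → Tri → Bool
  | _, _, nil => true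
  | 0, _, lf _ => true
  | 0, _, nd _ _ => true
  | _ + 1, _, lf _ => true
  | n + 1, 0, nd a b => chkS n 0 a && zS n b
  | n + 1, d + 1, nd a b => chkS n (d + 1) a && chkS n d b

lemma chk_of_chkS : ∀ (n d : ℕ) (t : Tri), chkS n d t = true → chk n d (toTr n t) = true
  | n, d, nil, _ => chk_zero n d
  | 0, _, lf _, _ => rfl
  | 0, _, nd _ _, _ => rfl
  | n + 1, d, lf c, _ => chk_zero (n + 1) d
  | n + 1, 0, nd a b, h => by
    have h' : (chkS n 0 a && zS n b) = true := h
    rw [Bool.and_eq_true] at h'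
    show (chk n 0 (toTr n a) && isZero n (toTr n b)) = true
    rw [chk_of_chkS n 0 a h'.1, isZero_of_zS n b h'.2]; rfl
  | n + 1, d + 1, nd a b, h => by
    have h' : (chkS n (d + 1) a && chkS n d b) = true := h
    rw [Bool.and_eq_true] at h'
    show (chk n (d + 1) (toTr n a) && chk n d (toTr n b)) = true
    rw [chk_of_chkS n (d + 1) a h'.1, chk_of_chkS n d b h'.2]; rfl

/-! ### the block test -/

/-- the parameters fit: `K = 2 ^ k`, offset `o`, fields of `w` bits -/
def paramsOK (w o k : ℕ) : Bool :=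
  Nat.ble (k + 2) w && (Nat.ble (2 ^ k) o && Nat.ble (2 * o + 1) (2 ^ w))

/-- all `2 ^ m` values of the polynomial `t` are `±2 ^ k` -/
def blk (w o k m : ℕ) (t : Tri) : Bool :=
  (fun (pn : ℕ × ℕ) (R : ℕ) =>
    Nat.ble (l1S t) o &&
      (Nat.ble pn.2 (pn.1 + o * R) && okP w o k m (pn.1 + o * R - pn.2)))
    (evP w m t) (rep (2 ^ w) m)

theorem allPM_of_blk (w o k m : ℕ) (t : Tri) (hp : paramsOK w o k = true)
    (h : blk w o k m t = true) : AllPM ((2 : ℤ) ^ k) m (iwht m (toTr m t)) := by
  have hp' : (Nat.ble (k + 2) w && (Nat.ble (2 ^ k) o && Nat.ble (2 * o + 1) (2 ^ w))) = true := hp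
  rw [Bool.and_eq_true, Bool.and_eq_true] at hp'
  obtain ⟨hk, hKo, ho⟩ := hp'
  have hk := Nat.le_of_ble_eq_true hk
  have hKo := Nat.le_of_ble_eq_true hKo
  have ho := Nat.le_of_ble_eq_true ho
  have h' : (Nat.ble (l1S t) o &&
      (Nat.ble (evP w m t).2 ((evP w m t).1 + o * rep (2 ^ w) m) &&
        okP w o k m ((evP w m t).1 + o * rep (2 ^ w) m - (evP w m t).2))) = true := h
  rw [Bool.and_eq_true, Bool.and_eq_true] at h'
  obtain ⟨hl, hle, hok⟩ := h'
  have hl := Nat.le_of_ble_eq_true hl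
  have hle := Nat.le_of_ble_eq_true hle
  have hw : 1 ≤ w := by omega
  have hl1 : l1 m (toTr m t) ≤ (o : ℤ) := le_trans (l1_toTr_le m t) (by exact_mod_cast hl)
  have hB : (o : ℤ) + l1 m (toTr m t) < ((2 ^ w : ℕ) : ℤ) := by
    have : ((2 * o + 1 : ℕ) : ℤ) ≤ ((2 ^ w : ℕ) : ℤ) := by exact_mod_cast ho
    push_cast at this ⊢
    linarith
  have hoK : o + 2 ^ k < 2 ^ w := by omega
  have hV : (((evP w m t).1 + o * rep (2 ^ w) m - (evP w m t).2 : ℕ) : ℤ) =
      pk (2 ^ w) (o : ℤ) m (iwht m (toTr m t)) := by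
    have e := pk_offset (2 ^ w) 0 (o : ℤ) m (iwht m (toTr m t))
    rw [zero_add] at e
    rw [e, ← evP_spec w m t, ← rep_cast (2 ^ w) (two_le_pow_w w hw) m, Nat.cast_sub hle]
    push_cast
    ring
  exact allPM_iwht_of_okP w o k m hk hKo hoK (toTr m t) _ hl1 hB hV hok

/-- the block test after restricting the first `r` coordinates in all ways -/
def AllBlk (w o k m : ℕ) : (r : ℕ) → Tri → Prop
  | 0, t => blk w o k m t = true
  | r + 1, t => AllBlk w o k m r (subS (m + r) (lft t) (rgt t)) ∧
      AllBlk w o k m r (addS (m + r) (lft t) (rgt t))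

lemma allBlk_zero (w o k m : ℕ) (t : Tri) (h : blk w o k m t = true) : AllBlk w o k m 0 t := h

lemma allBlk_succ (w o k m r : ℕ) (t : Tri)
    (h0 : AllBlk w o k m r (subS (m + r) (lft t) (rgt t)))
    (h1 : AllBlk w o k m r (addS (m + r) (lft t) (rgt t))) : AllBlk w o k m (r + 1) t := ⟨h0, h1⟩

theorem allPM_of_allBlk (w o k m : ℕ) (hp : paramsOK w o k = true) : ∀ (r : ℕ) (t : Tri),
    AllBlk w o k m r t → AllPM ((2 : ℤ) ^ k) (m + r) (iwht (m + r) (toTr (m + r) t))
  | 0, t, h => allPM_of_blk w o k m t hp h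
  | r + 1, t, h => by
    obtain ⟨h0, h1⟩ := h
    have a0 := allPM_of_allBlk w o k m hp r _ h0
    have a1 := allPM_of_allBlk w o k m hp r _ h1
    rw [toTr_subS] at a0
    rw [toTr_addS] at a1
    have e0 := iwht_succ_fst (m + r) (toTr (m + r + 1) t)
    have e1 := iwht_succ_snd (m + r) (toTr (m + r + 1) t)
    show AllPM ((2 : ℤ) ^ k) (m + r) (iwht (m + r + 1) (toTr (m + r + 1) t)).1 ∧
      AllPM ((2 : ℤ) ^ k) (m + r) (iwht (m + r + 1) (toTr (m + r + 1) t)).2
    rw [e0, e1]
    exact ⟨a0, a1⟩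

/-- **A sparse polynomial certificate proves S0085.**  `T` is the trie of the integers
`2 ^ k * f̂(S)` on `m + r` coordinates; `AllBlk` says that all values of the polynomial are
`±2 ^ k`; the remaining hypotheses are the degree bound, the balance and `d < W ^ 2`. -/
theorem statement_of_poly (w o k m r d : ℕ) (T : Tri) (hp : paramsOK w o k = true)
    (hblk : AllBlk w o k m r T) (hdeg : chkS (m + r) d T = true)
    (hc0 : c0 (m + r) (toTr (m + r) T) = 0)
    (hW : (d : ℤ) * ((2 : ℤ) ^ k) ^ 2 < lvl1 (m + r) (toTr (m + r) T) ^ 2) (C : ℝ) :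
    ∃ n : ℕ, ∃ f : (Fin n → Bool) → Bool, ∃ d : ℕ,
      (∃ x y, f x ≠ f y) ∧
      (∀ S : Finset (Fin n), d < S.card →
        ∑ x : Fin n → Bool, ((if f x then (1 : ℝ) else -1) * ∏ i ∈ S, (if x i then (1 : ℝ) else -1)) = 0) ∧
      C * Real.sqrt d <
        ∑ i : Fin n, (∑ x : Fin n → Bool, ((if f x then (1 : ℝ) else -1) * (if x i then (1 : ℝ) else -1))) / 2 ^ n :=
  statement_of_eval (m + r) d ((2 : ℤ) ^ k) (by positivity) (toTr (m + r) T)
    (allPM_of_allBlk w o k m hp r T hblk) (chk_of_chkS (m + r) d T hdeg) hc0 hW C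

/-! ### restriction of the LAST `r` coordinates (no trie arithmetic: one pass per restriction) -/

/-- the value at a point of the polynomial with coefficient tree `c`
(head of the list = first coordinate, `true` = `+1`) -/
def evalAt : (r : ℕ) → List Bool → Tr r → ℤ
  | 0, _, c => leaf c
  | _ + 1, [], _ => 0
  | r + 1, true :: p, c => evalAt r p c.1 + evalAt r p c.2
  | r + 1, false :: p, c => evalAt r p c.1 - evalAt r p c.2

lemma evalAt_addT : ∀ (r : ℕ) (p : List Bool) (a b : Tr r),
    evalAt r p (addT r a b) = evalAt r p a + evalAt r p b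
  | 0, _, _, _ => rfl
  | _ + 1, [], _, _ => rfl
  | r + 1, true :: p, a, b => by
    show evalAt r p (addT r a.1 b.1) + evalAt r p (addT r a.2 b.2) =
      (evalAt r p a.1 + evalAt r p a.2) + (evalAt r p b.1 + evalAt r p b.2)
    rw [evalAt_addT r p, evalAt_addT r p]; ring
  | r + 1, false :: p, a, b => by
    show evalAt r p (addT r a.1 b.1) - evalAt r p (addT r a.2 b.2) =
      (evalAt r p a.1 - evalAt r p a.2) + (evalAt r p b.1 - evalAt r p b.2)
    rw [evalAt_addT r p, evalAt_addT r p]; ring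

lemma evalAt_subT : ∀ (r : ℕ) (p : List Bool) (a b : Tr r),
    evalAt r p (subT r a b) = evalAt r p a - evalAt r p b
  | 0, _, _, _ => rfl
  | _ + 1, [], _, _ => rfl
  | r + 1, true :: p, a, b => by
    show evalAt r p (subT r a.1 b.1) + evalAt r p (subT r a.2 b.2) =
      (evalAt r p a.1 + evalAt r p a.2) - (evalAt r p b.1 + evalAt r p b.2)
    rw [evalAt_subT r p, evalAt_subT r p]; ring
  | r + 1, false :: p, a, b => by
    show evalAt r p (subT r a.1 b.1) - evalAt r p (subT r a.2 b.2) =
      (evalAt r p a.1 - evalAt r p a.2) - (evalAt r p b.1 - evalAt r p b.2)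
    rw [evalAt_subT r p, evalAt_subT r p]; ring

lemma evalAt_zero : ∀ (r : ℕ) (p : List Bool), evalAt r p (toTr r nil) = 0
  | 0, _ => rfl
  | _ + 1, [] => rfl
  | r + 1, true :: p => by
    show evalAt r p (toTr r nil) + evalAt r p (toTr r nil) = 0
    rw [evalAt_zero r p]; rfl
  | r + 1, false :: p => by
    show evalAt r p (toTr r nil) - evalAt r p (toTr r nil) = 0
    rw [evalAt_zero r p]; rfl

lemma abs_evalAt_le : ∀ (r : ℕ) (p : List Bool) (c : Tr r), |evalAt r p c| ≤ l1 r c
  | 0, _, _ => le_refl _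
  | r + 1, [], c => by
    show |(0 : ℤ)| ≤ l1 (r + 1) c
    rw [abs_zero]; exact l1_nonneg _ _
  | r + 1, true :: p, c => by
    have h1 := abs_evalAt_le r p c.1
    have h2 := abs_evalAt_le r p c.2
    show |evalAt r p c.1 + evalAt r p c.2| ≤ l1 r c.1 + l1 r c.2
    exact le_trans (abs_add_le _ _) (add_le_add h1 h2)
  | r + 1, false :: p, c => by
    have h1 := abs_evalAt_le r p c.1
    have h2 := abs_evalAt_le r p c.2
    show |evalAt r p c.1 - evalAt r p c.2| ≤ l1 r c.1 + l1 r c.2
    exact le_trans (abs_sub _ _) (add_le_add h1 h2)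

/-- point by point: all values are `±K` -/
lemma allPM_of_evalAt (K : ℤ) : ∀ (r : ℕ) (c : Tr r),
    (∀ p : List Bool, p.length = r → (evalAt r p c = K ∨ evalAt r p c = -K)) →
      AllPM K r (iwht r c)
  | 0, _, h => h [] rfl
  | r + 1, c, h => by
    show AllPM K r (iwht (r + 1) c).1 ∧ AllPM K r (iwht (r + 1) c).2
    rw [iwht_succ_fst, iwht_succ_snd]
    refine ⟨allPM_of_evalAt K r _ (fun p hp => ?_), allPM_of_evalAt K r _ (fun p hp => ?_)⟩
    · have h1 := h (false :: p) (by simp [hp])
      rw [evalAt_subT]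
      exact h1
    · have h1 := h (true :: p) (by simp [hp])
      rw [evalAt_addT]
      exact h1

/-- apply `φ` to the subtrees below level `m` -/
def slice (r : ℕ) (φ : Tr r → ℤ) : (m : ℕ) → Tr (r + m) → Tr m
  | 0, c => φ c
  | m + 1, c => (slice r φ m c.1, slice r φ m c.2)

lemma slice_addT (r : ℕ) (p : List Bool) : ∀ (m : ℕ) (a b : Tr (r + m)),
    slice r (evalAt r p) m (addT (r + m) a b) =
      addT m (slice r (evalAt r p) m a) (slice r (evalAt r p) m b)
  | 0, a, b => evalAt_addT r p a b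
  | m + 1, a, b => congrArg₂ Prod.mk (slice_addT r p m a.1 b.1) (slice_addT r p m a.2 b.2)

lemma slice_subT (r : ℕ) (p : List Bool) : ∀ (m : ℕ) (a b : Tr (r + m)),
    slice r (evalAt r p) m (subT (r + m) a b) =
      subT m (slice r (evalAt r p) m a) (slice r (evalAt r p) m b)
  | 0, a, b => evalAt_subT r p a b
  | m + 1, a, b => congrArg₂ Prod.mk (slice_subT r p m a.1 b.1) (slice_subT r p m a.2 b.2)

lemma slice_zero (r : ℕ) (p : List Bool) : ∀ m : ℕ,
    slice r (evalAt r p) m (toTr (r + m) nil) = toTr m nil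
  | 0 => evalAt_zero r p
  | m + 1 => congrArg₂ Prod.mk (slice_zero r p m) (slice_zero r p m)

lemma l1_slice_le (r : ℕ) (p : List Bool) : ∀ (m : ℕ) (c : Tr (r + m)),
    l1 m (slice r (evalAt r p) m c) ≤ l1 (r + m) c
  | 0, c => abs_evalAt_le r p c
  | m + 1, c => add_le_add (l1_slice_le r p m c.1) (l1_slice_le r p m c.2)

/-- **all values are `±K` if all restrictions of the last `r` coordinates have this property** -/
theorem allPM_of_slices (K : ℤ) (r : ℕ) : ∀ (m : ℕ) (c : Tr (r + m)),
    (∀ p : List Bool, p.length = r → AllPM K m (iwht m (slice r (evalAt r p) m c))) →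
      AllPM K (r + m) (iwht (r + m) c)
  | 0, c, h => allPM_of_evalAt K r c (fun p hp => h p hp)
  | m + 1, c, h => by
    show AllPM K (r + m) (iwht (r + m + 1) c).1 ∧ AllPM K (r + m) (iwht (r + m + 1) c).2
    rw [iwht_succ_fst, iwht_succ_snd]
    refine ⟨allPM_of_slices K r m _ (fun p hp => ?_), allPM_of_slices K r m _ (fun p hp => ?_)⟩
    · have h2 : AllPM K m (iwht (m + 1) (slice r (evalAt r p) (m + 1) c)).1 := (h p hp).1
      rw [iwht_succ_fst] at h2
      rw [slice_subT]
      exact h2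
    · have h2 : AllPM K m (iwht (m + 1) (slice r (evalAt r p) (m + 1) c)).2 := (h p hp).2
      rw [iwht_succ_snd] at h2
      rw [slice_addT]
      exact h2

/-- the value of a trie of depth `r` at a point -/
def evalS : (r : ℕ) → List Bool → Tri → ℤ
  | _, _, nil => 0
  | 0, _, lf c => c
  | 0, _, nd _ _ => 0
  | _ + 1, [], lf _ => 0
  | _ + 1, [], nd _ _ => 0
  | _ + 1, _ :: _, lf _ => 0
  | r + 1, true :: p, nd a b => evalS r p a + evalS r p b
  | r + 1, false :: p, nd a b => evalS r p a - evalS r p b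

lemma evalS_spec : ∀ (r : ℕ) (p : List Bool) (t : Tri), evalS r p t = evalAt r p (toTr r t)
  | r, p, nil => by
    rw [evalAt_zero]
    cases r <;> cases p <;> rfl
  | 0, _, lf _ => rfl
  | 0, _, nd _ _ => rfl
  | _ + 1, [], lf _ => rfl
  | _ + 1, [], nd _ _ => rfl
  | r + 1, b :: p, lf c => by
    rw [toTr_lf_succ, evalAt_zero]
    cases b <;> rfl
  | r + 1, true :: p, nd a b => by
    show evalS r p a + evalS r p b = evalAt r p (toTr r a) + evalAt r p (toTr r b)
    rw [evalS_spec r p a, evalS_spec r p b]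
  | r + 1, false :: p, nd a b => by
    show evalS r p a - evalS r p b = evalAt r p (toTr r a) - evalAt r p (toTr r b)
    rw [evalS_spec r p a, evalS_spec r p b]

/-- the packed table of values of the restriction of the last `r` coordinates to the point `p` -/
def evPr (w r : ℕ) (p : List Bool) : (m : ℕ) → Tri → ℕ × ℕ
  | _, nil => (0, 0)
  | 0, lf c => (fun v : ℤ => (Int.toNat v, Int.toNat (-v))) (evalS r p (lf c))
  | 0, nd a b => (fun v : ℤ => (Int.toNat v, Int.toNat (-v))) (evalS r p (nd a b))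
  | _ + 1, lf _ => (0, 0)
  | m + 1, nd a b => comb (w * 2 ^ m) (evPr w r p m a) (evPr w r p m b)

lemma evPr_spec (w r : ℕ) (p : List Bool) : ∀ (m : ℕ) (t : Tri),
    (((evPr w r p m t).1 : ℕ) : ℤ) - (((evPr w r p m t).2 : ℕ) : ℤ) =
      pk (2 ^ w) 0 m (iwht m (slice r (evalAt r p) m (toTr (r + m) t)))
  | m, nil => by
    have e : evPr w r p m nil = (0, 0) := by cases m <;> rfl
    rw [e, slice_zero, iwht_zero, pk_zero]
    simp
  | 0, lf c => by
    show ((Int.toNat (evalS r p (lf c)) : ℕ) : ℤ) - ((Int.toNat (-evalS r p (lf c)) : ℕ) : ℤ) =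
      evalAt r p (toTr r (lf c)) + 0
    rw [add_zero, ← evalS_spec]
    exact Int.toNat_sub_toNat_neg _
  | 0, nd a b => by
    show ((Int.toNat (evalS r p (nd a b)) : ℕ) : ℤ) - ((Int.toNat (-evalS r p (nd a b)) : ℕ) : ℤ) =
      evalAt r p (toTr r (nd a b)) + 0
    rw [add_zero, ← evalS_spec]
    exact Int.toNat_sub_toNat_neg _
  | m + 1, lf c => by
    have e : evPr w r p (m + 1) (lf c) = (0, 0) := rfl
    have e' : toTr (r + (m + 1)) (lf c) = toTr (r + (m + 1)) nil := rfl
    rw [e, e', slice_zero, iwht_zero, pk_zero]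
    simp
  | m + 1, nd a b => by
    have iha := evPr_spec w r p m a
    have ihb := evPr_spec w r p m b
    have e : evPr w r p (m + 1) (nd a b) = comb (w * 2 ^ m) (evPr w r p m a) (evPr w r p m b) := rfl
    have e2 : pk (2 ^ w) 0 (m + 1) (iwht (m + 1) (slice r (evalAt r p) (m + 1) (toTr (r + (m + 1)) (nd a b)))) =
        pk (2 ^ w) 0 m (subT m (iwht m (slice r (evalAt r p) m (toTr (r + m) a)))
            (iwht m (slice r (evalAt r p) m (toTr (r + m) b)))) +
          ((2 ^ w : ℕ) : ℤ) ^ 2 ^ m * pk (2 ^ w) 0 m (addT m (iwht m (slice r (evalAt r p) m (toTr (r + m) a)))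
            (iwht m (slice r (evalAt r p) m (toTr (r + m) b)))) :=
      rfl
    have s1 := pk_subT (2 ^ w) 0 0 m (iwht m (slice r (evalAt r p) m (toTr (r + m) a)))
      (iwht m (slice r (evalAt r p) m (toTr (r + m) b)))
    have s2 := pk_addT (2 ^ w) 0 0 m (iwht m (slice r (evalAt r p) m (toTr (r + m) a)))
      (iwht m (slice r (evalAt r p) m (toTr (r + m) b)))
    rw [sub_zero] at s1
    rw [add_zero] at s2
    rw [e, e2, s1, s2, ← iha, ← ihb]
    unfold comb
    have hT : ((2 ^ w : ℕ) : ℤ) ^ 2 ^ m = ((2 ^ (w * 2 ^ m) : ℕ) : ℤ) := by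
      push_cast
      rw [← pow_mul]
    rw [hT]
    simp only [Nat.shiftLeft_eq]
    push_cast
    ring

/-- all `2 ^ m` values of the restriction to `p` are `±2 ^ k` -/
def blkP (w o k m r : ℕ) (p : List Bool) (t : Tri) : Bool :=
  (fun (pn : ℕ × ℕ) (R : ℕ) =>
    Nat.ble pn.2 (pn.1 + o * R) && okP w o k m (pn.1 + o * R - pn.2))
    (evPr w r p m t) (rep (2 ^ w) m)

theorem allPM_of_blkP (w o k m r : ℕ) (p : List Bool) (t : Tri) (hp : paramsOK w o k = true)
    (hl : Nat.ble (l1S t) o = true) (h : blkP w o k m r p t = true) :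
    AllPM ((2 : ℤ) ^ k) m (iwht m (slice r (evalAt r p) m (toTr (r + m) t))) := by
  have hp' : (Nat.ble (k + 2) w && (Nat.ble (2 ^ k) o && Nat.ble (2 * o + 1) (2 ^ w))) = true := hp
  rw [Bool.and_eq_true, Bool.and_eq_true] at hp'
  obtain ⟨hk, hKo, ho⟩ := hp'
  have hk := Nat.le_of_ble_eq_true hk
  have hKo := Nat.le_of_ble_eq_true hKo
  have ho := Nat.le_of_ble_eq_true ho
  have h' : (Nat.ble (evPr w r p m t).2 ((evPr w r p m t).1 + o * rep (2 ^ w) m) &&
      okP w o k m ((evPr w r p m t).1 + o * rep (2 ^ w) m - (evPr w r p m t).2)) = true := h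
  rw [Bool.and_eq_true] at h'
  obtain ⟨hle, hok⟩ := h'
  have hl := Nat.le_of_ble_eq_true hl
  have hle := Nat.le_of_ble_eq_true hle
  have hw : 1 ≤ w := by omega
  have hl1 : l1 m (slice r (evalAt r p) m (toTr (r + m) t)) ≤ (o : ℤ) :=
    le_trans (l1_slice_le r p m _) (le_trans (l1_toTr_le (r + m) t) (by exact_mod_cast hl))
  have hB : (o : ℤ) + l1 m (slice r (evalAt r p) m (toTr (r + m) t)) < ((2 ^ w : ℕ) : ℤ) := by
    have : ((2 * o + 1 : ℕ) : ℤ) ≤ ((2 ^ w : ℕ) : ℤ) := by exact_mod_cast ho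
    push_cast at this ⊢
    linarith
  have hoK : o + 2 ^ k < 2 ^ w := by omega
  have hV : (((evPr w r p m t).1 + o * rep (2 ^ w) m - (evPr w r p m t).2 : ℕ) : ℤ) =
      pk (2 ^ w) (o : ℤ) m (iwht m (slice r (evalAt r p) m (toTr (r + m) t))) := by
    have e := pk_offset (2 ^ w) 0 (o : ℤ) m (iwht m (slice r (evalAt r p) m (toTr (r + m) t)))
    rw [zero_add] at e
    rw [e, ← evPr_spec w r p m t, ← rep_cast (2 ^ w) (two_le_pow_w w hw) m, Nat.cast_sub hle]
    push_cast
    ring
  exact allPM_iwht_of_okP w o k m hk hKo hoK _ _ hl1 hB hV hok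

/-- the block test for all points `pre ++ suf` with `pre` of length `j` -/
def AllP (w o k m r : ℕ) (t : Tri) : (j : ℕ) → List Bool → Prop
  | 0, suf => blkP w o k m r suf t = true
  | j + 1, suf => AllP w o k m r t j (false :: suf) ∧ AllP w o k m r t j (true :: suf)

lemma allP_zero (w o k m r : ℕ) (t : Tri) (suf : List Bool) (h : blkP w o k m r suf t = true) :
    AllP w o k m r t 0 suf := h

lemma allP_succ (w o k m r : ℕ) (t : Tri) (j : ℕ) (suf : List Bool)
    (h0 : AllP w o k m r t j (false :: suf)) (h1 : AllP w o k m r t j (true :: suf)) :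
    AllP w o k m r t (j + 1) suf := ⟨h0, h1⟩

lemma allP_paths (w o k m r : ℕ) (t : Tri) : ∀ (j : ℕ) (suf : List Bool), AllP w o k m r t j suf →
    ∀ pre : List Bool, pre.length = j → blkP w o k m r (pre ++ suf) t = true
  | 0, suf, h, pre, hpre => by
    have e : pre = [] := List.length_eq_zero_iff.mp hpre
    subst e
    exact h
  | j + 1, suf, h, pre, hpre => by
    rcases List.eq_nil_or_concat pre with e | ⟨init, b, e⟩
    · subst e
      simp at hpre
    · subst e
      have hi : init.length = j := by simpa using hpre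
      rw [List.concat_eq_append, List.append_assoc]
      cases b
      · exact allP_paths w o k m r t j (false :: suf) h.1 init hi
      · exact allP_paths w o k m r t j (true :: suf) h.2 init hi

/-- **A sparse polynomial certificate proves S0085** (restrictions of the last `r` of the `r + m`
coordinates, one kernel computation per restriction).  `T` is the trie of the integers
`2 ^ k * f̂(S)`; `AllP … r []` says that all values of the polynomial are `±2 ^ k`. -/
theorem statement_of_polyP (w o k m r d : ℕ) (T : Tri) (hp : paramsOK w o k = true)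
    (hl : Nat.ble (l1S T) o = true) (hall : AllP w o k m r T r [])
    (hdeg : chkS (r + m) d T = true) (hc0 : c0 (r + m) (toTr (r + m) T) = 0)
    (hW : (d : ℤ) * ((2 : ℤ) ^ k) ^ 2 < lvl1 (r + m) (toTr (r + m) T) ^ 2) (C : ℝ) :
    ∃ n : ℕ, ∃ f : (Fin n → Bool) → Bool, ∃ d : ℕ,
      (∃ x y, f x ≠ f y) ∧
      (∀ S : Finset (Fin n), d < S.card →
        ∑ x : Fin n → Bool, ((if f x then (1 : ℝ) else -1) * ∏ i ∈ S, (if x i then (1 : ℝ) else -1)) = 0) ∧
      C * Real.sqrt d <
        ∑ i : Fin n, (∑ x : Fin n → Bool, ((if f x then (1 : ℝ) else -1) * (if x i then (1 : ℝ) else -1))) / 2 ^ n :=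
  statement_of_eval (r + m) d ((2 : ℤ) ^ k) (by positivity) (toTr (r + m) T)
    (allPM_of_slices ((2 : ℤ) ^ k) r m (toTr (r + m) T) (fun p hpl => by
      have h := allP_paths w o k m r T r [] hall p hpl
      rw [List.append_nil] at h
      exact allPM_of_blkP w o k m r p T hp hl h))
    (chk_of_chkS (r + m) d T hdeg) hc0 hW C

end Crest.Agent.GS.Poly
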