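import Crest.Agent.GS.Chain
import Crest.Agent.GS.BiasedFast

/-!
# Real (non-dyadic) repelling fixed points of the bias polynomial

If the bias polynomial `qmean G` of a Boolean function `G` of degree at most `d` has a fixed point
`q` in an interval `[a, b] ⊆ [-1, 1]` on which `|qder G| ≥ lam` with `lam ^ 2 > d`, then S0085
holds.  The fixed point need not be dyadic: a finite tower `G ∘ ⋯ ∘ G ∘ h` over a starter `h`
whose mean is very close to `q` ends in the variance criterion `statement_of_goodB`.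

* `andB`, `orB`: the starters (`x ∧ h`, `x ∨ h` on one more variable);
* `statement_of_real_fixed`: the abstract theorem;
* `certifyRF` / `statement_of_certifyRF`: a kernel-checkable certificate for a truth table.
-/

set_option autoImplicit false
set_option linter.unusedSectionVars false

namespace Crest.Agent.GS

open Finset

section starters

variable {ι : Type*} [Fintype ι] [DecidableEq ι]

/-- `x ∧ f` on one more variable (`none` is the new variable `x`) -/
def andB (f : (ι → Bool) → Bool) : (Option ι → Bool) → Bool :=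
  fun y => if y none then f (fun i => y (some i)) else false

/-- `x ∨ f` on one more variable (`none` is the new variable `x`) -/
def orB (f : (ι → Bool) → Bool) : (Option ι → Bool) → Bool :=
  fun y => if y none then true else f (fun i => y (some i))

theorem four_andB (f : (ι → Bool) → Bool) (U : Finset (Option ι)) :
    four (andB f) U = four f U.eraseNone -
      (if none ∈ U then (-1 : ℝ) else 1) *
        (if U.eraseNone = ∅ then (2 : ℝ) ^ Fintype.card ι else 0) := by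
  have hT : ∀ x : ι → Bool,
      sg (andB f ((Equiv.piOptionEquivProd (β := fun _ : Option ι => Bool)).symm (true, x))) *
        chi U ((Equiv.piOptionEquivProd (β := fun _ : Option ι => Bool)).symm (true, x)) =
      sg (f x) * chi U.eraseNone x := by
    intro x
    rw [chi_option]
    show sg (f x) * ((if none ∈ U then sg true else 1) * chi U.eraseNone x) = _
    rw [sg_true]; simp
  have hF : ∀ x : ι → Bool,
      sg (andB f ((Equiv.piOptionEquivProd (β := fun _ : Option ι => Bool)).symm (false, x))) *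
        chi U ((Equiv.piOptionEquivProd (β := fun _ : Option ι => Bool)).symm (false, x)) =
      -(if none ∈ U then (-1 : ℝ) else 1) * chi U.eraseNone x := by
    intro x
    rw [chi_option]
    show sg false * ((if none ∈ U then sg false else 1) * chi U.eraseNone x) = _
    rw [sg_false]
    split_ifs <;> ring
  have h0 : four (andB f) U =
      ∑ x : ι → Bool, sg (f x) * chi U.eraseNone x +
        ∑ x : ι → Bool, -(if none ∈ U then (-1 : ℝ) else 1) * chi U.eraseNone x := by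
    unfold four
    rw [← Equiv.sum_comp (Equiv.piOptionEquivProd (β := fun _ : Option ι => Bool)).symm,
      Fintype.sum_prod_type, Fintype.sum_bool]
    simp only [hT, hF]
  rw [h0, ← Finset.mul_sum, sum_chi]
  unfold four
  ring

theorem four_orB (f : (ι → Bool) → Bool) (U : Finset (Option ι)) :
    four (orB f) U = (if U.eraseNone = ∅ then (2 : ℝ) ^ Fintype.card ι else 0) +
      (if none ∈ U then (-1 : ℝ) else 1) * four f U.eraseNone := by
  have hT : ∀ x : ι → Bool,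
      sg (orB f ((Equiv.piOptionEquivProd (β := fun _ : Option ι => Bool)).symm (true, x))) *
        chi U ((Equiv.piOptionEquivProd (β := fun _ : Option ι => Bool)).symm (true, x)) =
      chi U.eraseNone x := by
    intro x
    rw [chi_option]
    show sg true * ((if none ∈ U then sg true else 1) * chi U.eraseNone x) = _
    rw [sg_true]; simp
  have hF : ∀ x : ι → Bool,
      sg (orB f ((Equiv.piOptionEquivProd (β := fun _ : Option ι => Bool)).symm (false, x))) *
        chi U ((Equiv.piOptionEquivProd (β := fun _ : Option ι => Bool)).symm (false, x)) =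
      (if none ∈ U then (-1 : ℝ) else 1) * (sg (f x) * chi U.eraseNone x) := by
    intro x
    rw [chi_option]
    show sg (f x) * ((if none ∈ U then sg false else 1) * chi U.eraseNone x) = _
    rw [sg_false]
    split_ifs <;> ring
  have h0 : four (orB f) U =
      ∑ x : ι → Bool, chi U.eraseNone x +
        ∑ x : ι → Bool, (if none ∈ U then (-1 : ℝ) else 1) * (sg (f x) * chi U.eraseNone x) := by
    unfold four
    rw [← Equiv.sum_comp (Equiv.piOptionEquivProd (β := fun _ : Option ι => Bool)).symm,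
      Fintype.sum_prod_type, Fintype.sum_bool]
    simp only [hT, hF]
  rw [h0, ← Finset.mul_sum, sum_chi]
  unfold four
  ring

lemma card_lt_eraseNone {d : ℕ} (U : Finset (Option ι)) (hU : d + 1 < U.card) :
    d < U.eraseNone.card := by
  by_cases h : none ∈ U
  · rw [Finset.card_eraseNone_of_mem h]; omega
  · rw [Finset.card_eraseNone_of_not_mem h]; omega

lemma degLE_andB {f : (ι → Bool) → Bool} {d : ℕ} (hf : DegLE f d) : DegLE (andB f) (d + 1) := by
  intro U hU
  have hc := card_lt_eraseNone U hU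
  have hne : U.eraseNone ≠ ∅ := by
    intro h
    rw [h] at hc
    simp at hc
  rw [four_andB, hf _ hc, if_neg hne]
  ring

lemma degLE_orB {f : (ι → Bool) → Bool} {d : ℕ} (hf : DegLE f d) : DegLE (orB f) (d + 1) := by
  intro U hU
  have hc := card_lt_eraseNone U hU
  have hne : U.eraseNone ≠ ∅ := by
    intro h
    rw [h] at hc
    simp at hc
  rw [four_orB, hf _ hc, if_neg hne]
  ring

lemma mean_andB (f : (ι → Bool) → Bool) : mean (andB f) = (mean f - 1) / 2 := by
  unfold mean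
  rw [four_andB, Fintype.card_option, Finset.eraseNone_empty]
  simp only [Finset.notMem_empty, if_false, if_true]
  rw [pow_succ]
  have h2 : (2 : ℝ) ^ Fintype.card ι ≠ 0 := by positivity
  field_simp

lemma mean_orB (f : (ι → Bool) → Bool) : mean (orB f) = (1 + mean f) / 2 := by
  unfold mean
  rw [four_orB, Fintype.card_option, Finset.eraseNone_empty]
  simp only [Finset.notMem_empty, if_false, if_true]
  rw [pow_succ]
  have h2 : (2 : ℝ) ^ Fintype.card ι ≠ 0 := by positivity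
  field_simp

lemma W_andB (f : (ι → Bool) → Bool) : W (andB f) = (mean f + 1) / 2 + W f / 2 := by
  unfold W mean
  rw [Fintype.sum_option, Fintype.card_option]
  have hnone : four (andB f) {none} = four f ∅ + 2 ^ Fintype.card ι := by
    rw [four_andB, Finset.eraseNone_none]
    simp
  have hsome : ∀ i : ι, four (andB f) {some i} = four f {i} := by
    intro i
    rw [four_andB, eraseNone_singleton_some]
    simp
  rw [hnone]
  simp only [hsome]
  rw [← Finset.sum_div, ← Finset.sum_div, pow_succ]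
  have h2 : (2 : ℝ) ^ Fintype.card ι ≠ 0 := by positivity
  field_simp

lemma W_orB (f : (ι → Bool) → Bool) : W (orB f) = (1 - mean f) / 2 + W f / 2 := by
  unfold W mean
  rw [Fintype.sum_option, Fintype.card_option]
  have hnone : four (orB f) {none} = 2 ^ Fintype.card ι - four f ∅ := by
    rw [four_orB, Finset.eraseNone_none]
    simp
    ring
  have hsome : ∀ i : ι, four (orB f) {some i} = four f {i} := by
    intro i
    rw [four_orB, eraseNone_singleton_some]
    simp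
  rw [hnone]
  simp only [hsome]
  rw [← Finset.sum_div, ← Finset.sum_div, pow_succ]
  have h2 : (2 : ℝ) ^ Fintype.card ι ≠ 0 := by positivity
  field_simp

end starters

section density

/-- a starter of level `k`: degree at most `k + 1`, mean `m`, level-one sum at least `1 - |m|` -/
def StarterB (k : ℕ) (m : ℝ) : Prop :=
  ∃ w : ℝ, GoodB (k + 1) w m ∧ 1 - |m| ≤ w ∧ |m| ≤ 1

lemma starterB_zero : StarterB 0 0 :=
  ⟨1, goodB_base, by simp, by simp⟩

lemma starterB_and {k : ℕ} {m : ℝ} (h : StarterB k m) : StarterB (k + 1) ((m - 1) / 2) := by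
  obtain ⟨w, ⟨ι, _, _, f, hf, hW, hm⟩, hw, hm1⟩ := h
  have hab := abs_le.mp hm1
  refine ⟨(m + 1) / 2 + w / 2, ⟨Option ι, inferInstance, inferInstance, andB f, degLE_andB hf,
    ?_, ?_⟩, ?_, ?_⟩
  · rw [W_andB, hW, hm]
  · rw [mean_andB, hm]
  · have hneg : (m - 1) / 2 ≤ 0 := by linarith [hab.2]
    rw [abs_of_nonpos hneg]
    have hw0 : 0 ≤ w := le_trans (by linarith [hm1]) hw
    linarith
  · rw [abs_le]; constructor <;> linarith [hab.1, hab.2]

lemma starterB_or {k : ℕ} {m : ℝ} (h : StarterB k m) : StarterB (k + 1) ((1 + m) / 2) := by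
  obtain ⟨w, ⟨ι, _, _, f, hf, hW, hm⟩, hw, hm1⟩ := h
  have hab := abs_le.mp hm1
  refine ⟨(1 - m) / 2 + w / 2, ⟨Option ι, inferInstance, inferInstance, orB f, degLE_orB hf,
    ?_, ?_⟩, ?_, ?_⟩
  · rw [W_orB, hW, hm]
  · rw [mean_orB, hm]
  · have hpos : 0 ≤ (1 + m) / 2 := by linarith [hab.1]
    rw [abs_of_nonneg hpos]
    have hw0 : 0 ≤ w := le_trans (by linarith [hm1]) hw
    linarith
  · rw [abs_le]; constructor <;> linarith [hab.1, hab.2]

/-- the means of the starters of level `k` are `2 ^ (-k)`-dense in `[-1, 1]` -/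
lemma starterB_dense : ∀ (k : ℕ) (q : ℝ), |q| ≤ 1 → ∃ m : ℝ, StarterB k m ∧ |m - q| ≤ (1 / 2) ^ k
  | 0, q, hq => ⟨0, starterB_zero, by simpa using hq⟩
  | k + 1, q, hq => by
    have hab := abs_le.mp hq
    by_cases h0 : 0 ≤ q
    · obtain ⟨m, hm, hd⟩ := starterB_dense k (2 * q - 1) (by rw [abs_le]; constructor <;> linarith)
      refine ⟨(1 + m) / 2, starterB_or hm, ?_⟩
      have e : (1 + m) / 2 - q = (m - (2 * q - 1)) / 2 := by ring
      rw [e, abs_div, abs_of_pos (by norm_num : (0 : ℝ) < 2), pow_succ]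
      linarith
    · have h0' : q < 0 := not_le.mp h0
      obtain ⟨m, hm, hd⟩ := starterB_dense k (2 * q + 1) (by rw [abs_le]; constructor <;> linarith)
      refine ⟨(m - 1) / 2, starterB_and hm, ?_⟩
      have e : (m - 1) / 2 - q = (m - (2 * q + 1)) / 2 := by ring
      rw [e, abs_div, abs_of_pos (by norm_num : (0 : ℝ) < 2), pow_succ]
      linarith

end density

section analysis

variable {ι : Type*} [Fintype ι] [DecidableEq ι]

lemma abs_pow_sub_pow_le_mul {x y : ℝ} (hx : |x| ≤ 1) (hy : |y| ≤ 1) :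
    ∀ n : ℕ, |x ^ n - y ^ n| ≤ n * |x - y|
  | 0 => by simp
  | n + 1 => by
    have ih := abs_pow_sub_pow_le_mul hx hy n
    have e : x ^ (n + 1) - y ^ (n + 1) = x * (x ^ n - y ^ n) + (x - y) * y ^ n := by ring
    have h1 : |x * (x ^ n - y ^ n)| ≤ |x ^ n - y ^ n| := by
      rw [abs_mul]
      calc |x| * |x ^ n - y ^ n| ≤ 1 * |x ^ n - y ^ n| :=
            mul_le_mul_of_nonneg_right hx (abs_nonneg _)
        _ = _ := one_mul _
    have h2 : |(x - y) * y ^ n| ≤ |x - y| := by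
      rw [abs_mul, abs_pow]
      calc |x - y| * |y| ^ n ≤ |x - y| * 1 :=
            mul_le_mul_of_nonneg_left (pow_le_one₀ (abs_nonneg _) hy) (abs_nonneg _)
        _ = _ := mul_one _
    rw [e]
    calc |x * (x ^ n - y ^ n) + (x - y) * y ^ n|
        ≤ |x * (x ^ n - y ^ n)| + |(x - y) * y ^ n| := abs_add_le _ _
      _ ≤ n * |x - y| + |x - y| := add_le_add (le_trans h1 ih) h2
      _ = ((n + 1 : ℕ) : ℝ) * |x - y| := by push_cast; ring

/-- a Lipschitz constant of the bias polynomial on `[-1, 1]` -/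
noncomputable def lipQ (f : (ι → Bool) → Bool) : ℝ :=
  ∑ S : Finset ι, |four f S / 2 ^ Fintype.card ι| * S.card

lemma lipQ_nonneg (f : (ι → Bool) → Bool) : 0 ≤ lipQ f :=
  Finset.sum_nonneg fun _ _ => mul_nonneg (abs_nonneg _) (Nat.cast_nonneg _)

lemma qmean_lip (f : (ι → Bool) → Bool) {x y : ℝ} (hx : |x| ≤ 1) (hy : |y| ≤ 1) :
    |qmean f x - qmean f y| ≤ lipQ f * |x - y| := by
  unfold qmean lipQ
  rw [← Finset.sum_sub_distrib, Finset.sum_mul]
  refine le_trans (Finset.abs_sum_le_sum_abs _ _) (Finset.sum_le_sum fun S _ => ?_)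
  rw [← mul_sub, abs_mul, mul_assoc]
  exact mul_le_mul_of_nonneg_left (abs_pow_sub_pow_le_mul hx hy S.card) (abs_nonneg _)

/-- a Lipschitz constant of the derivative of the bias polynomial on `[-1, 1]` -/
noncomputable def lipD (f : (ι → Bool) → Bool) : ℝ :=
  ∑ S : Finset ι, (S.card : ℝ) * |four f S / 2 ^ Fintype.card ι| * ((S.card - 1 : ℕ) : ℝ)

lemma qder_lip (f : (ι → Bool) → Bool) {x y : ℝ} (hx : |x| ≤ 1) (hy : |y| ≤ 1) :
    |qder f x - qder f y| ≤ lipD f * |x - y| := by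
  unfold qder lipD
  rw [← Finset.sum_sub_distrib, Finset.sum_mul]
  refine le_trans (Finset.abs_sum_le_sum_abs _ _) (Finset.sum_le_sum fun S _ => ?_)
  have h := abs_pow_sub_pow_le_mul hx hy (S.card - 1)
  rw [← mul_sub, abs_mul, abs_mul, abs_of_nonneg (Nat.cast_nonneg (α := ℝ) S.card)]
  calc (S.card : ℝ) * |four f S / 2 ^ Fintype.card ι| * |x ^ (S.card - 1) - y ^ (S.card - 1)|
      ≤ (S.card : ℝ) * |four f S / 2 ^ Fintype.card ι| * (((S.card - 1 : ℕ) : ℝ) * |x - y|) :=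
        mul_le_mul_of_nonneg_left h (mul_nonneg (Nat.cast_nonneg _) (abs_nonneg _))
    _ = _ := by ring

lemma abs_chi_eq_one (S : Finset ι) (x : ι → Bool) : |chi S x| = 1 := by
  unfold chi
  rw [Finset.abs_prod]
  refine Finset.prod_eq_one fun i _ => ?_
  cases x i <;> simp [sg]

lemma abs_four_le (f : (ι → Bool) → Bool) (S : Finset ι) :
    |four f S| ≤ 2 ^ Fintype.card ι := by
  unfold four
  refine le_trans (Finset.abs_sum_le_sum_abs _ _) ?_
  have h1 : ∀ x : ι → Bool, |sg (f x) * chi S x| = 1 := by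
    intro x
    rw [abs_mul, abs_chi_eq_one, mul_one]
    cases f x <;> simp [sg]
  simp only [h1]
  simp

lemma lipD_le (f : (ι → Bool) → Bool) :
    lipD f ≤ (Fintype.card ι : ℝ) ^ 2 * 2 ^ Fintype.card ι := by
  unfold lipD
  have hterm : ∀ S : Finset ι,
      (S.card : ℝ) * |four f S / 2 ^ Fintype.card ι| * ((S.card - 1 : ℕ) : ℝ) ≤
        (Fintype.card ι : ℝ) ^ 2 := by
    intro S
    have hS : (S.card : ℝ) ≤ Fintype.card ι := by exact_mod_cast Finset.card_le_univ S
    have hS1 : ((S.card - 1 : ℕ) : ℝ) ≤ Fintype.card ι := by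
      have : S.card - 1 ≤ Fintype.card ι := le_trans (Nat.sub_le _ _) (Finset.card_le_univ S)
      exact_mod_cast this
    have hc : |four f S / 2 ^ Fintype.card ι| ≤ 1 := by
      rw [abs_div, abs_of_pos (by positivity : (0 : ℝ) < 2 ^ Fintype.card ι),
        div_le_one (by positivity)]
      exact abs_four_le f S
    have h0 : (0 : ℝ) ≤ S.card := Nat.cast_nonneg _
    have h1 : (0 : ℝ) ≤ ((S.card - 1 : ℕ) : ℝ) := Nat.cast_nonneg _
    calc (S.card : ℝ) * |four f S / 2 ^ Fintype.card ι| * ((S.card - 1 : ℕ) : ℝ)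
        ≤ (S.card : ℝ) * 1 * ((S.card - 1 : ℕ) : ℝ) :=
          mul_le_mul_of_nonneg_right (mul_le_mul_of_nonneg_left hc h0) h1
      _ ≤ (Fintype.card ι : ℝ) * 1 * (Fintype.card ι : ℝ) :=
          mul_le_mul (mul_le_mul_of_nonneg_right hS (by norm_num)) hS1 h1
            (by positivity)
      _ = (Fintype.card ι : ℝ) ^ 2 := by ring
  calc ∑ S : Finset ι, (S.card : ℝ) * |four f S / 2 ^ Fintype.card ι| * ((S.card - 1 : ℕ) : ℝ)
      ≤ ∑ _S : Finset ι, (Fintype.card ι : ℝ) ^ 2 := Finset.sum_le_sum fun S _ => hterm S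
    _ = (Fintype.card ι : ℝ) ^ 2 * 2 ^ Fintype.card ι := by
        rw [Finset.sum_const, Finset.card_univ, Fintype.card_finset, nsmul_eq_mul]
        push_cast
        ring

lemma qmean_continuous (f : (ι → Bool) → Bool) : Continuous (fun a : ℝ => qmean f a) := by
  unfold qmean
  fun_prop

lemma exists_pow_gt_linear {r : ℝ} (hr : 1 < r) (A B c : ℝ) (hc : 0 < c) :
    ∃ T : ℕ, A * T + B < r ^ T * c := by
  have hr1 : 0 < r - 1 := by linarith
  set ε : ℝ := (r - 1) ^ 2 * c with hε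
  have hεpos : 0 < ε := by positivity
  obtain ⟨N, hN⟩ := exists_nat_gt ((2 * |A| + |B| + 1) / ε + 1)
  refine ⟨2 * N, ?_⟩
  have hquot : 0 ≤ (2 * |A| + |B| + 1) / ε := by positivity
  have hN1 : (1 : ℝ) ≤ N := by linarith
  have hN0 : (0 : ℝ) ≤ N := by linarith
  have hbern : 1 + (N : ℝ) * (r - 1) ≤ r ^ N := by
    have := one_add_mul_le_pow (show (-2 : ℝ) ≤ r - 1 by linarith) N
    simpa using this
  have hsq : ((N : ℝ) * (r - 1)) ^ 2 ≤ r ^ (2 * N) := by
    have h0 : 0 ≤ (N : ℝ) * (r - 1) := mul_nonneg hN0 hr1.le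
    have h01 : (N : ℝ) * (r - 1) ≤ r ^ N := by linarith
    calc ((N : ℝ) * (r - 1)) ^ 2 ≤ (r ^ N) ^ 2 := pow_le_pow_left₀ h0 h01 2
      _ = r ^ (2 * N) := by rw [← pow_mul, mul_comm]
  have h1 : (N : ℝ) ^ 2 * ε ≤ r ^ (2 * N) * c := by
    have : (N : ℝ) ^ 2 * ε = ((N : ℝ) * (r - 1)) ^ 2 * c := by rw [hε]; ring
    rw [this]
    exact mul_le_mul_of_nonneg_right hsq hc.le
  have h2 : 2 * |A| + |B| + 1 < (N : ℝ) * ε := by
    have : (2 * |A| + |B| + 1) / ε < N := by linarith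
    rwa [div_lt_iff₀ hεpos] at this
  have h3 : A * ((2 * N : ℕ) : ℝ) + B ≤ (N : ℝ) * (2 * |A| + |B| + 1) := by
    push_cast
    have hA : A * (N : ℝ) ≤ |A| * N := mul_le_mul_of_nonneg_right (le_abs_self A) hN0
    have hB : B ≤ |B| * N := by
      calc B ≤ |B| := le_abs_self B
        _ = |B| * 1 := (mul_one _).symm
        _ ≤ |B| * N := mul_le_mul_of_nonneg_left hN1 (abs_nonneg _)
    nlinarith
  calc A * ((2 * N : ℕ) : ℝ) + B ≤ (N : ℝ) * (2 * |A| + |B| + 1) := h3
    _ < (N : ℝ) * ((N : ℝ) * ε) := by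
        apply mul_lt_mul_of_pos_left h2; linarith
    _ = (N : ℝ) ^ 2 * ε := by ring
    _ ≤ r ^ (2 * N) * c := h1

end analysis

/-- **A real repelling fixed point suffices.**  If the bias polynomial of a Boolean function `G`
of degree at most `d` has a fixed point `q` in an interval `(a, b) ⊆ [-1, 1]` on which
`|qder G| ≥ lam` with `lam ^ 2 > d`, then S0085 holds.  (`q` need not be dyadic.) -/
theorem statement_of_real_fixed {κ : Type} [Fintype κ] [DecidableEq κ] (G : (κ → Bool) → Bool)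
    (d : ℕ) (hd : 1 ≤ d) (hdeg : DegLE G d) (a b q lam : ℝ)
    (ha : -1 ≤ a) (hb : b ≤ 1) (haq : a < q) (hqb : q < b) (hfix : qmean G q = q)
    (hlam0 : 0 < lam) (hlam : (d : ℝ) < lam ^ 2)
    (hder : ∀ μ : ℝ, a ≤ μ → μ ≤ b → lam ≤ |qder G μ|) (C : ℝ) :
    ∃ n : ℕ, ∃ f : (Fin n → Bool) → Bool, ∃ d : ℕ,
      (∃ x y, f x ≠ f y) ∧
      (∀ S : Finset (Fin n), d < S.card →
        ∑ x : Fin n → Bool, ((if f x then (1 : ℝ) else -1) * ∏ i ∈ S, (if x i then (1 : ℝ) else -1)) = 0) ∧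
      C * Real.sqrt d <
        ∑ i : Fin n, (∑ x : Fin n → Bool, ((if f x then (1 : ℝ) else -1) * (if x i then (1 : ℝ) else -1))) / 2 ^ n := by
  -- constants
  obtain ⟨L, hL1, hlip⟩ : ∃ L : ℝ, 1 ≤ L ∧
      ∀ x y : ℝ, |x| ≤ 1 → |y| ≤ 1 → |qmean G x - qmean G y| ≤ L * |x - y| := by
    refine ⟨1 + lipQ G, by linarith [lipQ_nonneg G], fun x y hx hy => ?_⟩
    refine le_trans (qmean_lip G hx hy) ?_
    exact mul_le_mul_of_nonneg_right (by linarith) (abs_nonneg _)
  have hq1 : |q| < 1 := by rw [abs_lt]; constructor <;> linarith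
  obtain ⟨δ, hδpos, hδa, hδb⟩ : ∃ δ : ℝ, 0 < δ ∧ δ ≤ q - a ∧ δ ≤ b - q :=
    ⟨min (q - a) (b - q), lt_min (by linarith) (by linarith), min_le_left _ _, min_le_right _ _⟩
  obtain ⟨c0, hc0pos, hc0⟩ : ∃ c0 : ℝ, 0 < c0 ∧ 2 * c0 = 1 - |q| :=
    ⟨(1 - |q|) / 2, by linarith, by ring⟩
  have hdpos : (0 : ℝ) < d := by exact_mod_cast hd
  obtain ⟨ρ, hρ1, hρ⟩ : ∃ ρ : ℝ, 1 < ρ ∧ ρ * d = lam ^ 2 := by
    refine ⟨lam ^ 2 / d, ?_, by field_simp⟩
    rw [lt_div_iff₀ hdpos]; simpa using hlam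
  obtain ⟨j, hj⟩ := pow_unbounded_of_one_lt L (by norm_num : (1 : ℝ) < 2)
  obtain ⟨k0, hk0⟩ := exists_pow_lt_of_lt_one (lt_min hδpos hc0pos)
    (by norm_num : (1 / 2 : ℝ) < 1)
  obtain ⟨T, hT⟩ := exists_pow_gt_linear hρ1 (j : ℝ) ((k0 : ℝ) + 1) (c0 ^ 2) (by positivity)
  obtain ⟨m, ⟨w, hgood, hw, hm1⟩, hmq⟩ := starterB_dense (j * T + k0) q hq1.le
  -- the starter is close to the fixed point
  have hhalf : ((1 : ℝ) / 2) ^ (j * T + k0) = (((1 : ℝ) / 2) ^ j) ^ T * (1 / 2) ^ k0 := by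
    rw [pow_add, pow_mul]
  have hLj : ((1 : ℝ) / 2) ^ j * L ≤ 1 := by
    have h2j : (0 : ℝ) < 2 ^ j := by positivity
    have e : ((1 : ℝ) / 2) ^ j * L = L / 2 ^ j := by
      rw [one_div, inv_pow]; ring
    rw [e, div_le_one h2j]
    exact hj.le
  have hLT : (((1 : ℝ) / 2) ^ j) ^ T * L ^ T ≤ 1 := by
    rw [← mul_pow]
    exact pow_le_one₀ (by positivity) hLj
  have hk0δ : ((1 : ℝ) / 2) ^ k0 ≤ δ := le_trans hk0.le (min_le_left _ _)
  have hk0c : ((1 : ℝ) / 2) ^ k0 ≤ c0 := le_trans hk0.le (min_le_right _ _)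
  have hmL : |m - q| * L ^ T ≤ δ := by
    calc |m - q| * L ^ T ≤ ((1 : ℝ) / 2) ^ (j * T + k0) * L ^ T :=
          mul_le_mul_of_nonneg_right hmq (by positivity)
      _ = ((((1 : ℝ) / 2) ^ j) ^ T * L ^ T) * (1 / 2) ^ k0 := by rw [hhalf]; ring
      _ ≤ 1 * (1 / 2) ^ k0 := mul_le_mul_of_nonneg_right hLT (by positivity)
      _ ≤ δ := by rw [one_mul]; exact hk0δ
  have hmc : |m - q| ≤ c0 := by
    have hkk : ((1 : ℝ) / 2) ^ (j * T + k0) ≤ (1 / 2) ^ k0 :=
      pow_le_pow_of_le_one (by norm_num) (by norm_num) (by omega)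
    linarith
  have hw0 : c0 ≤ w := by
    have h1 : |m| ≤ |q| + |m - q| := by
      have := abs_add_le q (m - q)
      simpa using this
    linarith
  -- the chain
  have hchain : ∀ t : ℕ, t ≤ T → ∃ w' p : ℝ, GoodB (d ^ t * (j * T + k0 + 1)) w' p ∧
      |p - q| ≤ L ^ t * |m - q| ∧ lam ^ t * c0 ≤ |w'| := by
    intro t
    induction t with
    | zero =>
      intro _
      refine ⟨w, m, by simpa using hgood, by simp, ?_⟩
      rw [pow_zero, one_mul, abs_of_nonneg (le_trans hc0pos.le hw0)]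
      exact hw0
    | succ t ih =>
      intro ht
      obtain ⟨w', p, hg, hp, hw'⟩ := ih (by omega)
      have hpδ : |p - q| ≤ δ := by
        have hLt : L ^ t ≤ L ^ T := pow_le_pow_right₀ hL1 (by omega)
        calc |p - q| ≤ L ^ t * |m - q| := hp
          _ ≤ L ^ T * |m - q| := mul_le_mul_of_nonneg_right hLt (abs_nonneg _)
          _ = |m - q| * L ^ T := mul_comm _ _
          _ ≤ δ := hmL
      have hpab := abs_le.mp hpδ
      have hpa : a ≤ p := by linarith [hpab.1]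
      have hpb : p ≤ b := by linarith [hpab.2]
      have hp1 : |p| ≤ 1 := by rw [abs_le]; constructor <;> linarith
      have hstep := goodB_step_open hg G hdeg
      refine ⟨qder G p * w', qmean G p, ?_, ?_, ?_⟩
      · have e : d * (d ^ t * (j * T + k0 + 1)) = d ^ (t + 1) * (j * T + k0 + 1) := by ring
        rwa [e] at hstep
      · have h1 := hlip p q hp1 hq1.le
        rw [hfix] at h1
        calc |qmean G p - q| ≤ L * |p - q| := h1
          _ ≤ L * (L ^ t * |m - q|) := mul_le_mul_of_nonneg_left hp (by linarith)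
          _ = L ^ (t + 1) * |m - q| := by ring
      · rw [abs_mul, pow_succ]
        have h1 := hder p hpa hpb
        calc lam ^ t * lam * c0 = lam * (lam ^ t * c0) := by ring
          _ ≤ |qder G p| * |w'| := mul_le_mul h1 hw' (by positivity) (abs_nonneg _)
  obtain ⟨w', p, hg, -, hw'⟩ := hchain T le_rfl
  refine statement_of_goodB hg ?_ ?_ C
  · exact Nat.one_le_iff_ne_zero.mpr (by positivity)
  · have hD : ((d ^ T * (j * T + k0 + 1) : ℕ) : ℝ) =
        (d : ℝ) ^ T * ((j : ℝ) * T + ((k0 : ℝ) + 1)) := by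
      push_cast; ring
    have hD0 : (0 : ℝ) ≤ ((d ^ T * (j * T + k0 + 1) : ℕ) : ℝ) := Nat.cast_nonneg _
    have h1 : ((d ^ T * (j * T + k0 + 1) : ℕ) : ℝ) * (1 - p ^ 2) ≤
        ((d ^ T * (j * T + k0 + 1) : ℕ) : ℝ) := by
      nlinarith [sq_nonneg p]
    have h2 : (d : ℝ) ^ T * ((j : ℝ) * T + ((k0 : ℝ) + 1)) < (d : ℝ) ^ T * (ρ ^ T * c0 ^ 2) :=
      mul_lt_mul_of_pos_left hT (by positivity)
    have h3 : (d : ℝ) ^ T * (ρ ^ T * c0 ^ 2) = (lam ^ T * c0) ^ 2 := by
      have : (d : ℝ) ^ T * ρ ^ T = (lam ^ 2) ^ T := by rw [← mul_pow, mul_comm, hρ]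
      calc (d : ℝ) ^ T * (ρ ^ T * c0 ^ 2) = ((d : ℝ) ^ T * ρ ^ T) * c0 ^ 2 := by ring
        _ = (lam ^ 2) ^ T * c0 ^ 2 := by rw [this]
        _ = (lam ^ T * c0) ^ 2 := by ring
    have h4 : (lam ^ T * c0) ^ 2 ≤ w' ^ 2 := by
      rw [← sq_abs w']
      exact pow_le_pow_left₀ (by positivity) hw' 2
    rw [hD] at h1 ⊢
    linarith

/-! ### A kernel-checkable certificate -/

/-- The certificate for a real repelling fixed point of the gadget `G = gfun n M` of degree at
most `d`: the fixed point lies between the rationals `A1 / Bb < A2 / Bb` (MEAN coordinates, in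
`[-1, 1]`), where `qmean G μ - μ` changes sign, and
`|qder G (A1 / Bb)| - n ^ 2 * 2 ^ n * (A2 - A1) / Bb` (a lower bound of `|qder G|` on the interval)
has square larger than `d`. -/
def certifyRF (n d M : ℕ) (Bb A1 A2 : ℤ) : Bool :=
  (fun (V : ℕ) =>
    (fun (D E1 E2 D1 : ℤ) =>
      chkR (2 ^ (n + 2)) (2 ^ n) n d V &&
        (decide (1 ≤ d) && (decide (0 < Bb) && (decide (-Bb ≤ A1) && (decide (A1 < A2) &&
          (decide (A2 ≤ Bb) && (decide ((E1 * Bb - A1 * D) * (E2 * Bb - A2 * D) < 0) &&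
            (fun (Y : ℤ) => decide (0 < Y) && decide ((d : ℤ) * (D * Bb) ^ 2 < Y ^ 2))
              ((Int.natAbs D1 : ℤ) * Bb ^ 2 - (n : ℤ) ^ 2 * 2 ^ n * (A2 - A1) * D))))))))
      (2 ^ n * Bb ^ n) (evalqP (2 ^ (n + 2)) (2 ^ n) n V A1 Bb)
        (evalqP (2 ^ (n + 2)) (2 ^ n) n V A2 Bb) (devalqP (2 ^ (n + 2)) (2 ^ n) n V A1 Bb))
    (whtR (2 ^ (n + 2)) n M)

/-- **A certified real repelling fixed point proves S0085.** -/
theorem statement_of_certifyRF (n d M : ℕ) (Bb A1 A2 : ℤ)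
    (h : certifyRF n d M Bb A1 A2 = true) (C : ℝ) :
    ∃ n : ℕ, ∃ f : (Fin n → Bool) → Bool, ∃ d : ℕ,
      (∃ x y, f x ≠ f y) ∧
      (∀ S : Finset (Fin n), d < S.card →
        ∑ x : Fin n → Bool, ((if f x then (1 : ℝ) else -1) * ∏ i ∈ S, (if x i then (1 : ℝ) else -1)) = 0) ∧
      C * Real.sqrt d <
        ∑ i : Fin n, (∑ x : Fin n → Bool, ((if f x then (1 : ℝ) else -1) * (if x i then (1 : ℝ) else -1))) / 2 ^ n := by
  have hlt : 2 ^ (n + 1) < 2 ^ (n + 2) := Nat.pow_lt_pow_right (by norm_num) (by omega)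
  have hB2 : 2 ≤ 2 ^ (n + 2) := by
    have : 2 ^ 1 ≤ 2 ^ (n + 2) := Nat.pow_le_pow_right (by norm_num) (by omega)
    simpa using this
  have hoB : 2 ^ n < 2 ^ (n + 2) := Nat.pow_lt_pow_right (by norm_num) (by omega)
  have hV : ((whtR (2 ^ (n + 2)) n M : ℕ) : ℤ) =
      pk (2 ^ (n + 2)) ((2 ^ n : ℕ) : ℤ) n (wht n (mk n M)) := by
    rw [whtR_eq, whtP_eq (2 ^ (n + 2)) hB2 n M hlt]
    push_cast
    rfl
  have hbd : Bd (2 ^ (n + 2)) ((2 ^ n : ℕ) : ℤ) n (wht n (mk n M)) := by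
    refine bd_of_absLE _ _ (2 ^ n) (by push_cast; exact le_rfl) ?_ n _ (absLE_wht n M)
    have : ((2 ^ n + 2 ^ n : ℕ) : ℤ) < ((2 ^ (n + 2) : ℕ) : ℤ) := by
      have : 2 ^ n + 2 ^ n < 2 ^ (n + 2) := by
        have e : 2 ^ (n + 2) = 4 * 2 ^ n := by ring
        have : 0 < 2 ^ n := Nat.pos_of_ne_zero (by positivity)
        omega
      exact_mod_cast this
    push_cast at this ⊢
    exact this
  have h' : (chkR (2 ^ (n + 2)) (2 ^ n) n d (whtR (2 ^ (n + 2)) n M) &&
      (decide (1 ≤ d) && (decide (0 < Bb) && (decide (-Bb ≤ A1) && (decide (A1 < A2) &&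
        (decide (A2 ≤ Bb) &&
          (decide ((evalqP (2 ^ (n + 2)) (2 ^ n) n (whtR (2 ^ (n + 2)) n M) A1 Bb * Bb -
                A1 * (2 ^ n * Bb ^ n)) *
              (evalqP (2 ^ (n + 2)) (2 ^ n) n (whtR (2 ^ (n + 2)) n M) A2 Bb * Bb -
                A2 * (2 ^ n * Bb ^ n)) < 0) &&
            (decide (0 < (Int.natAbs (devalqP (2 ^ (n + 2)) (2 ^ n) n
                  (whtR (2 ^ (n + 2)) n M) A1 Bb) : ℤ) * Bb ^ 2 -
                (n : ℤ) ^ 2 * 2 ^ n * (A2 - A1) * (2 ^ n * Bb ^ n)) &&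
              decide ((d : ℤ) * ((2 ^ n * Bb ^ n) * Bb) ^ 2 <
                ((Int.natAbs (devalqP (2 ^ (n + 2)) (2 ^ n) n
                  (whtR (2 ^ (n + 2)) n M) A1 Bb) : ℤ) * Bb ^ 2 -
                (n : ℤ) ^ 2 * 2 ^ n * (A2 - A1) * (2 ^ n * Bb ^ n)) ^ 2))))))))) = true := h
  simp only [Bool.and_eq_true, decide_eq_true_eq] at h'
  obtain ⟨h1, hd1, hB0, hA1, hA12, hA2, hsign, hY0, hY⟩ := h'
  rw [chkR_eq] at h1
  have hchk := chkP_sound _ _ hB2 hoB n d _ _ hbd hV h1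
  rw [evalqP_sound _ _ A1 Bb n _ _ hbd hV, evalqP_sound _ _ A2 Bb n _ _ hbd hV] at hsign
  rw [devalqP_sound _ _ A1 Bb n _ _ hbd hV, Int.natCast_natAbs] at hY0 hY
  -- real data
  have hBpos : (0 : ℝ) < (Bb : ℝ) := by exact_mod_cast hB0
  have hBne : (Bb : ℝ) ≠ 0 := hBpos.ne'
  obtain ⟨Dr, hDr, hDpos⟩ : ∃ Dr : ℝ, Dr = 2 ^ n * (Bb : ℝ) ^ n ∧ 0 < Dr :=
    ⟨_, rfl, by positivity⟩
  have hdeg : DegLE (gfun n M) d := by
    intro S hS
    rw [four_gfun, coef_chk n d _ hchk S hS]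
    simp
  obtain ⟨a, ha_def⟩ : ∃ a : ℝ, a = (A1 : ℝ) / Bb := ⟨_, rfl⟩
  obtain ⟨b, hb_def⟩ : ∃ b : ℝ, b = (A2 : ℝ) / Bb := ⟨_, rfl⟩
  have haB : a * Bb = A1 := by rw [ha_def]; field_simp
  have hbB : b * Bb = A2 := by rw [hb_def]; field_simp
  have ha : -1 ≤ a := by
    have : (-(Bb : ℝ)) ≤ (A1 : ℝ) := by exact_mod_cast hA1
    rw [ha_def, le_div_iff₀ hBpos]; linarith
  have hb : b ≤ 1 := by
    have : (A2 : ℝ) ≤ (Bb : ℝ) := by exact_mod_cast hA2
    rw [hb_def, div_le_iff₀ hBpos]; linarith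
  have hab : a < b := by
    have : (A1 : ℝ) < (A2 : ℝ) := by exact_mod_cast hA12
    rw [ha_def, hb_def]
    exact div_lt_div_of_pos_right this hBpos
  -- the values of `qmean G μ - μ` at the endpoints
  have e1 : qmean (gfun n M) a * Dr = ((evalq n (wht n (mk n M)) A1 Bb : ℤ) : ℝ) := by
    rw [ha_def, hDr]; exact qmean_gfun n M A1 Bb hBne
  have e2 : qmean (gfun n M) b * Dr = ((evalq n (wht n (mk n M)) A2 Bb : ℤ) : ℝ) := by
    rw [hb_def, hDr]; exact qmean_gfun n M A2 Bb hBne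
  have e3 : qder (gfun n M) a * Dr = ((devalq n (wht n (mk n M)) A1 Bb : ℤ) : ℝ) * Bb := by
    rw [ha_def, hDr]; exact qder_gfun n M A1 Bb hBne
  have hsignR : (((evalq n (wht n (mk n M)) A1 Bb : ℤ) : ℝ) * Bb - (A1 : ℝ) * Dr) *
      (((evalq n (wht n (mk n M)) A2 Bb : ℤ) : ℝ) * Bb - (A2 : ℝ) * Dr) < 0 := by
    rw [hDr]
    exact_mod_cast hsign
  have hprod : (qmean (gfun n M) a - a) * (qmean (gfun n M) b - b) < 0 := by
    have e : ((qmean (gfun n M) a - a) * (qmean (gfun n M) b - b)) * (Dr * Bb) ^ 2 =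
        (((evalq n (wht n (mk n M)) A1 Bb : ℤ) : ℝ) * Bb - (A1 : ℝ) * Dr) *
          (((evalq n (wht n (mk n M)) A2 Bb : ℤ) : ℝ) * Bb - (A2 : ℝ) * Dr) := by
      rw [← e1, ← e2, ← haB, ← hbB]; ring
    have hpos : 0 < (Dr * Bb) ^ 2 := by positivity
    by_contra hcon
    have hnn : 0 ≤ (qmean (gfun n M) a - a) * (qmean (gfun n M) b - b) := not_lt.mp hcon
    have : 0 ≤ ((qmean (gfun n M) a - a) * (qmean (gfun n M) b - b)) * (Dr * Bb) ^ 2 :=
      mul_nonneg hnn hpos.le
    rw [e] at this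
    linarith
  -- the fixed point
  have hcont : Continuous (fun μ : ℝ => qmean (gfun n M) μ - μ) :=
    (qmean_continuous (gfun n M)).sub continuous_id
  obtain ⟨q, ⟨haq, hqb⟩, hq⟩ : ∃ q ∈ Set.Ioo a b, qmean (gfun n M) q - q = 0 := by
    by_cases hneg : qmean (gfun n M) a - a < 0
    · have hposb : 0 < qmean (gfun n M) b - b := by
        by_contra hcon
        have := mul_nonneg_of_nonpos_of_nonpos hneg.le (not_lt.mp hcon)
        linarith
      have := intermediate_value_Ioo hab.le hcont.continuousOn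
        (show (0 : ℝ) ∈ Set.Ioo ((fun μ : ℝ => qmean (gfun n M) μ - μ) a)
          ((fun μ : ℝ => qmean (gfun n M) μ - μ) b) from ⟨hneg, hposb⟩)
      obtain ⟨q, hq, hq0⟩ := this
      exact ⟨q, hq, hq0⟩
    · have hnna : 0 ≤ qmean (gfun n M) a - a := not_lt.mp hneg
      have hposa : 0 < qmean (gfun n M) a - a := by
        rcases hnna.lt_or_eq with h0 | h0
        · exact h0
        · rw [← h0, zero_mul] at hprod; exact absurd hprod (lt_irrefl _)
      have hnegb : qmean (gfun n M) b - b < 0 := by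
        by_contra hcon
        have := mul_nonneg hposa.le (not_lt.mp hcon)
        linarith
      have := intermediate_value_Ioo' hab.le hcont.continuousOn
        (show (0 : ℝ) ∈ Set.Ioo ((fun μ : ℝ => qmean (gfun n M) μ - μ) b)
          ((fun μ : ℝ => qmean (gfun n M) μ - μ) a) from ⟨hnegb, hposa⟩)
      obtain ⟨q, hq, hq0⟩ := this
      exact ⟨q, hq, hq0⟩
  have hfix : qmean (gfun n M) q = q := by linarith
  -- the derivative bound
  obtain ⟨lam, hlam_def⟩ : ∃ lam : ℝ,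
      lam = |qder (gfun n M) a| - (n : ℝ) ^ 2 * 2 ^ n * (b - a) := ⟨_, rfl⟩
  have habsD : |qder (gfun n M) a| * Dr = |((devalq n (wht n (mk n M)) A1 Bb : ℤ) : ℝ)| * Bb := by
    have := congrArg abs e3
    rwa [abs_mul, abs_mul, abs_of_pos hDpos, abs_of_pos hBpos] at this
  have hlamY : lam * (Dr * Bb) = |((devalq n (wht n (mk n M)) A1 Bb : ℤ) : ℝ)| * (Bb : ℝ) ^ 2 -
      (n : ℝ) ^ 2 * 2 ^ n * ((A2 : ℝ) - A1) * Dr := by
    rw [hlam_def, ← haB, ← hbB]
    have : |qder (gfun n M) a| * (Dr * Bb) =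
        |((devalq n (wht n (mk n M)) A1 Bb : ℤ) : ℝ)| * (Bb : ℝ) ^ 2 := by
      calc |qder (gfun n M) a| * (Dr * Bb) = (|qder (gfun n M) a| * Dr) * Bb := by ring
        _ = _ := by rw [habsD]; ring
    linear_combination this
  have hY0R : 0 < |((devalq n (wht n (mk n M)) A1 Bb : ℤ) : ℝ)| * (Bb : ℝ) ^ 2 -
      (n : ℝ) ^ 2 * 2 ^ n * ((A2 : ℝ) - A1) * Dr := by
    rw [hDr]
    have := hY0
    exact_mod_cast this
  have hYR : (d : ℝ) * (Dr * Bb) ^ 2 < (|((devalq n (wht n (mk n M)) A1 Bb : ℤ) : ℝ)| *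
      (Bb : ℝ) ^ 2 - (n : ℝ) ^ 2 * 2 ^ n * ((A2 : ℝ) - A1) * Dr) ^ 2 := by
    rw [hDr]
    have := hY
    exact_mod_cast this
  have hDB : 0 < Dr * Bb := mul_pos hDpos hBpos
  have hlam0 : 0 < lam := by
    rw [← hlamY] at hY0R
    by_contra hcon
    have hle : lam ≤ 0 := not_lt.mp hcon
    have := mul_nonpos_of_nonpos_of_nonneg hle hDB.le
    linarith
  have hlam : (d : ℝ) < lam ^ 2 := by
    rw [← hlamY] at hYR
    have e : (lam * (Dr * Bb)) ^ 2 = lam ^ 2 * (Dr * Bb) ^ 2 := by ring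
    rw [e] at hYR
    exact lt_of_mul_lt_mul_right hYR (by positivity)
  have hder : ∀ μ : ℝ, a ≤ μ → μ ≤ b → lam ≤ |qder (gfun n M) μ| := by
    intro μ h1 h2
    have hμ1 : |μ| ≤ 1 := by rw [abs_le]; constructor <;> linarith
    have ha1 : |a| ≤ 1 := by rw [abs_le]; constructor <;> linarith
    have hl := qder_lip (gfun n M) hμ1 ha1
    have hle := lipD_le (gfun n M)
    rw [Fintype.card_fin] at hle
    have hμa : |μ - a| ≤ b - a := by rw [abs_of_nonneg (by linarith)]; linarith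
    have h3 : |qder (gfun n M) μ - qder (gfun n M) a| ≤ (n : ℝ) ^ 2 * 2 ^ n * (b - a) := by
      calc |qder (gfun n M) μ - qder (gfun n M) a| ≤ lipD (gfun n M) * |μ - a| := hl
        _ ≤ ((n : ℝ) ^ 2 * 2 ^ n) * (b - a) :=
          mul_le_mul hle hμa (abs_nonneg _) (by positivity)
    have h4 : |qder (gfun n M) a| - |qder (gfun n M) μ| ≤
        |qder (gfun n M) a - qder (gfun n M) μ| := abs_sub_abs_le_abs_sub _ _
    rw [abs_sub_comm] at h4
    rw [hlam_def]
    linarith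
  exact statement_of_real_fixed (gfun n M) d hd1 hdeg a b q lam ha hb haq hqb hfix hlam0 hlam
    hder C

end Crest.Agent.GS
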