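import Crest.Agent.GS.Fast

/-!
# Sparse-Fourier certificate for S0085 gadgets (any number of variables)

A Boolean function of degree `d` has at most `4 ^ (d - 1)` non-zero Fourier coefficients, all in
`2 ^ (1 - d) ℤ`.  The certificate is the trie `Sp` of the scaled coefficients.  The kernel
evaluates the polynomial at all points by one recursion over the trie (packed big numbers, only
`+` and `<<<`), chunked by restricting the first variables, and checks with one `&&&` per chunk
that every value is `± sc`.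

Use: `statement_of_sparse' w o km pat sc d k h s …` with `w = 16`, `sc = 2 ^ (d - 1)`,
`o = sc + 4 * sc * t ≥ absS s`, `km = 2 ^ w - 1 - 2 * sc`, `pat = o - sc`, `k + h` variables;
every hypothesis is closed by `decide +kernel` (the `2 ^ h` chunk facts one declaration each).
No gadget is known: this file proves no statement by itself.
-/

set_option autoImplicit false
set_option linter.unusedSectionVars false

namespace Crest.Agent.GS

open Finset

/-- sparse coefficient tries: `l p q` is the leaf `p - q`, `n a b` = (coordinate `0` not in the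
set, coordinate `0` in the set) -/
inductive Sp : Type
  | z : Sp
  | l : ℕ → ℕ → Sp
  | n : Sp → Sp → Sp

/-- the zero tree -/
def zeroT : (k : ℕ) → Tr k
  | 0 => (0 : ℤ)
  | k + 1 => (zeroT k, zeroT k)

/-- the dense coefficient tree of a trie -/
def toTr : (k : ℕ) → Sp → Tr k
  | 0, Sp.l p q => ((p : ℤ) - (q : ℤ) : ℤ)
  | 0, _ => (0 : ℤ)
  | k + 1, Sp.n a b => (toTr k a, toTr k b)
  | k + 1, _ => zeroT (k + 1)

/-- inverse transform: from coefficients (convention of `coef`) to values (convention of `val`) -/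
def ival : (k : ℕ) → Tr k → Tr k
  | 0, v => v
  | k + 1, c => (subT k (ival k c.1) (ival k c.2), addT k (ival k c.1) (ival k c.2))

lemma val_addT : ∀ (k : ℕ) (a b : Tr k) (x : Fin k → Bool),
    val k (addT k a b) x = val k a x + val k b x
  | 0, a, b, x => rfl
  | k + 1, a, b, x => by
    simp only [val, addT]
    split_ifs <;> exact val_addT k _ _ _

lemma val_subT : ∀ (k : ℕ) (a b : Tr k) (x : Fin k → Bool),
    val k (subT k a b) x = val k a x - val k b x
  | 0, a, b, x => rfl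
  | k + 1, a, b, x => by
    simp only [val, subT]
    split_ifs <;> exact val_subT k _ _ _

lemma val_zeroT : ∀ (k : ℕ) (x : Fin k → Bool), val k (zeroT k) x = 0
  | 0, x => rfl
  | k + 1, x => by
    simp only [val, zeroT]
    split_ifs <;> exact val_zeroT k _

lemma val_ival_zeroT : ∀ (k : ℕ) (x : Fin k → Bool), val k (ival k (zeroT k)) x = 0
  | 0, x => rfl
  | k + 1, x => by
    simp only [val, ival, zeroT]
    split_ifs
    · rw [val_addT, val_ival_zeroT k]; rfl
    · rw [val_subT, val_ival_zeroT k]; rfl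

/-- the Fourier sums of the inverse transform are the coefficients, scaled by `2 ^ k` -/
theorem fourZ_ival : ∀ (k : ℕ) (c : Tr k) (S : Finset (Fin k)),
    fourZ (val k (ival k c)) S = 2 ^ k * coef k c S
  | 0, c, S => by
    have hS : S = ∅ := by
      ext i; exact i.elim0
    subst hS
    unfold fourZ chiZ
    rw [Fintype.sum_unique]
    simp only [Finset.prod_empty]
    show val 0 (ival 0 c) default * 1 = 2 ^ 0 * coef 0 c ∅
    simp only [pow_zero, one_mul, mul_one]
    rfl
  | k + 1, c, S => by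
    have ih1 := fourZ_ival k c.1 (tl S)
    have ih2 := fourZ_ival k c.2 (tl S)
    unfold fourZ at ih1 ih2 ⊢
    rw [sum_cube_succ]
    have hv1 : ∀ x' : Fin k → Bool, val (k + 1) (ival (k + 1) c) (Fin.cons true x') =
        val k (ival k c.1) x' + val k (ival k c.2) x' := by
      intro x'; simp [val, ival, val_addT]
    have hv0 : ∀ x' : Fin k → Bool, val (k + 1) (ival (k + 1) c) (Fin.cons false x') =
        val k (ival k c.1) x' - val k (ival k c.2) x' := by
      intro x'; simp [val, ival, val_subT]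
    by_cases h0 : (0 : Fin (k + 1)) ∈ S
    · have hT : ∀ x' : Fin k → Bool,
          val (k + 1) (ival (k + 1) c) (Fin.cons true x') * chiZ S (Fin.cons true x') =
            val k (ival k c.1) x' * chiZ (tl S) x' + val k (ival k c.2) x' * chiZ (tl S) x' := by
        intro x'; rw [hv1, chiZ_cons]; simp [h0]; ring
      have hF : ∀ x' : Fin k → Bool,
          val (k + 1) (ival (k + 1) c) (Fin.cons false x') * chiZ S (Fin.cons false x') =
            -(val k (ival k c.1) x' * chiZ (tl S) x') + val k (ival k c.2) x' * chiZ (tl S) x' := by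
        intro x'; rw [hv0, chiZ_cons]; simp [h0]; ring
      simp only [hT, hF, Finset.sum_add_distrib, Finset.sum_neg_distrib, ih1, ih2]
      simp only [coef, h0, if_true]
      ring
    · have hT : ∀ x' : Fin k → Bool,
          val (k + 1) (ival (k + 1) c) (Fin.cons true x') * chiZ S (Fin.cons true x') =
            val k (ival k c.1) x' * chiZ (tl S) x' + val k (ival k c.2) x' * chiZ (tl S) x' := by
        intro x'; rw [hv1, chiZ_cons]; simp [h0]; ring
      have hF : ∀ x' : Fin k → Bool,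
          val (k + 1) (ival (k + 1) c) (Fin.cons false x') * chiZ S (Fin.cons false x') =
            val k (ival k c.1) x' * chiZ (tl S) x' - val k (ival k c.2) x' * chiZ (tl S) x' := by
        intro x'; rw [hv0, chiZ_cons]; simp [h0]; ring
      simp only [hT, hF, Finset.sum_add_distrib, Finset.sum_sub_distrib, ih1, ih2]
      simp only [coef, h0, if_false]
      ring

/-! ### zero trees -/

lemma addT_zeroT : ∀ k : ℕ, addT k (zeroT k) (zeroT k) = zeroT k
  | 0 => rfl
  | k + 1 => by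
    show (addT k (zeroT k) (zeroT k), addT k (zeroT k) (zeroT k)) = (zeroT k, zeroT k)
    rw [addT_zeroT k]

lemma subT_zeroT : ∀ k : ℕ, subT k (zeroT k) (zeroT k) = zeroT k
  | 0 => rfl
  | k + 1 => by
    show (subT k (zeroT k) (zeroT k), subT k (zeroT k) (zeroT k)) = (zeroT k, zeroT k)
    rw [subT_zeroT k]

lemma ival_zeroT : ∀ k : ℕ, ival k (zeroT k) = zeroT k
  | 0 => rfl
  | k + 1 => by
    show (subT k (ival k (zeroT k)) (ival k (zeroT k)),
      addT k (ival k (zeroT k)) (ival k (zeroT k))) = (zeroT k, zeroT k)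
    rw [ival_zeroT k, subT_zeroT, addT_zeroT]

lemma pk_zeroT (B : ℕ) : ∀ k : ℕ, pk B 0 k (zeroT k) = 0
  | 0 => by
    show (0 : ℤ) + 0 = 0
    rfl
  | k + 1 => by
    show pk B 0 k (zeroT k) + (B : ℤ) ^ 2 ^ k * pk B 0 k (zeroT k) = 0
    rw [pk_zeroT B k]; ring

lemma absLE_zeroT (m : ℤ) (hm : 0 ≤ m) : ∀ k : ℕ, AbsLE m k (zeroT k)
  | 0 => by
    show -m ≤ (0 : ℤ) ∧ (0 : ℤ) ≤ m
    constructor <;> linarith
  | k + 1 => ⟨absLE_zeroT m hm k, absLE_zeroT m hm k⟩

/-! ### the packed evaluator -/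

/-- packed evaluation (positive part, negative part) of the inverse transform of a trie, fields of
`w` bits; recursor style for the kernel -/
noncomputable def ev (w : ℕ) (k : ℕ) : Sp → ℕ × ℕ :=
  Nat.rec (motive := fun _ => Sp → ℕ × ℕ)
    (fun s => Sp.rec (motive := fun _ => ℕ × ℕ) (0, 0) (fun p q => (p, q))
      (fun _ _ _ _ => (0, 0)) s)
    (fun k ih => (fun (sh : ℕ) (s : Sp) =>
        Sp.rec (motive := fun _ => ℕ × ℕ) (0, 0) (fun _ _ => (0, 0))
          (fun a b _ _ => (fun (pa pb : ℕ × ℕ) =>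
            ((pa.1 + pb.2) + ((pa.1 + pb.1) <<< sh), (pa.2 + pb.1) + ((pa.2 + pb.2) <<< sh)))
            (ih a) (ih b)) s) (w * 2 ^ k)) k

lemma ev_succ_n (w k : ℕ) (a b : Sp) : ev w (k + 1) (Sp.n a b) =
    (((ev w k a).1 + (ev w k b).2) + (((ev w k a).1 + (ev w k b).1) <<< (w * 2 ^ k)),
      ((ev w k a).2 + (ev w k b).1) + (((ev w k a).2 + (ev w k b).2) <<< (w * 2 ^ k))) := rfl

theorem ev_sound (w : ℕ) : ∀ (k : ℕ) (s : Sp),
    (((ev w k s).1 : ℕ) : ℤ) - (((ev w k s).2 : ℕ) : ℤ) = pk (2 ^ w) 0 k (ival k (toTr k s))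
  | 0, Sp.l p q => by
    show ((p : ℕ) : ℤ) - ((q : ℕ) : ℤ) = ((p : ℤ) - (q : ℤ)) + 0
    ring
  | 0, Sp.z => by
    show ((0 : ℕ) : ℤ) - ((0 : ℕ) : ℤ) = (0 : ℤ) + 0
    simp
  | 0, Sp.n a b => by
    show ((0 : ℕ) : ℤ) - ((0 : ℕ) : ℤ) = (0 : ℤ) + 0
    simp
  | k + 1, Sp.n a b => by
    have iha := ev_sound w k a
    have ihb := ev_sound w k b
    have hadd := pk_addT (2 ^ w) 0 0 k (ival k (toTr k a)) (ival k (toTr k b))
    have hsub := pk_subT (2 ^ w) 0 0 k (ival k (toTr k a)) (ival k (toTr k b))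
    simp only [add_zero, sub_zero] at hadd hsub
    rw [ev_succ_n]
    show _ = pk (2 ^ w) 0 k (subT k (ival k (toTr k a)) (ival k (toTr k b))) +
      ((2 ^ w : ℕ) : ℤ) ^ 2 ^ k * pk (2 ^ w) 0 k (addT k (ival k (toTr k a)) (ival k (toTr k b)))
    rw [hadd, hsub, ← iha, ← ihb]
    simp only [Nat.shiftLeft_eq]
    push_cast
    rw [pow_mul]
    ring
  | k + 1, Sp.z => by
    show ((0 : ℕ) : ℤ) - ((0 : ℕ) : ℤ) = pk (2 ^ w) 0 (k + 1) (ival (k + 1) (zeroT (k + 1)))
    rw [ival_zeroT, pk_zeroT]; simp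
  | k + 1, Sp.l p q => by
    show ((0 : ℕ) : ℤ) - ((0 : ℕ) : ℤ) = pk (2 ^ w) 0 (k + 1) (ival (k + 1) (zeroT (k + 1)))
    rw [ival_zeroT, pk_zeroT]; simp

/-- the sum of the absolute values of the leaves -/
def absS : Sp → ℕ
  | Sp.z => 0
  | Sp.l p q => p + q
  | Sp.n a b => absS a + absS b

lemma absLE_ival : ∀ (k : ℕ) (s : Sp), AbsLE (absS s : ℕ) k (ival k (toTr k s))
  | 0, Sp.l p q => by
    show -(((p + q : ℕ) : ℤ)) ≤ ((p : ℤ) - (q : ℤ)) ∧ ((p : ℤ) - (q : ℤ)) ≤ ((p + q : ℕ) : ℤ)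
    push_cast
    constructor <;> linarith [Int.natCast_nonneg p, Int.natCast_nonneg q]
  | 0, Sp.z => by
    show -(((0 : ℕ) : ℤ)) ≤ (0 : ℤ) ∧ (0 : ℤ) ≤ ((0 : ℕ) : ℤ)
    simp
  | 0, Sp.n a b => by
    show -(((absS a + absS b : ℕ) : ℤ)) ≤ (0 : ℤ) ∧ (0 : ℤ) ≤ ((absS a + absS b : ℕ) : ℤ)
    constructor <;> linarith [Int.natCast_nonneg (absS a + absS b)]
  | k + 1, Sp.n a b => by
    have ha := absLE_ival k a
    have hb := absLE_ival k b
    have e : (((absS a + absS b : ℕ)) : ℤ) = (absS a : ℤ) + (absS b : ℤ) := by push_cast; ring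
    show AbsLE ((absS a + absS b : ℕ) : ℤ) k (subT k _ _) ∧
      AbsLE ((absS a + absS b : ℕ) : ℤ) k (addT k _ _)
    rw [e]
    exact ⟨absLE_subT _ _ k _ _ ha hb, absLE_addT _ _ k _ _ ha hb⟩
  | k + 1, Sp.z => by
    show AbsLE ((0 : ℕ) : ℤ) (k + 1) (ival (k + 1) (zeroT (k + 1)))
    rw [ival_zeroT]
    exact absLE_zeroT _ (by simp) _
  | k + 1, Sp.l p q => by
    show AbsLE ((p + q : ℕ) : ℤ) (k + 1) (ival (k + 1) (zeroT (k + 1)))
    rw [ival_zeroT]
    exact absLE_zeroT _ (Int.natCast_nonneg _) _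

/-! ### signed lists of tries -/

/-- value tree of a signed list of tries -/
def sumT (k : ℕ) : List (Bool × Sp) → Tr k
  | [] => zeroT k
  | (true, s) :: L => addT k (sumT k L) (ival k (toTr k s))
  | (false, s) :: L => subT k (sumT k L) (ival k (toTr k s))

/-- packed evaluation of a signed list -/
noncomputable def evL (w k : ℕ) : List (Bool × Sp) → ℕ × ℕ
  | [] => (0, 0)
  | (true, s) :: L => (fun (r e : ℕ × ℕ) => (r.1 + e.1, r.2 + e.2)) (evL w k L) (ev w k s)
  | (false, s) :: L => (fun (r e : ℕ × ℕ) => (r.1 + e.2, r.2 + e.1)) (evL w k L) (ev w k s)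

theorem evL_sound (w k : ℕ) : ∀ L : List (Bool × Sp),
    (((evL w k L).1 : ℕ) : ℤ) - (((evL w k L).2 : ℕ) : ℤ) = pk (2 ^ w) 0 k (sumT k L)
  | [] => by
    show ((0 : ℕ) : ℤ) - ((0 : ℕ) : ℤ) = pk (2 ^ w) 0 k (zeroT k)
    rw [pk_zeroT]; simp
  | (true, s) :: L => by
    have ih := evL_sound w k L
    have hs := ev_sound w k s
    have hadd := pk_addT (2 ^ w) 0 0 k (sumT k L) (ival k (toTr k s))
    simp only [add_zero] at hadd
    show ((((evL w k L).1 + (ev w k s).1 : ℕ)) : ℤ) - ((((evL w k L).2 + (ev w k s).2 : ℕ)) : ℤ) =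
      pk (2 ^ w) 0 k (addT k (sumT k L) (ival k (toTr k s)))
    rw [hadd, ← ih, ← hs]
    push_cast
    ring
  | (false, s) :: L => by
    have ih := evL_sound w k L
    have hs := ev_sound w k s
    have hsub := pk_subT (2 ^ w) 0 0 k (sumT k L) (ival k (toTr k s))
    simp only [sub_zero] at hsub
    show ((((evL w k L).1 + (ev w k s).2 : ℕ)) : ℤ) - ((((evL w k L).2 + (ev w k s).1 : ℕ)) : ℤ) =
      pk (2 ^ w) 0 k (subT k (sumT k L) (ival k (toTr k s)))
    rw [hsub, ← ih, ← hs]
    push_cast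
    ring

/-- the sum of the absolute values of all leaves of a list -/
def absL : List (Bool × Sp) → ℕ
  | [] => 0
  | (_, s) :: L => absL L + absS s

lemma absLE_sumT (k : ℕ) : ∀ L : List (Bool × Sp), AbsLE (absL L : ℕ) k (sumT k L)
  | [] => absLE_zeroT _ (by simp [absL]) _
  | (true, s) :: L => by
    have e : ((absL L + absS s : ℕ) : ℤ) = (absL L : ℤ) + (absS s : ℤ) := by push_cast; ring
    show AbsLE ((absL L + absS s : ℕ) : ℤ) k (addT k (sumT k L) (ival k (toTr k s)))
    rw [e]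
    exact absLE_addT _ _ k _ _ (absLE_sumT k L) (absLE_ival k s)
  | (false, s) :: L => by
    have e : ((absL L + absS s : ℕ) : ℤ) = (absL L : ℤ) + (absS s : ℤ) := by push_cast; ring
    show AbsLE ((absL L + absS s : ℕ) : ℤ) k (subT k (sumT k L) (ival k (toTr k s)))
    rw [e]
    exact absLE_subT _ _ k _ _ (absLE_sumT k L) (absLE_ival k s)

/-! ### the field test -/

lemma land_split (s a b c e : ℕ) (ha : a < 2 ^ s) (hc : c < 2 ^ s) :
    (a + 2 ^ s * b) &&& (c + 2 ^ s * e) = (a &&& c) + 2 ^ s * (b &&& e) := by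
  have hac : a &&& c < 2 ^ s := lt_of_le_of_lt Nat.and_le_left ha
  apply Nat.eq_of_testBit_eq
  intro j
  rw [Nat.testBit_and, Nat.add_comm a, Nat.add_comm c, Nat.add_comm (a &&& c),
    Nat.testBit_two_pow_mul_add _ ha, Nat.testBit_two_pow_mul_add _ hc,
    Nat.testBit_two_pow_mul_add _ hac]
  split_ifs <;> simp [Nat.testBit_and]

lemma split_unique (T a b c e : ℕ) (ha : a < T) (hc : c < T) (h : a + T * b = c + T * e) :
    a = c ∧ b = e := by
  have hT : 0 < T := by omega
  have h1 : a = c := by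
    have := congrArg (fun z => z % T) h
    simp only [Nat.add_mul_mod_self_left] at this
    rwa [Nat.mod_eq_of_lt ha, Nat.mod_eq_of_lt hc] at this
  subst h1
  exact ⟨rfl, Nat.eq_of_mul_eq_mul_left hT (Nat.add_left_cancel h)⟩

lemma rep_zero (B : ℕ) (hB : 2 ≤ B) : rep B 0 = 1 := by
  have h := rep_cast B hB 0
  simp only [repZ] at h
  exact_mod_cast h

lemma rep_succ (B : ℕ) (hB : 2 ≤ B) (k : ℕ) : rep B (k + 1) = rep B k + B ^ 2 ^ k * rep B k := by
  have h1 := rep_cast B hB (k + 1)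
  have h0 := rep_cast B hB k
  simp only [repZ] at h1
  rw [← h0] at h1
  exact_mod_cast h1

lemma mul_rep_lt (B m k : ℕ) (hB : 2 ≤ B) (hm : m < B) : m * rep B k < B ^ 2 ^ k := by
  have h1 := repZ_mul B k
  have h2 := repZ_nonneg B k
  have h3 := rep_cast B hB k
  have hm' : (m : ℤ) ≤ (B : ℤ) - 1 := by
    have : ((m + 1 : ℕ) : ℤ) ≤ (B : ℤ) := by exact_mod_cast hm
    push_cast at this
    linarith
  have h4 : (m : ℤ) * repZ B k ≤ ((B : ℤ) - 1) * repZ B k := mul_le_mul_of_nonneg_right hm' h2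
  have : ((m * rep B k : ℕ) : ℤ) < ((B ^ 2 ^ k : ℕ) : ℤ) := by
    push_cast
    rw [h3]
    linarith
  exact_mod_cast this

/-- one `&&&` on the packed number tests every field -/
theorem digits_land (w o km pat sc : ℕ) (hw : 1 ≤ w) (hkm : km < 2 ^ w) (hpat : pat < 2 ^ w)
    (hleaf : ∀ u : ℕ, u < 2 ^ w → u &&& km = pat → u = o + sc ∨ u + sc = o) :
    ∀ (k : ℕ) (t : Tr k) (U : ℕ), Bd (2 ^ w) (o : ℤ) k t → (U : ℤ) = pk (2 ^ w) (o : ℤ) k t →
      U &&& (km * rep (2 ^ w) k) = pat * rep (2 ^ w) k →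
      ∀ x : Fin k → Bool, val k t x = (sc : ℤ) ∨ val k t x = -(sc : ℤ)
  | 0, t, U, hbd, hU, hland, x => by
    have hB : 2 ≤ 2 ^ w := by
      calc 2 = 2 ^ 1 := rfl
        _ ≤ 2 ^ w := Nat.pow_le_pow_right (by norm_num) hw
    rw [rep_zero _ hB, mul_one, mul_one] at hland
    have hU' : (U : ℤ) = leaf t + (o : ℤ) := hU
    have hlt : leaf t + (o : ℤ) < ((2 ^ w : ℕ) : ℤ) := hbd.2
    have hUlt : U < 2 ^ w := by
      rw [← hU'] at hlt
      exact_mod_cast hlt
    show leaf t = (sc : ℤ) ∨ leaf t = -(sc : ℤ)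
    rcases hleaf U hUlt hland with h | h
    · left
      have : (U : ℤ) = (o : ℤ) + (sc : ℤ) := by exact_mod_cast h
      linarith
    · right
      have : (U : ℤ) + (sc : ℤ) = (o : ℤ) := by exact_mod_cast h
      linarith
  | k + 1, t, U, hbd, hU, hland, x => by
    have hB : 2 ≤ 2 ^ w := by
      calc 2 = 2 ^ 1 := rfl
        _ ≤ 2 ^ w := Nat.pow_le_pow_right (by norm_num) hw
    obtain ⟨h1, h2⟩ := pk_split (2 ^ w) (o : ℤ) k t hbd U hU
    have hT : (2 ^ w) ^ 2 ^ k = 2 ^ (w * 2 ^ k) := by rw [← pow_mul]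
    have hTpos : 0 < (2 ^ w) ^ 2 ^ k := by positivity
    have hkr : km * rep (2 ^ w) k < (2 ^ w) ^ 2 ^ k := mul_rep_lt _ _ _ hB hkm
    have hpr : pat * rep (2 ^ w) k < (2 ^ w) ^ 2 ^ k := mul_rep_lt _ _ _ hB hpat
    have hmod : U % (2 ^ w) ^ 2 ^ k < (2 ^ w) ^ 2 ^ k := Nat.mod_lt _ hTpos
    have e1 : U &&& (km * rep (2 ^ w) (k + 1)) =
        (U % (2 ^ w) ^ 2 ^ k &&& (km * rep (2 ^ w) k)) +
          (2 ^ w) ^ 2 ^ k * (U / (2 ^ w) ^ 2 ^ k &&& (km * rep (2 ^ w) k)) := by
      have hU2 : U = U % (2 ^ w) ^ 2 ^ k + (2 ^ w) ^ 2 ^ k * (U / (2 ^ w) ^ 2 ^ k) :=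
        (Nat.mod_add_div U _).symm
      have hm2 : km * rep (2 ^ w) (k + 1) =
          km * rep (2 ^ w) k + (2 ^ w) ^ 2 ^ k * (km * rep (2 ^ w) k) := by
        rw [rep_succ _ hB]; ring
      rw [hm2]
      conv_lhs => rw [hU2]
      rw [hT] at hmod hkr ⊢
      exact land_split _ _ _ _ _ hmod hkr
    have e2 : pat * rep (2 ^ w) (k + 1) =
        pat * rep (2 ^ w) k + (2 ^ w) ^ 2 ^ k * (pat * rep (2 ^ w) k) := by
      rw [rep_succ _ hB]; ring
    rw [e1, e2] at hland
    have hlt : U % (2 ^ w) ^ 2 ^ k &&& (km * rep (2 ^ w) k) < (2 ^ w) ^ 2 ^ k :=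
      lt_of_le_of_lt Nat.and_le_right hkr
    obtain ⟨g1, g2⟩ := split_unique _ _ _ _ _ hlt hpr hland
    have r1 := digits_land w o km pat sc hw hkm hpat hleaf k t.1 _ hbd.1 h1 g1
    have r2 := digits_land w o km pat sc hw hkm hpat hleaf k t.2 _ hbd.2 h2 g2
    simp only [val]
    split_ifs
    · exact r2 _
    · exact r1 _

/-- the kernel check of one chunk: all values of the signed list are `± sc` -/
noncomputable def chunkOK (w o km pat k : ℕ) (L : List (Bool × Sp)) : Bool :=
  (fun (r : ℕ × ℕ) (R : ℕ) => Nat.beq (Nat.land (r.1 + o * R - r.2) (km * R)) (pat * R))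
    (evL w k L) (rep (2 ^ w) k)

theorem chunk_sound (w o km pat sc : ℕ) (hw : 1 ≤ w) (hkm : km < 2 ^ w) (hpat : pat < 2 ^ w)
    (hleaf : ∀ u : ℕ, u < 2 ^ w → u &&& km = pat → u = o + sc ∨ u + sc = o)
    (k : ℕ) (L : List (Bool × Sp)) (hb1 : absL L ≤ o) (hb2 : o + absL L < 2 ^ w)
    (h : chunkOK w o km pat k L = true) :
    ∀ x : Fin k → Bool, val k (sumT k L) x = (sc : ℤ) ∨ val k (sumT k L) x = -(sc : ℤ) := by
  have hB : 2 ≤ 2 ^ w := by
    calc 2 = 2 ^ 1 := rfl
      _ ≤ 2 ^ w := Nat.pow_le_pow_right (by norm_num) hw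
  have habs := absLE_sumT k L
  have hbd : Bd (2 ^ w) (o : ℤ) k (sumT k L) :=
    bd_of_absLE (2 ^ w) (o : ℤ) (absL L : ℕ) (by exact_mod_cast hb1) (by exact_mod_cast hb2) k _ habs
  have hev := evL_sound w k L
  have hoff := pk_offset (2 ^ w) 0 (o : ℤ) k (sumT k L)
  rw [zero_add] at hoff
  have hnn := (pk_bound (2 ^ w) (o : ℤ) k _ hbd).1
  have hrc := rep_cast (2 ^ w) hB k
  have hle : (evL w k L).2 ≤ (evL w k L).1 + o * rep (2 ^ w) k := by
    rw [hoff, ← hev, ← hrc] at hnn
    have : (((evL w k L).2 : ℕ) : ℤ) ≤ (((evL w k L).1 + o * rep (2 ^ w) k : ℕ) : ℤ) := by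
      push_cast
      linarith
    exact_mod_cast this
  have hU : (((evL w k L).1 + o * rep (2 ^ w) k - (evL w k L).2 : ℕ) : ℤ) =
      pk (2 ^ w) (o : ℤ) k (sumT k L) := by
    rw [hoff, ← hev, ← hrc]
    push_cast [Nat.cast_sub hle]
    ring
  have hland : ((evL w k L).1 + o * rep (2 ^ w) k - (evL w k L).2) &&& (km * rep (2 ^ w) k) =
      pat * rep (2 ^ w) k := Nat.eq_of_beq_eq_true h
  exact digits_land w o km pat sc hw hkm hpat hleaf k _ _ hbd hU hland

/-! ### chunks: restricting the first coordinates -/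

/-- restrict coordinate `0` to `b` (`true` is the sign `+1`) -/
def desc1 (b : Bool) : List (Bool × Sp) → List (Bool × Sp)
  | [] => []
  | (sg, Sp.n a c) :: L => (sg, a) :: ((if b then sg else !sg), c) :: desc1 b L
  | (_, Sp.z) :: L => desc1 b L
  | (_, Sp.l _ _) :: L => desc1 b L

/-- restrict the first coordinates along a path -/
def desc : List Bool → List (Bool × Sp) → List (Bool × Sp)
  | [], L => L
  | b :: σ, L => desc σ (desc1 b L)

lemma val_ival_toTr_succ (k : ℕ) (a c : Sp) (x : Fin (k + 1) → Bool) :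
    val (k + 1) (ival (k + 1) (toTr (k + 1) (Sp.n a c))) x =
      if x 0 then val k (ival k (toTr k a)) (Fin.tail x) + val k (ival k (toTr k c)) (Fin.tail x)
      else val k (ival k (toTr k a)) (Fin.tail x) - val k (ival k (toTr k c)) (Fin.tail x) := by
  show val (k + 1) (subT k (ival k (toTr k a)) (ival k (toTr k c)),
      addT k (ival k (toTr k a)) (ival k (toTr k c))) x = _
  simp only [val]
  split_ifs
  · exact val_addT k _ _ _
  · exact val_subT k _ _ _

lemma val_sumT_succ (k : ℕ) (x : Fin (k + 1) → Bool) : ∀ L : List (Bool × Sp),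
    val (k + 1) (sumT (k + 1) L) x = val k (sumT k (desc1 (x 0) L)) (Fin.tail x)
  | [] => by
    show val (k + 1) (zeroT (k + 1)) x = val k (zeroT k) (Fin.tail x)
    rw [val_zeroT, val_zeroT]
  | (true, Sp.n a c) :: L => by
    have ih := val_sumT_succ k x L
    show val (k + 1) (addT (k + 1) (sumT (k + 1) L) (ival (k + 1) (toTr (k + 1) (Sp.n a c)))) x =
      val k (sumT k ((true, a) :: ((if x 0 then true else !true), c) :: desc1 (x 0) L)) (Fin.tail x)
    rw [val_addT, val_ival_toTr_succ, ih]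
    by_cases hx : x 0 = true
    · simp only [hx, if_true]
      show _ = val k (addT k (addT k (sumT k (desc1 true L)) (ival k (toTr k c)))
        (ival k (toTr k a))) (Fin.tail x)
      rw [val_addT, val_addT]; ring
    · have hx' : x 0 = false := by simpa using hx
      simp only [hx', Bool.false_eq_true, if_false]
      show _ = val k (addT k (subT k (sumT k (desc1 false L)) (ival k (toTr k c)))
        (ival k (toTr k a))) (Fin.tail x)
      rw [val_addT, val_subT]; ring
  | (false, Sp.n a c) :: L => by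
    have ih := val_sumT_succ k x L
    show val (k + 1) (subT (k + 1) (sumT (k + 1) L) (ival (k + 1) (toTr (k + 1) (Sp.n a c)))) x =
      val k (sumT k ((false, a) :: ((if x 0 then false else !false), c) :: desc1 (x 0) L))
        (Fin.tail x)
    rw [val_subT, val_ival_toTr_succ, ih]
    by_cases hx : x 0 = true
    · simp only [hx, if_true]
      show _ = val k (subT k (subT k (sumT k (desc1 true L)) (ival k (toTr k c)))
        (ival k (toTr k a))) (Fin.tail x)
      rw [val_subT, val_subT]; ring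
    · have hx' : x 0 = false := by simpa using hx
      simp only [hx', Bool.false_eq_true, if_false]
      show _ = val k (subT k (addT k (sumT k (desc1 false L)) (ival k (toTr k c)))
        (ival k (toTr k a))) (Fin.tail x)
      rw [val_subT, val_addT]; ring
  | (true, Sp.z) :: L => by
    have ih := val_sumT_succ k x L
    show val (k + 1) (addT (k + 1) (sumT (k + 1) L) (ival (k + 1) (zeroT (k + 1)))) x =
      val k (sumT k (desc1 (x 0) L)) (Fin.tail x)
    rw [val_addT, val_ival_zeroT, ih, add_zero]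
  | (false, Sp.z) :: L => by
    have ih := val_sumT_succ k x L
    show val (k + 1) (subT (k + 1) (sumT (k + 1) L) (ival (k + 1) (zeroT (k + 1)))) x =
      val k (sumT k (desc1 (x 0) L)) (Fin.tail x)
    rw [val_subT, val_ival_zeroT, ih, sub_zero]
  | (true, Sp.l p q) :: L => by
    have ih := val_sumT_succ k x L
    show val (k + 1) (addT (k + 1) (sumT (k + 1) L) (ival (k + 1) (zeroT (k + 1)))) x =
      val k (sumT k (desc1 (x 0) L)) (Fin.tail x)
    rw [val_addT, val_ival_zeroT, ih, add_zero]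
  | (false, Sp.l p q) :: L => by
    have ih := val_sumT_succ k x L
    show val (k + 1) (subT (k + 1) (sumT (k + 1) L) (ival (k + 1) (zeroT (k + 1)))) x =
      val k (sumT k (desc1 (x 0) L)) (Fin.tail x)
    rw [val_subT, val_ival_zeroT, ih, sub_zero]

lemma absL_desc1 (b : Bool) : ∀ L : List (Bool × Sp), absL (desc1 b L) ≤ absL L
  | [] => le_rfl
  | (sg, Sp.n a c) :: L => by
    have ih := absL_desc1 b L
    show absL (desc1 b L) + absS c + absS a ≤ absL L + (absS a + absS c)
    omega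
  | (sg, Sp.z) :: L => by
    have ih := absL_desc1 b L
    show absL (desc1 b L) ≤ absL L + 0
    omega
  | (sg, Sp.l p q) :: L => by
    have ih := absL_desc1 b L
    show absL (desc1 b L) ≤ absL L + (p + q)
    omega

lemma absL_desc : ∀ (σ : List Bool) (L : List (Bool × Sp)), absL (desc σ L) ≤ absL L
  | [], _ => le_rfl
  | b :: σ, L => le_trans (absL_desc σ (desc1 b L)) (absL_desc1 b L)

/-- if every chunk has only the values `± sc`, so has the whole list -/
theorem all_of_chunks (sc : ℤ) (k : ℕ) : ∀ (h : ℕ) (L : List (Bool × Sp)),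
    (∀ σ : List Bool, σ.length = h →
      ∀ x : Fin k → Bool, val k (sumT k (desc σ L)) x = sc ∨ val k (sumT k (desc σ L)) x = -sc) →
    ∀ x : Fin (k + h) → Bool, val (k + h) (sumT (k + h) L) x = sc ∨
      val (k + h) (sumT (k + h) L) x = -sc
  | 0, _, hc, x => hc [] rfl x
  | h + 1, L, hc, x => by
    have key := val_sumT_succ (k + h) x L
    have ih := all_of_chunks sc k h (desc1 (x 0) L)
      (fun σ hσ => hc (x 0 :: σ) (by simp [hσ])) (Fin.tail x)
    show val (k + h + 1) (sumT (k + h + 1) L) x = sc ∨ val (k + h + 1) (sumT (k + h + 1) L) x = -sc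
    rw [key]
    exact ih

/-! ### the coefficient side -/

/-- the trie is syntactically zero -/
def isZ : Sp → Bool
  | Sp.z => true
  | _ => false

/-- sparse degree check -/
def chkS : (k : ℕ) → ℕ → Sp → Bool
  | 0, _, _ => true
  | k + 1, d, Sp.n a b => chkS k d a && (match d with
      | 0 => isZ b
      | d' + 1 => chkS k d' b)
  | _ + 1, _, Sp.z => true
  | _ + 1, _, Sp.l _ _ => true

/-- sparse empty coefficient -/
def c0S : (k : ℕ) → Sp → ℤ
  | 0, Sp.l p q => (p : ℤ) - (q : ℤ)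
  | 0, Sp.z => 0
  | 0, Sp.n _ _ => 0
  | k + 1, Sp.n a _ => c0S k a
  | _ + 1, Sp.z => 0
  | _ + 1, Sp.l _ _ => 0

/-- sparse sum of the singleton coefficients -/
def lvl1S : (k : ℕ) → Sp → ℤ
  | 0, _ => 0
  | k + 1, Sp.n a b => lvl1S k a + c0S k b
  | _ + 1, Sp.z => 0
  | _ + 1, Sp.l _ _ => 0

lemma isZero_zeroT : ∀ k : ℕ, isZero k (zeroT k) = true
  | 0 => by
    show decide ((0 : ℤ) = 0) = true
    simp
  | k + 1 => by
    show (isZero k (zeroT k) && isZero k (zeroT k)) = true
    rw [isZero_zeroT k]; rfl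

lemma chk_zeroT : ∀ (k d : ℕ), chk k d (zeroT k) = true
  | 0, _ => rfl
  | k + 1, 0 => by
    show (chk k 0 (zeroT k) && isZero k (zeroT k)) = true
    rw [chk_zeroT k 0, isZero_zeroT]; rfl
  | k + 1, d' + 1 => by
    show (chk k (d' + 1) (zeroT k) && chk k d' (zeroT k)) = true
    rw [chk_zeroT k (d' + 1), chk_zeroT k d']; rfl

lemma c0_zeroT : ∀ k : ℕ, c0 k (zeroT k) = 0
  | 0 => rfl
  | k + 1 => by
    show c0 k (zeroT k) = 0
    exact c0_zeroT k

lemma lvl1_zeroT : ∀ k : ℕ, lvl1 k (zeroT k) = 0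
  | 0 => rfl
  | k + 1 => by
    show Int.add (lvl1 k (zeroT k)) (c0 k (zeroT k)) = 0
    rw [lvl1_zeroT k, c0_zeroT]; rfl

lemma toTr_isZ : ∀ (k : ℕ) (s : Sp), isZ s = true → toTr k s = zeroT k
  | 0, Sp.z, _ => rfl
  | k + 1, Sp.z, _ => rfl
  | _, Sp.l _ _, h => by simp [isZ] at h
  | _, Sp.n _ _, h => by simp [isZ] at h

lemma chkS_sound : ∀ (k d : ℕ) (s : Sp), chkS k d s = true → chk k d (toTr k s) = true
  | 0, _, _, _ => rfl
  | k + 1, 0, Sp.n a b, h => by
    have h' : (chkS k 0 a && isZ b) = true := h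
    rw [Bool.and_eq_true] at h'
    show (chk k 0 (toTr k a) && isZero k (toTr k b)) = true
    rw [chkS_sound k 0 a h'.1, toTr_isZ k b h'.2, isZero_zeroT]; rfl
  | k + 1, d' + 1, Sp.n a b, h => by
    have h' : (chkS k (d' + 1) a && chkS k d' b) = true := h
    rw [Bool.and_eq_true] at h'
    show (chk k (d' + 1) (toTr k a) && chk k d' (toTr k b)) = true
    rw [chkS_sound k (d' + 1) a h'.1, chkS_sound k d' b h'.2]; rfl
  | k + 1, d, Sp.z, _ => chk_zeroT (k + 1) d
  | k + 1, d, Sp.l _ _, _ => chk_zeroT (k + 1) d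

lemma c0S_eq : ∀ (k : ℕ) (s : Sp), c0 k (toTr k s) = c0S k s
  | 0, Sp.l _ _ => rfl
  | 0, Sp.z => rfl
  | 0, Sp.n _ _ => rfl
  | k + 1, Sp.n a _ => by
    show c0 k (toTr k a) = c0S k a
    exact c0S_eq k a
  | k + 1, Sp.z => c0_zeroT (k + 1)
  | k + 1, Sp.l _ _ => c0_zeroT (k + 1)

lemma lvl1S_eq : ∀ (k : ℕ) (s : Sp), lvl1 k (toTr k s) = lvl1S k s
  | 0, _ => rfl
  | k + 1, Sp.n a b => by
    show Int.add (lvl1 k (toTr k a)) (c0 k (toTr k b)) = lvl1S k a + c0S k b
    rw [lvl1S_eq k a, c0S_eq k b]; rfl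
  | k + 1, Sp.z => lvl1_zeroT (k + 1)
  | k + 1, Sp.l _ _ => lvl1_zeroT (k + 1)

/-- all `2 ^ h` chunks pass the check `f` -/
def allChunks (f : List (Bool × Sp) → Bool) : ℕ → List (Bool × Sp) → Bool
  | 0, L => f L
  | h + 1, L => allChunks f h (desc1 false L) && allChunks f h (desc1 true L)

lemma allChunks_zero (f : List (Bool × Sp) → Bool) (L : List (Bool × Sp)) :
    allChunks f 0 L = true ↔ f L = true := Iff.rfl

lemma allChunks_succ (f : List (Bool × Sp) → Bool) (h : ℕ) (L : List (Bool × Sp)) :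
    allChunks f (h + 1) L = true ↔
      allChunks f h (desc1 false L) = true ∧ allChunks f h (desc1 true L) = true := by
  show (allChunks f h (desc1 false L) && allChunks f h (desc1 true L)) = true ↔ _
  rw [Bool.and_eq_true]

lemma allChunks_sound (f : List (Bool × Sp) → Bool) : ∀ (h : ℕ) (L : List (Bool × Sp)),
    allChunks f h L = true → ∀ σ : List Bool, σ.length = h → f (desc σ L) = true
  | 0, L, hf, σ, hσ => by
    have : σ = [] := List.length_eq_zero_iff.mp hσ
    subst this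
    exact hf
  | h + 1, L, hf, σ, hσ => by
    rw [allChunks_succ] at hf
    match σ, hσ with
    | b :: σ', hσ' =>
      have hl : σ'.length = h := by simpa using hσ'
      cases b
      · exact allChunks_sound f h _ hf.1 σ' hl
      · exact allChunks_sound f h _ hf.2 σ' hl

/-! ### the certificate -/

/-- the Boolean function of a trie: `true` where the polynomial takes the value `sc` -/
def sfun (sc : ℕ) (N : ℕ) (s : Sp) : (Fin N → Bool) → Bool :=
  fun x => decide (val N (ival N (toTr N s)) x = (sc : ℤ))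

lemma four_sfun (sc : ℕ) (hsc : 0 < sc) (N : ℕ) (s : Sp)
    (hval : ∀ x : Fin N → Bool, val N (ival N (toTr N s)) x = (sc : ℤ) ∨
      val N (ival N (toTr N s)) x = -(sc : ℤ)) (S : Finset (Fin N)) :
    four (sfun sc N s) S = (2 : ℝ) ^ N * ((coef N (toTr N s) S : ℤ) : ℝ) / (sc : ℝ) := by
  have hsc' : (sc : ℝ) ≠ 0 := by positivity
  have hZ := fourZ_ival N (toTr N s) S
  have hR : ((fourZ (val N (ival N (toTr N s))) S : ℤ) : ℝ) =
      (2 : ℝ) ^ N * ((coef N (toTr N s) S : ℤ) : ℝ) := by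
    rw [hZ]; push_cast; ring
  rw [← hR, eq_div_iff hsc']
  unfold four fourZ
  push_cast
  rw [Finset.sum_mul]
  refine Finset.sum_congr rfl fun x _ => ?_
  have h1 : sg (sfun sc N s x) * (sc : ℝ) = ((val N (ival N (toTr N s)) x : ℤ) : ℝ) := by
    unfold sfun sg
    rcases hval x with h | h
    · simp [h]
    · have hne : ¬ (-(sc : ℤ) = (sc : ℤ)) := by
        have : (0 : ℤ) < (sc : ℤ) := by exact_mod_cast hsc
        omega
      simp [h, hne]
  have h2 : chi S x = ((chiZ S x : ℤ) : ℝ) := by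
    unfold chi chiZ sg
    push_cast
    refine Finset.prod_congr rfl fun i _ => ?_
    split_ifs <;> simp
  rw [h2, ← h1]
  ring

/-- **A sparse certificate proves S0085.**  `s` is the trie of the coefficients scaled by `sc`
on `k + h` variables; `hchunks` are the kernel checks of the `2 ^ h` restrictions. -/
theorem statement_of_sparse (w o km pat sc d k h : ℕ) (s : Sp)
    (hw : 1 ≤ w) (hkm : km < 2 ^ w) (hpat : pat < 2 ^ w) (hsc : 0 < sc)
    (hleaf : ∀ u : ℕ, u < 2 ^ w → u &&& km = pat → u = o + sc ∨ u + sc = o)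
    (hb1 : absS s ≤ o) (hb2 : o + absS s < 2 ^ w)
    (hchunks : ∀ σ : List Bool, σ.length = h →
      chunkOK w o km pat k (desc σ [(true, s)]) = true)
    (hdeg : chkS (k + h) d s = true) (h0 : c0S (k + h) s = 0)
    (hW : (d : ℤ) * (sc : ℤ) ^ 2 < lvl1S (k + h) s ^ 2) (C : ℝ) :
    ∃ n : ℕ, ∃ f : (Fin n → Bool) → Bool, ∃ d : ℕ,
      (∃ x y, f x ≠ f y) ∧
      (∀ S : Finset (Fin n), d < S.card →
        ∑ x : Fin n → Bool, ((if f x then (1 : ℝ) else -1) * ∏ i ∈ S, (if x i then (1 : ℝ) else -1)) = 0) ∧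
      C * Real.sqrt d <
        ∑ i : Fin n, (∑ x : Fin n → Bool, ((if f x then (1 : ℝ) else -1) * (if x i then (1 : ℝ) else -1))) / 2 ^ n := by
  have habs0 : absL [(true, s)] = absS s := by
    show 0 + absS s = absS s
    omega
  -- all values are `± sc`
  have hall := all_of_chunks (sc : ℤ) k h [(true, s)] (fun σ hσ =>
    chunk_sound w o km pat sc hw hkm hpat hleaf k (desc σ [(true, s)])
      (le_trans (absL_desc σ _) (by rw [habs0]; exact hb1))
      (lt_of_le_of_lt (Nat.add_le_add_left (le_trans (absL_desc σ _) (by rw [habs0])) o) hb2)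
      (hchunks σ hσ))
  have hval : ∀ x : Fin (k + h) → Bool, val (k + h) (ival (k + h) (toTr (k + h) s)) x = (sc : ℤ) ∨
      val (k + h) (ival (k + h) (toTr (k + h) s)) x = -(sc : ℤ) := by
    intro x
    have hx := hall x
    have e : val (k + h) (sumT (k + h) [(true, s)]) x =
        val (k + h) (ival (k + h) (toTr (k + h) s)) x := by
      show val (k + h) (addT (k + h) (zeroT (k + h)) (ival (k + h) (toTr (k + h) s))) x = _
      rw [val_addT, val_zeroT, zero_add]
    rw [e] at hx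
    exact hx
  have hsc' : (0 : ℝ) < (sc : ℝ) := by exact_mod_cast hsc
  have hfour := four_sfun sc hsc (k + h) s hval
  have hdegc := coef_chk (k + h) d (toTr (k + h) s) (chkS_sound (k + h) d s hdeg)
  refine statement_of_gadget (sfun sc (k + h) s) d ?_ ?_ ?_ C
  · intro S hS
    rw [hfour, hdegc S hS]
    simp
  · rw [hfour, coef_empty, c0S_eq, h0]
    simp
  · have hWv : W (sfun sc (k + h) s) = ((lvl1S (k + h) s : ℤ) : ℝ) / (sc : ℝ) := by
      unfold W
      rw [Fintype.card_fin, ← lvl1S_eq, ← sum_coef_singleton]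
      push_cast
      rw [Finset.sum_div]
      refine Finset.sum_congr rfl fun i _ => ?_
      rw [hfour]
      field_simp
    rw [hWv, div_pow, lt_div_iff₀ (by positivity)]
    have : (((d : ℤ) * (sc : ℤ) ^ 2 : ℤ) : ℝ) < (((lvl1S (k + h) s) ^ 2 : ℤ) : ℝ) := by
      exact_mod_cast hW
    push_cast at this
    exact this

end Crest.Agent.GS

namespace Crest.Agent.GS

/-- the leaf fact of the field test as one Boolean -/
def leafOK (w o km pat sc : ℕ) : Bool :=
  (List.range (2 ^ w)).all (fun u =>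
    !(Nat.beq (Nat.land u km) pat) || (Nat.beq u (o + sc) || Nat.beq (u + sc) o))

lemma leaf_of_leafOK (w o km pat sc : ℕ) (h : leafOK w o km pat sc = true) :
    ∀ u : ℕ, u < 2 ^ w → u &&& km = pat → u = o + sc ∨ u + sc = o := by
  intro u hu hup
  have hk := (List.all_eq_true.mp h) u (List.mem_range.mpr hu)
  have h1 : Nat.beq (Nat.land u km) pat = true := by
    show Nat.beq (u &&& km) pat = true
    rw [hup]
    exact Nat.beq_refl pat
  rw [h1] at hk
  simp only [Bool.not_true, Bool.false_or, Bool.or_eq_true] at hk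
  rcases hk with h2 | h2
  · left; exact Nat.eq_of_beq_eq_true h2
  · right; exact Nat.eq_of_beq_eq_true h2

/-- `statement_of_sparse` with the chunk hypotheses as one `allChunks` fact -/
theorem statement_of_sparse' (w o km pat sc d k h : ℕ) (s : Sp)
    (hw : 1 ≤ w) (hkm : km < 2 ^ w) (hpat : pat < 2 ^ w) (hsc : 0 < sc)
    (hleaf : leafOK w o km pat sc = true)
    (hb1 : absS s ≤ o) (hb2 : o + absS s < 2 ^ w)
    (hchunks : allChunks (chunkOK w o km pat k) h [(true, s)] = true)
    (hdeg : chkS (k + h) d s = true) (h0 : c0S (k + h) s = 0)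
    (hW : (d : ℤ) * (sc : ℤ) ^ 2 < lvl1S (k + h) s ^ 2) (C : ℝ) :
    ∃ n : ℕ, ∃ f : (Fin n → Bool) → Bool, ∃ d : ℕ,
      (∃ x y, f x ≠ f y) ∧
      (∀ S : Finset (Fin n), d < S.card →
        ∑ x : Fin n → Bool, ((if f x then (1 : ℝ) else -1) * ∏ i ∈ S, (if x i then (1 : ℝ) else -1)) = 0) ∧
      C * Real.sqrt d <
        ∑ i : Fin n, (∑ x : Fin n → Bool, ((if f x then (1 : ℝ) else -1) * (if x i then (1 : ℝ) else -1))) / 2 ^ n :=
  statement_of_sparse w o km pat sc d k h s hw hkm hpat hsc (leaf_of_leafOK w o km pat sc hleaf) hb1 hb2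
    (allChunks_sound _ h _ hchunks) hdeg h0 hW C

end Crest.Agent.GS
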