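import Crest.Agent.GS.Sparse

/-!
# Row 63 (S0085): the sparse certificate of `Sparse.lean` for any field width

`Sparse.lean` proves the leaf fact of the one-`&&&` field test by enumerating the `2 ^ w` field
values (`leafOK`), which limits the field width to `w = 16`.  Here the leaf fact is proved once and
for all for the mask `km = 2 ^ w - 1 - 2 ^ (e + 1)` (every bit of the field except bit `e + 1`) and
the scale `sc = 2 ^ e`, so that degree-9 and degree-11 gadgets (scales `2 ^ 8`, `2 ^ 10`, absolute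
sums up to `2 ^ 20`) can use fields of 18 to 24 bits.  `spBlk` and `spPth` are kernel decoders
for tries stored as numerals (optional: they make the data files small and fast to elaborate, at
the price of decoding in every kernel check).  Helper module: it proves no statement.
-/

set_option autoImplicit false

namespace Crest.Agent.GS

/-- the leaf fact without enumeration: the mask `2 ^ w - 1 - 2 ^ (e + 1)` forgets exactly bit
`e + 1`, so a field that agrees with `pat = o - 2 ^ e` on the mask is `o - 2 ^ e` or `o + 2 ^ e` -/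
lemma leaf_gen (w e o km pat : ℕ) (he : e + 2 ≤ w) (hkm : km + 2 ^ (e + 1) + 1 = 2 ^ w)
    (hpat : pat + 2 ^ e = o) :
    ∀ u : ℕ, u < 2 ^ w → u &&& km = pat → u = o + 2 ^ e ∨ u + 2 ^ e = o := by
  intro u hu hup
  obtain ⟨r, rfl⟩ : ∃ r, w = e + 2 + r := ⟨w - (e + 2), by omega⟩
  have hs : (2 : ℕ) ^ (e + 1) = 2 * 2 ^ e := by rw [pow_succ]; ring
  have hw : (2 : ℕ) ^ (e + 2 + r) = 2 ^ (e + 1) * (2 * 2 ^ r) := by
    rw [show e + 2 + r = (e + 1) + (1 + r) by ring, pow_add, pow_add]; ring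
  have hP1 : 1 ≤ 2 ^ (e + 1) := Nat.one_le_two_pow
  have hR1 : 1 ≤ 2 ^ r := Nat.one_le_two_pow
  have hkm' : km = (2 ^ (e + 1) - 1) + 2 ^ (e + 1) * (0 + 2 ^ 1 * (2 ^ r - 1)) := by
    have h := hkm
    rw [hw] at h
    zify [hP1, hR1] at h ⊢
    linear_combination h
  have ha : u % 2 ^ (e + 1) < 2 ^ (e + 1) := Nat.mod_lt _ (by omega)
  have hc : 2 ^ (e + 1) - 1 < 2 ^ (e + 1) := by omega
  have hb : u / 2 ^ (e + 1) % 2 < 2 ^ 1 := by
    rw [pow_one]; exact Nat.mod_lt _ (by norm_num)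
  have hU : u / 2 ^ (e + 1) < 2 * 2 ^ r := by
    rw [Nat.div_lt_iff_lt_mul (by omega)]
    rw [hw] at hu
    rw [mul_comm]
    exact hu
  have hcR : u / 2 ^ (e + 1) / 2 < 2 ^ r := by
    rw [Nat.div_lt_iff_lt_mul (by norm_num)]
    rw [mul_comm]
    exact hU
  have key1 := land_split (e + 1) (u % 2 ^ (e + 1)) (u / 2 ^ (e + 1)) (2 ^ (e + 1) - 1)
    (0 + 2 ^ 1 * (2 ^ r - 1)) ha hc
  have key2 := land_split 1 (u / 2 ^ (e + 1) % 2) (u / 2 ^ (e + 1) / 2) 0 (2 ^ r - 1) hb
    (by norm_num)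
  have e1 : u % 2 ^ (e + 1) + 2 ^ (e + 1) * (u / 2 ^ (e + 1)) = u := Nat.mod_add_div u _
  have e2 : u / 2 ^ (e + 1) % 2 + 2 ^ 1 * (u / 2 ^ (e + 1) / 2) = u / 2 ^ (e + 1) := by
    rw [pow_one]; exact Nat.mod_add_div _ 2
  rw [e1, ← hkm', hup] at key1
  rw [e2] at key2
  rw [key2, Nat.and_zero, zero_add, Nat.and_two_pow_sub_one_eq_mod, Nat.mod_mod,
    Nat.and_two_pow_sub_one_eq_mod, Nat.mod_eq_of_lt hcR] at key1
  -- key1 : pat = u % P + P * (2 ^ 1 * (u / P / 2))
  have hb2 : u / 2 ^ (e + 1) % 2 = 0 ∨ u / 2 ^ (e + 1) % 2 = 1 := by omega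
  have e3 : u = pat + 2 ^ (e + 1) * (u / 2 ^ (e + 1) % 2) := by
    have h3 : 2 ^ (e + 1) * (u / 2 ^ (e + 1)) =
        2 ^ (e + 1) * (u / 2 ^ (e + 1) % 2) + 2 ^ (e + 1) * (2 ^ 1 * (u / 2 ^ (e + 1) / 2)) := by
      rw [← Nat.mul_add, e2]
    omega
  rcases hb2 with h0 | h1
  · right
    rw [h0, mul_zero, add_zero] at e3
    omega
  · left
    rw [h1, mul_one] at e3
    omega

/-- a dense block of a trie, decoded from one numeral (no proof is attached: any trie may be
fed to `statement_of_sparseW`).  `spBlk fw t F` is the complete trie of depth `t` whose `2 ^ t`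
leaves are the fields (of `fw` bits) of `F`, the first coordinate being the most significant
index bit; the field `2 * c` is the leaf `c`, the field `2 * c + 1` is the leaf `-c`, and a zero
field or zero sub-block is `z`.  Recursor style for the kernel. -/
noncomputable def spBlk (fw : ℕ) (t : ℕ) : ℕ → Sp :=
  Nat.rec (motive := fun _ => ℕ → Sp)
    (fun f => cond (Nat.beq f 0) Sp.z
      (cond (Nat.beq (f % 2) 0) (Sp.l (f / 2) 0) (Sp.l 0 (f / 2))))
    (fun t ih => (fun (T : ℕ) (F : ℕ) =>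
      cond (Nat.beq F 0) Sp.z (Sp.n (ih (F % T)) (ih (F / T)))) (2 ^ (fw * 2 ^ t))) t

/-- a one-leaf sub-trie, decoded from the set `m` (as a number of `r` bits, first coordinate =
most significant bit) and the field `f` (as in `spBlk`) -/
noncomputable def spPth (r : ℕ) : ℕ → ℕ → Sp :=
  Nat.rec (motive := fun _ => ℕ → ℕ → Sp)
    (fun _ f => cond (Nat.beq (f % 2) 0) (Sp.l (f / 2) 0) (Sp.l 0 (f / 2)))
    (fun r ih => (fun (T : ℕ) (m f : ℕ) =>
      cond (Nat.beq (m / T) 0) (Sp.n (ih m f) Sp.z) (Sp.n Sp.z (ih (m % T) f))) (2 ^ r)) r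

/-- `statement_of_sparse` for a field of any width `w ≥ e + 2`, scale `sc = 2 ^ e`, offset `o`,
mask `km = 2 ^ w - 1 - 2 ^ (e + 1)` and pattern `pat = o - 2 ^ e`; the chunk hypotheses are one
`allChunks` fact and no field value is enumerated. -/
theorem statement_of_sparseW (w e o km pat d k h : ℕ) (s : Sp)
    (he : e + 2 ≤ w) (hkm : km + 2 ^ (e + 1) + 1 = 2 ^ w) (hpat : pat + 2 ^ e = o)
    (hb1 : absS s ≤ o) (hb2 : o + absS s < 2 ^ w)
    (hchunks : allChunks (chunkOK w o km pat k) h [(true, s)] = true)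
    (hdeg : chkS (k + h) d s = true) (h0 : c0S (k + h) s = 0)
    (hW : (d : ℤ) * ((2 ^ e : ℕ) : ℤ) ^ 2 < lvl1S (k + h) s ^ 2) (C : ℝ) :
    ∃ n : ℕ, ∃ f : (Fin n → Bool) → Bool, ∃ d : ℕ,
      (∃ x y, f x ≠ f y) ∧
      (∀ S : Finset (Fin n), d < S.card →
        ∑ x : Fin n → Bool, ((if f x then (1 : ℝ) else -1) * ∏ i ∈ S, (if x i then (1 : ℝ) else -1)) = 0) ∧
      C * Real.sqrt d <
        ∑ i : Fin n, (∑ x : Fin n → Bool, ((if f x then (1 : ℝ) else -1) * (if x i then (1 : ℝ) else -1))) / 2 ^ n := by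
  have h1 : 1 ≤ w := by omega
  have h2 : km < 2 ^ w := by
    rw [← hkm]
    exact Nat.lt_succ_of_le (Nat.le_add_right km _)
  have h3 : pat < 2 ^ w := by
    have h4 : pat ≤ o := by rw [← hpat]; exact Nat.le_add_right pat _
    exact lt_of_le_of_lt (le_trans h4 (Nat.le_add_right o _)) hb2
  have h5 : 0 < 2 ^ e := by positivity
  exact statement_of_sparse w o km pat (2 ^ e) d k h s h1 h2 h3 h5
    (leaf_gen w e o km pat he hkm hpat) hb1 hb2 (allChunks_sound _ h _ hchunks) hdeg h0 hW C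

end Crest.Agent.GS
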