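import Crest.Agent.GS.Fast

/-!
# Table-based packed certificate (fewer kernel steps, much less kernel memory)

`whtT` is `whtP` with the three lowest levels replaced by a lookup in a table of all `256`
level-three transforms, and `chkT` is `chkP` with the trivial branches pruned.  `certifyT k d m`
certifies a truth table on `k + 3` variables.
-/

set_option autoImplicit false

namespace Crest.Agent.GS

/-- only the lowest `2 ^ n` bits of the truth table matter -/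
lemma whtP_mod (B : ℕ) : ∀ (n m : ℕ), whtP B n (m % 2 ^ 2 ^ n) = whtP B n m
  | 0, m => by
    show 2 * (m % 2 ^ 2 ^ 0 % 2) = 2 * (m % 2)
    simp
  | n + 1, m => by
    have hT : (2 : ℕ) ^ 2 ^ (n + 1) = 2 ^ 2 ^ n * 2 ^ 2 ^ n := by
      rw [pow_succ, pow_mul, sq]
    have h1 : m % 2 ^ 2 ^ (n + 1) % 2 ^ 2 ^ n = m % 2 ^ 2 ^ n := by
      rw [hT]; exact Nat.mod_mul_right_mod _ _ _
    have h2 : m % 2 ^ 2 ^ (n + 1) / 2 ^ 2 ^ n = m / 2 ^ 2 ^ n % 2 ^ 2 ^ n := by
      rw [hT]; exact Nat.mod_mul_right_div_self _ _ _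
    show (whtP B n (m % 2 ^ 2 ^ (n + 1) / 2 ^ 2 ^ n) + whtP B n (m % 2 ^ 2 ^ (n + 1) % 2 ^ 2 ^ n)) +
        B ^ 2 ^ n * (whtP B n (m % 2 ^ 2 ^ (n + 1) / 2 ^ 2 ^ n) + 2 ^ (n + 1) * rep B n -
          whtP B n (m % 2 ^ 2 ^ (n + 1) % 2 ^ 2 ^ n)) =
      (whtP B n (m / 2 ^ 2 ^ n) + whtP B n (m % 2 ^ 2 ^ n)) +
        B ^ 2 ^ n * (whtP B n (m / 2 ^ 2 ^ n) + 2 ^ (n + 1) * rep B n - whtP B n (m % 2 ^ 2 ^ n))
    rw [h1, h2, whtP_mod B n (m / 2 ^ 2 ^ n)]

/-- the packed transform is below `B ^ 2 ^ n` -/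
lemma whtP_lt (B : ℕ) (hB2 : 2 ≤ B) (n m : ℕ) (hB : 2 ^ (n + 1) < B) : whtP B n m < B ^ 2 ^ n := by
  have h := whtP_eq B hB2 n m hB
  have hbd : Bd B (2 ^ n) n (wht n (mk n m)) := by
    refine bd_of_absLE B _ (2 ^ n) le_rfl ?_ n _ (absLE_wht n m)
    have : ((2 ^ (n + 1) : ℕ) : ℤ) < (B : ℤ) := by exact_mod_cast hB
    have e : ((2 ^ (n + 1) : ℕ) : ℤ) = 2 ^ n + 2 ^ n := by push_cast; ring
    linarith
  have := (pk_bound B _ n _ hbd).2
  rw [← h] at this
  exact_mod_cast this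

/-- a table of the values `f 0, …, f (k - 1)` packed with base `Q` -/
def tblOf (f : ℕ → ℕ) (Q : ℕ) : ℕ → ℕ
  | 0 => 0
  | k + 1 => tblOf f Q k + f k * Q ^ k

lemma tblOf_lt (f : ℕ → ℕ) (Q : ℕ) (hf : ∀ i, f i < Q) : ∀ k : ℕ, tblOf f Q k < Q ^ k
  | 0 => by simp [tblOf]
  | k + 1 => by
    have ih := tblOf_lt f Q hf k
    have h1 : f k * Q ^ k + Q ^ k ≤ Q * Q ^ k := by
      have : f k + 1 ≤ Q := hf k
      calc f k * Q ^ k + Q ^ k = (f k + 1) * Q ^ k := by ring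
        _ ≤ Q * Q ^ k := Nat.mul_le_mul_right _ this
    show tblOf f Q k + f k * Q ^ k < Q ^ (k + 1)
    rw [pow_succ']
    omega

lemma tblOf_digit (f : ℕ → ℕ) (Q : ℕ) (hf : ∀ i, f i < Q) :
    ∀ (k j : ℕ), j < k → tblOf f Q k / Q ^ j % Q = f j
  | 0, j, h => by omega
  | k + 1, j, h => by
    have hQ : 0 < Q := lt_of_le_of_lt (Nat.zero_le _) (hf 0)
    have hQj : 0 < Q ^ j := Nat.pos_of_ne_zero (by positivity)
    show (tblOf f Q k + f k * Q ^ k) / Q ^ j % Q = f j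
    by_cases hjk : j < k
    · have e2 : Q ^ k = Q ^ j * (Q * Q ^ (k - j - 1)) := by
        have hk : j + (k - j - 1 + 1) = k := by omega
        calc Q ^ k = Q ^ (j + (k - j - 1 + 1)) := by rw [hk]
          _ = Q ^ j * (Q * Q ^ (k - j - 1)) := by rw [pow_add, pow_succ]; ring
      have e : f k * Q ^ k = Q ^ j * (Q * (f k * Q ^ (k - j - 1))) := by
        rw [e2]; ring
      rw [e, Nat.add_mul_div_left _ _ hQj, Nat.add_mul_mod_self_left]
      exact tblOf_digit f Q hf k j hjk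
    · have hj : j = k := by omega
      subst hj
      rw [Nat.add_mul_div_right _ _ hQj, Nat.div_eq_of_lt (tblOf_lt f Q hf j), zero_add,
        Nat.mod_eq_of_lt (hf j)]

/-- `whtP (k + 3)`, recursor style, with a table lookup at level three -/
def whtT (B : ℕ) (k : ℕ) : ℕ → ℕ :=
  (fun (tb Q : ℕ) =>
    Nat.rec (motive := fun _ => ℕ → ℕ) (fun m => tb / Q ^ (m % 256) % Q)
      (fun k ih =>
        (fun (T TB off : ℕ) (m : ℕ) =>
          (fun (a b : ℕ) => (b + a) + TB * (b + off - a)) (ih (m % T)) (ih (m / T)))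
          (2 ^ 2 ^ (k + 3)) (B ^ 2 ^ (k + 3)) (2 ^ (k + 3 + 1) * rep B (k + 3))) k)
    (tblOf (whtP B 3) (B ^ 8) 256) (B ^ 8)

lemma whtT_eq (B : ℕ) (hB : 16 < B) : ∀ (k m : ℕ), whtT B k m = whtP B (k + 3) m
  | 0, m => by
    show tblOf (whtP B 3) (B ^ 8) 256 / (B ^ 8) ^ (m % 256) % B ^ 8 = whtP B 3 m
    have hf : ∀ i, whtP B 3 i < B ^ 8 := by
      intro i
      have := whtP_lt B (by omega) 3 i (by norm_num; omega)
      simpa using this
    rw [tblOf_digit (whtP B 3) (B ^ 8) hf 256 (m % 256) (Nat.mod_lt _ (by norm_num))]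
    have := whtP_mod B 3 m
    norm_num at this
    exact this
  | k + 1, m => by
    show (whtT B k (m / 2 ^ 2 ^ (k + 3)) + whtT B k (m % 2 ^ 2 ^ (k + 3))) +
        B ^ 2 ^ (k + 3) * (whtT B k (m / 2 ^ 2 ^ (k + 3)) + 2 ^ (k + 3 + 1) * rep B (k + 3) -
          whtT B k (m % 2 ^ 2 ^ (k + 3))) = whtP B (k + 3 + 1) m
    rw [whtT_eq B hB k, whtT_eq B hB k]
    rfl

lemma chkP_of_le (B o : ℕ) : ∀ (n d V : ℕ), n ≤ d → chkP B o n d V = true
  | 0, _, _, _ => rfl
  | n + 1, 0, _, h => by omega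
  | n + 1, d' + 1, V, h => by
    show (chkP B o n (d' + 1) (V % B ^ 2 ^ n) && chkP B o n d' (V / B ^ 2 ^ n)) = true
    rw [chkP_of_le B o n (d' + 1) _ (by omega), chkP_of_le B o n d' _ (by omega)]
    rfl

/-- `chkP`, recursor style, with the trivial branches pruned -/
def chkT (B o : ℕ) (n : ℕ) : ℕ → ℕ → Bool :=
  Nat.rec (motive := fun _ => ℕ → ℕ → Bool) (fun _ _ => true)
    (fun n ih =>
      (fun (TB z : ℕ) (d V : ℕ) =>
        Nat.ble (n + 1) d ||
          (ih d (V % TB) &&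
            (Nat.rec (motive := fun _ => Bool) (decide (V / TB = z)) (fun d' _ => ih d' (V / TB)) d)))
        (B ^ 2 ^ n) (o * rep B n)) n

lemma chkT_sound (B o : ℕ) : ∀ (n d V : ℕ), chkT B o n d V = true → chkP B o n d V = true
  | 0, _, _, _ => rfl
  | n + 1, d, V, h => by
    by_cases hle : n + 1 ≤ d
    · exact chkP_of_le B o (n + 1) d V hle
    · have hb : Nat.ble (n + 1) d = false := by
        rw [Bool.eq_false_iff]
        intro hc
        exact hle (Nat.le_of_ble_eq_true hc)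
      cases d with
      | zero =>
        have h' : (Nat.ble (n + 1) 0 ||
            (chkT B o n 0 (V % B ^ 2 ^ n) && decide (V / B ^ 2 ^ n = o * rep B n))) = true := h
        rw [hb, Bool.false_or, Bool.and_eq_true] at h'
        show (chkP B o n 0 (V % B ^ 2 ^ n) && decide (V / B ^ 2 ^ n = o * rep B n)) = true
        rw [chkT_sound B o n 0 _ h'.1, h'.2]
        rfl
      | succ d' =>
        have h' : (Nat.ble (n + 1) (d' + 1) ||
            (chkT B o n (d' + 1) (V % B ^ 2 ^ n) && chkT B o n d' (V / B ^ 2 ^ n))) = true := h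
        rw [hb, Bool.false_or, Bool.and_eq_true] at h'
        show (chkP B o n (d' + 1) (V % B ^ 2 ^ n) && chkP B o n d' (V / B ^ 2 ^ n)) = true
        rw [chkT_sound B o n (d' + 1) _ h'.1, chkT_sound B o n d' _ h'.2]
        rfl

/-- the table-based certificate for a truth table on `k + 3` variables -/
def certifyT (k d m : ℕ) : Bool :=
  (fun (V : ℕ) =>
    chkT (2 ^ (k + 3 + 2)) (2 ^ (k + 3)) (k + 3) d V &&
      (decide (c0P (2 ^ (k + 3 + 2)) (2 ^ (k + 3)) (k + 3) V = 0) &&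
        decide ((d : ℤ) * 4 ^ (k + 3) < lvl1P (2 ^ (k + 3 + 2)) (2 ^ (k + 3)) (k + 3) V ^ 2)))
    (whtT (2 ^ (k + 3 + 2)) k m)

lemma certifyT_sound (k d m : ℕ) (h : certifyT k d m = true) : certifyP (k + 3) d m = true := by
  have hB : 16 < 2 ^ (k + 3 + 2) := by
    have : 2 ^ 5 ≤ 2 ^ (k + 3 + 2) := Nat.pow_le_pow_right (by norm_num) (by omega)
    omega
  have h' : (chkT (2 ^ (k + 3 + 2)) (2 ^ (k + 3)) (k + 3) d (whtT (2 ^ (k + 3 + 2)) k m) &&
      (decide (c0P (2 ^ (k + 3 + 2)) (2 ^ (k + 3)) (k + 3) (whtT (2 ^ (k + 3 + 2)) k m) = 0) &&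
        decide ((d : ℤ) * 4 ^ (k + 3) <
          lvl1P (2 ^ (k + 3 + 2)) (2 ^ (k + 3)) (k + 3) (whtT (2 ^ (k + 3 + 2)) k m) ^ 2))) = true := h
  rw [whtT_eq _ hB, Bool.and_eq_true] at h'
  show (chkP (2 ^ (k + 3 + 2)) (2 ^ (k + 3)) (k + 3) d (whtP (2 ^ (k + 3 + 2)) (k + 3) m) &&
      (decide (c0P (2 ^ (k + 3 + 2)) (2 ^ (k + 3)) (k + 3) (whtP (2 ^ (k + 3 + 2)) (k + 3) m) = 0) &&
        decide ((d : ℤ) * 4 ^ (k + 3) <
          lvl1P (2 ^ (k + 3 + 2)) (2 ^ (k + 3)) (k + 3) (whtP (2 ^ (k + 3 + 2)) (k + 3) m) ^ 2))) = true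
  rw [chkT_sound _ _ _ _ _ h'.1, h'.2]
  rfl

/-- **A certified truth table on `k + 3` variables proves S0085** (table-based certificate). -/
theorem statement_of_certifyT (k d m : ℕ) (h : certifyT k d m = true) (C : ℝ) :
    ∃ n : ℕ, ∃ f : (Fin n → Bool) → Bool, ∃ d : ℕ,
      (∃ x y, f x ≠ f y) ∧
      (∀ S : Finset (Fin n), d < S.card →
        ∑ x : Fin n → Bool, ((if f x then (1 : ℝ) else -1) * ∏ i ∈ S, (if x i then (1 : ℝ) else -1)) = 0) ∧
      C * Real.sqrt d <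
        ∑ i : Fin n, (∑ x : Fin n → Bool, ((if f x then (1 : ℝ) else -1) * (if x i then (1 : ℝ) else -1))) / 2 ^ n :=
  statement_of_certifyP (k + 3) d m (certifyT_sound k d m h) C

/-! ### the same certificate with raw `Nat` operations (fewer kernel reduction steps) -/

/-- `whtT` written with the raw binary operations on `ℕ` that the kernel evaluates directly -/
def whtU (B : ℕ) (k : ℕ) : ℕ → ℕ :=
  (fun (tb Q : ℕ) =>
    Nat.rec (motive := fun _ => ℕ → ℕ) (fun m => Nat.mod (Nat.div tb (Nat.pow Q (Nat.mod m 256))) Q)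
      (fun k ih =>
        (fun (T TB off : ℕ) (m : ℕ) =>
          (fun (a b : ℕ) => Nat.add (Nat.add b a) (Nat.mul TB (Nat.sub (Nat.add b off) a)))
            (ih (Nat.mod m T)) (ih (Nat.div m T)))
          (Nat.pow 2 (Nat.pow 2 (Nat.add k 3))) (Nat.pow B (Nat.pow 2 (Nat.add k 3)))
          (Nat.mul (Nat.pow 2 (Nat.add k 4)) (rep B (Nat.add k 3)))) k)
    (tblOf (whtP B 3) (Nat.pow B 8) 256) (Nat.pow B 8)

lemma whtU_eq (B k : ℕ) : whtU B k = whtT B k := rfl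

/-- `chkT` written with raw operations -/
def chkU (B o : ℕ) (n : ℕ) : ℕ → ℕ → Bool :=
  Nat.rec (motive := fun _ => ℕ → ℕ → Bool) (fun _ _ => true)
    (fun n ih =>
      (fun (TB z : ℕ) (d V : ℕ) =>
        Bool.rec
          (Bool.rec false
            (Nat.rec (motive := fun _ => Bool) (Nat.beq (Nat.div V TB) z)
              (fun d' _ => ih d' (Nat.div V TB)) d)
            (ih d (Nat.mod V TB)))
          true (Nat.ble (Nat.add n 1) d))
        (Nat.pow B (Nat.pow 2 n)) (Nat.mul o (rep B n))) n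

lemma chkU_sound (B o : ℕ) : ∀ (n d V : ℕ), chkU B o n d V = true → chkP B o n d V = true
  | 0, _, _, _ => rfl
  | n + 1, d, V, h => by
    by_cases hle : n + 1 ≤ d
    · exact chkP_of_le B o (n + 1) d V hle
    · have hb : Nat.ble (n + 1) d = false := by
        rw [Bool.eq_false_iff]
        intro hc
        exact hle (Nat.le_of_ble_eq_true hc)
      cases d with
      | zero =>
        have h' : (Bool.rec
            (Bool.rec false (Nat.beq (V / B ^ 2 ^ n) (o * rep B n)) (chkU B o n 0 (V % B ^ 2 ^ n)))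
            true (Nat.ble (n + 1) 0) : Bool) = true := h
        rw [hb] at h'
        have h1 : chkU B o n 0 (V % B ^ 2 ^ n) = true := by
          cases hc : chkU B o n 0 (V % B ^ 2 ^ n)
          · rw [hc] at h'; exact absurd h' Bool.false_ne_true
          · rfl
        rw [h1] at h'
        have h2 : V / B ^ 2 ^ n = o * rep B n := Nat.eq_of_beq_eq_true h'
        show (chkP B o n 0 (V % B ^ 2 ^ n) && decide (V / B ^ 2 ^ n = o * rep B n)) = true
        rw [chkU_sound B o n 0 _ h1, h2]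
        simp
      | succ d' =>
        have h' : (Bool.rec
            (Bool.rec false (chkU B o n d' (V / B ^ 2 ^ n)) (chkU B o n (d' + 1) (V % B ^ 2 ^ n)))
            true (Nat.ble (n + 1) (d' + 1)) : Bool) = true := h
        rw [hb] at h'
        have h1 : chkU B o n (d' + 1) (V % B ^ 2 ^ n) = true := by
          cases hc : chkU B o n (d' + 1) (V % B ^ 2 ^ n)
          · rw [hc] at h'; exact absurd h' Bool.false_ne_true
          · rfl
        rw [h1] at h'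
        have h2 : chkU B o n d' (V / B ^ 2 ^ n) = true := h'
        show (chkP B o n (d' + 1) (V % B ^ 2 ^ n) && chkP B o n d' (V / B ^ 2 ^ n)) = true
        rw [chkU_sound B o n (d' + 1) _ h1, chkU_sound B o n d' _ h2]
        rfl

/-- the table-based certificate with raw operations, for a truth table on `k + 3` variables -/
def certifyU (k d m : ℕ) : Bool :=
  (fun (V : ℕ) =>
    Bool.rec false
      (decide (c0P (2 ^ (k + 3 + 2)) (2 ^ (k + 3)) (k + 3) V = 0) &&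
        decide ((d : ℤ) * 4 ^ (k + 3) < lvl1P (2 ^ (k + 3 + 2)) (2 ^ (k + 3)) (k + 3) V ^ 2))
      (chkU (2 ^ (k + 3 + 2)) (2 ^ (k + 3)) (k + 3) d V))
    (whtU (2 ^ (k + 3 + 2)) k m)

lemma certifyU_sound (k d m : ℕ) (h : certifyU k d m = true) : certifyP (k + 3) d m = true := by
  have hB : 16 < 2 ^ (k + 3 + 2) := by
    have : 2 ^ 5 ≤ 2 ^ (k + 3 + 2) := Nat.pow_le_pow_right (by norm_num) (by omega)
    omega
  have h' : (Bool.rec false
      (decide (c0P (2 ^ (k + 3 + 2)) (2 ^ (k + 3)) (k + 3) (whtT (2 ^ (k + 3 + 2)) k m) = 0) &&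
        decide ((d : ℤ) * 4 ^ (k + 3) <
          lvl1P (2 ^ (k + 3 + 2)) (2 ^ (k + 3)) (k + 3) (whtT (2 ^ (k + 3 + 2)) k m) ^ 2))
      (chkU (2 ^ (k + 3 + 2)) (2 ^ (k + 3)) (k + 3) d (whtT (2 ^ (k + 3 + 2)) k m)) : Bool) = true := h
  rw [whtT_eq _ hB] at h'
  have h1 : chkU (2 ^ (k + 3 + 2)) (2 ^ (k + 3)) (k + 3) d (whtP (2 ^ (k + 3 + 2)) (k + 3) m) = true := by
    cases hc : chkU (2 ^ (k + 3 + 2)) (2 ^ (k + 3)) (k + 3) d (whtP (2 ^ (k + 3 + 2)) (k + 3) m)
    · rw [hc] at h'; exact absurd h' Bool.false_ne_true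
    · rfl
  rw [h1] at h'
  show (chkP (2 ^ (k + 3 + 2)) (2 ^ (k + 3)) (k + 3) d (whtP (2 ^ (k + 3 + 2)) (k + 3) m) &&
      (decide (c0P (2 ^ (k + 3 + 2)) (2 ^ (k + 3)) (k + 3) (whtP (2 ^ (k + 3 + 2)) (k + 3) m) = 0) &&
        decide ((d : ℤ) * 4 ^ (k + 3) <
          lvl1P (2 ^ (k + 3 + 2)) (2 ^ (k + 3)) (k + 3) (whtP (2 ^ (k + 3 + 2)) (k + 3) m) ^ 2))) = true
  rw [chkU_sound _ _ _ _ _ h1]
  exact h'

/-- **A certified truth table on `k + 3` variables proves S0085** (fastest certificate: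
`statement_of_certifyU (N - 3) d M (by decide +kernel) C`). -/
theorem statement_of_certifyU (k d m : ℕ) (h : certifyU k d m = true) (C : ℝ) :
    ∃ n : ℕ, ∃ f : (Fin n → Bool) → Bool, ∃ d : ℕ,
      (∃ x y, f x ≠ f y) ∧
      (∀ S : Finset (Fin n), d < S.card →
        ∑ x : Fin n → Bool, ((if f x then (1 : ℝ) else -1) * ∏ i ∈ S, (if x i then (1 : ℝ) else -1)) = 0) ∧
      C * Real.sqrt d <
        ∑ i : Fin n, (∑ x : Fin n → Bool, ((if f x then (1 : ℝ) else -1) * (if x i then (1 : ℝ) else -1))) / 2 ^ n :=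
  statement_of_certifyP (k + 3) d m (certifyU_sound k d m h) C

end Crest.Agent.GS
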